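import Vale.Agent.P146.H332.Glob
import Vale.Agent.P146.H325.Main1

/-!
From the row to the global functionals: a system of active couplings with the share `t` in a
configuration at the time `t` has the law of the system at the time `t`.
-/

open MeasureTheory ProbabilityTheory

namespace Vale.Agent.P146.H332

open Vale.Agent.P157.Lv Vale.Agent.P146.H425 Vale.Agent.P146.H325

set_option linter.unusedSectionVars false

section gen

variable {ι : Type} [Fintype ι] [DecidableEq ι] {X : Type} [Fintype X] [Nonempty X]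

/-- The level `l` with active couplings `A0` of the share `s` is at the time `t`. -/
structure At (A0 : Finset ι) (l : Lvl ι) (s t : ℝ) : Prop where
  act : ∀ e ∈ A0, s = t
  c : ∀ e ∉ A0, l.c e = √(1 - t)
  ab : ∀ e ∉ A0, l.a e ^ 2 + l.b e ^ 2 = t

variable (k : ℝ) (S : ι → X → ℝ) (x : ℝ)

/-- unnormalised conditional expectation as a function of the position -/
noncomputable def Nf (t : ℝ) (F : (ι → ℝ) → ℝ) (y : ι → ℝ) : ℝ :=
  Tc (fun _ => 1 - t) (fun u => Zx k S x u * F u) y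

/-- conditional expectation as a function of the position -/
noncomputable def rf (t : ℝ) (F : (ι → ℝ) → ℝ) (y : ι → ℝ) : ℝ :=
  Nf k S x t F y / Nf k S x t (fun _ => 1) y

/-- gradient as a function of the position -/
noncomputable def Df (t : ℝ) (F : (ι → ℝ) → ℝ) (F' : ι → (ι → ℝ) → ℝ) (e : ι) (y : ι → ℝ) : ℝ :=
  rf k S x t (F' e) y - rf k S x t F y * rf k S x t (one' k S x e) y

variable {k S x} {A0 : Finset ι} {l : Lvl ι} {s t : ℝ}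

lemma Nl_at (h : At A0 l s t) (F : (ι → ℝ) → ℝ) (w : ι ⊕ ι → ℝ) :
    Nl k S x A0 l F s w = Nf k S x t F (u A0 l.a l.b s w) := by
  unfold Nl P Nf Tc
  refine integral_congr_ae (Filter.Eventually.of_forall fun z => ?_)
  have : pt A0 l.a l.b l.c s w z = fun e => u A0 l.a l.b s w e + √(1 - t) * z e := by
    funext e
    unfold pt
    by_cases he : e ∈ A0
    · rw [if_pos he, h.act e he]
    · rw [if_neg he, h.c e he]
  simp only [this]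

lemma rl_at (h : At A0 l s t) (F : (ι → ℝ) → ℝ) (w : ι ⊕ ι → ℝ) :
    rl k S x A0 l F s w = rf k S x t F (u A0 l.a l.b s w) := by
  unfold rl rf
  rw [Nl_at h, Nl_at h]

lemma Dl_at (h : At A0 l s t) (F : (ι → ℝ) → ℝ) (F' : ι → (ι → ℝ) → ℝ) (e : ι)
    (w : ι ⊕ ι → ℝ) :
    Dl k S x A0 l F F' e s w = Df k S x t F F' e (u A0 l.a l.b s w) := by
  unfold Dl Df th
  rw [rl_at h, rl_at h, rl_at h]

lemma eg_of_inl {H : (ι → ℝ) → ℝ} (h : EG fun w : ι ⊕ ι → ℝ => H fun e => w (Sum.inl e)) :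
    EG H := by
  obtain ⟨C, d, hC, hd, hb⟩ := h.bdd
  refine ⟨?_, C, d, hC, hd, fun y => ?_⟩
  · exact h.meas.comp (measurable_pi_lambda
      (fun (y : ι → ℝ) (j : ι ⊕ ι) => Sum.elim y (fun _ => (0 : ℝ)) j) (fun j => by
        cases j
        · simp only [Sum.elim_inl]; exact measurable_pi_apply _
        · simp only [Sum.elim_inr]; exact measurable_const))
  · have h3 := hb (Sum.elim y fun _ => 0)
    refine h3.trans ?_
    gcongr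
    rw [pi_norm_le_iff_of_nonneg (norm_nonneg _)]
    intro j
    cases j with
    | inl e => exact norm_le_pi_norm y e
    | inr e => simp

/-- the level with the position `w ∘ inl` -/
noncomputable def Lid (ι : Type) (t : ℝ) : Lvl ι := ⟨fun _ => 1, fun _ => 0, fun _ => √(1 - t)⟩

lemma u_Lid (s : ℝ) (w : ι ⊕ ι → ℝ) : u ∅ (Lid ι t).a (Lid ι t).b s w =
    fun e => w (Sum.inl e) := by
  funext e
  simp [u, Lid]

lemma Nl_Lid (F : (ι → ℝ) → ℝ) (s : ℝ) (w : ι ⊕ ι → ℝ) :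
    Nl k S x ∅ (Lid ι t) F s w = Nf k S x t F (fun e => w (Sum.inl e)) := by
  unfold Nl P Nf Tc
  refine integral_congr_ae (Filter.Eventually.of_forall fun z => ?_)
  have : pt ∅ (Lid ι t).a (Lid ι t).b (Lid ι t).c s w z =
      fun e => w (Sum.inl e) + √(1 - t) * z e := by
    funext e
    simp [pt, u, Lid]
  simp only [this]

lemma eg_Nf {F : (ι → ℝ) → ℝ} (hF : EG F) : EG (Nf k S x t F) :=
  EG.Tc (ebd hF) _

lemma eg_rf {F : (ι → ℝ) → ℝ} {F' : ι → (ι → ℝ) → ℝ} (hF : Ob k S x F F') (hx : 0 ≤ x) :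
    EG (rf k S x t F) := by
  refine eg_of_inl ?_
  have h := eg_rl (s := 0) ∅ (Lid ι t) hF hx ⟨le_rfl, zero_le_one⟩
  have e : (fun w : ι ⊕ ι → ℝ => rf k S x t F fun e => w (Sum.inl e)) =
      rl k S x ∅ (Lid ι t) F 0 := by
    funext w
    unfold rf rl
    rw [Nl_Lid, Nl_Lid]
  rw [e]
  exact h

/-- **The law of the position.** -/
theorem int_at (h : At A0 l s t) (ht : 0 ≤ t) {G : (ι → ℝ) → ℝ} (hG : EG G) :
    ∫ w, G (u A0 l.a l.b s w) ∂(gI (ι ⊕ ι)) = ∫ z, G (fun e => √t * z e) ∂(gI ι) := by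
  set a' : ι → ℝ := fun e => if e ∈ A0 then √t else l.a e with ha'
  set b' : ι → ℝ := fun e => if e ∈ A0 then 0 else l.b e with hb'
  have e1 : ∀ w : ι ⊕ ι → ℝ, G (u A0 l.a l.b s w) =
      G (fun e => (0 : ι → ℝ) e + a' e * w (Sum.inl e) + b' e * w (Sum.inr e)) := by
    intro w
    congr 1
    funext e
    by_cases he : e ∈ A0
    · simp [u, ha', hb', he, h.act e he]
    · simp [u, ha', hb', he]
  simp only [e1]
  have eg1 : EG fun w' : ι ⊕ ι → ℝ =>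
      G (fun e => (0 : ι → ℝ) e + a' e * w' (Sum.inl e) + b' e * w' (Sum.inr e)) := by
    obtain ⟨C, d, hC, hd, h2⟩ := hG.bdd
    refine ⟨hG.meas.comp (by fun_prop), C, d * (bK a' + bK b'),
      hC, mul_nonneg hd (add_nonneg (bK_nonneg _) (bK_nonneg _)),
      fun w' => (h2 _).trans ?_⟩
    refine mul_le_mul_of_nonneg_left (Real.exp_le_exp.2 ?_) hC
    rw [mul_assoc]
    refine mul_le_mul_of_nonneg_left ?_ hd
    rw [pi_norm_le_iff_of_nonneg (mul_nonneg (add_nonneg (bK_nonneg _) (bK_nonneg _))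
      (norm_nonneg _))]
    intro e
    have h4 := norm_le_pi_norm w' (Sum.inl e)
    have h5 := norm_le_pi_norm w' (Sum.inr e)
    have h6 := le_bK a' e
    have h7 := le_bK b' e
    rw [Pi.zero_apply, zero_add]
    refine (norm_add_le _ _).trans ?_
    rw [norm_mul, norm_mul, Real.norm_eq_abs (a' e), Real.norm_eq_abs (b' e)]
    have h8 := mul_le_mul h6 h4 (norm_nonneg _) (bK_nonneg _)
    have h9 := mul_le_mul h7 h5 (norm_nonneg _) (bK_nonneg _)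
    linarith
  rw [int_sum eg1]
  simp only [Sum.elim_inl, Sum.elim_inr]
  rw [rotv hG (a := a') (b := b') (c := fun _ => √t) (fun e => ?_) 0]
  · simp
  · simp only [ha', hb']
    by_cases he : e ∈ A0
    · simp only [he, if_true]; ring
    · simp only [he, if_false]
      rw [h.ab e he, Real.sq_sqrt ht]

lemma at_univ (l : Lvl ι) (t : ℝ) : At Finset.univ l t t :=
  ⟨fun _ _ => rfl, fun e he => (he (Finset.mem_univ e)).elim,
    fun e he => (he (Finset.mem_univ e)).elim⟩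

/-- **The transfer.** -/
theorem int_transfer (h : At A0 l s t) (ht : 0 ≤ t) (l' : Lvl ι) {G : (ι → ℝ) → ℝ} (hG : EG G) :
    ∫ w, G (u A0 l.a l.b s w) ∂(gI (ι ⊕ ι)) =
      ∫ w, G (u Finset.univ l'.a l'.b t w) ∂(gI (ι ⊕ ι)) := by
  rw [int_at h ht hG, int_at (at_univ l' t) ht hG]

end gen

variable {n : ℕ} {k x : ℝ}

/-- the level of the time `t1` -/
noncomputable def L1 (n : ℕ) (t1 : ℝ) : Lvl (Pair n) :=
  ⟨fun _ => √t1, fun _ => 0, fun _ => √(1 - t1)⟩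

/-- the level of the time `t2` -/
noncomputable def L2 (n : ℕ) (t1 t2 : ℝ) : Lvl (Pair n) :=
  ⟨fun _ => √t1, fun _ => √(t2 - t1), fun _ => √(1 - t2)⟩

variable {t1 t2 : ℝ} {b : Fin n}

lemma at_L1 (h1 : 0 ≤ t1) (A0 : Finset (Pair n)) : At A0 (L1 n t1) t1 t1 :=
  ⟨fun _ _ => rfl, fun _ _ => rfl, fun _ _ => by simp [L1, Real.sq_sqrt h1]⟩

lemma at_L2 (h1 : 0 ≤ t1) (h2 : t1 ≤ t2) (A0 : Finset (Pair n)) : At A0 (L2 n t1 t2) t2 t2 :=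
  ⟨fun _ _ => rfl, fun _ _ => rfl, fun _ _ => by
    simp only [L2]
    rw [Real.sq_sqrt h1, Real.sq_sqrt (by linarith)]
    ring⟩

lemma at_L1_empty (h1 : 0 ≤ t1) (s : ℝ) : At ∅ (L1 n t1) s t1 :=
  ⟨fun e he => (Finset.notMem_empty e he).elim, fun _ _ => rfl,
    fun _ _ => by simp [L1, Real.sq_sqrt h1]⟩

lemma at_L2_empty (h1 : 0 ≤ t1) (h2 : t1 ≤ t2) (s : ℝ) : At ∅ (L2 n t1 t2) s t2 :=
  ⟨fun e he => (Finset.notMem_empty e he).elim, fun _ _ => rfl, fun _ _ => by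
    simp only [L2]
    rw [Real.sq_sqrt h1, Real.sq_sqrt (by linarith)]
    ring⟩

/-- the full matrix for the active set `A0` -/
noncomputable def MA (k x : ℝ) (A0 : Finset (Pair n)) (l : Lvl (Pair n)) (s : ℝ)
    (w : Pair n ⊕ Pair n → ℝ) : Matrix (Fin n) (Fin n) ℝ :=
  fun i j => rl k SkS x A0 l (av k SkS (pr i j)) s w

lemma MA_row (l : Lvl (Pair n)) (s : ℝ) (w : Pair n ⊕ Pair n → ℝ) :
    MA k x (row b) l s w = MC k x b l s w := rfl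

lemma fr_MA_univ (l : Lvl (Pair n)) (s : ℝ) (w : Pair n ⊕ Pair n → ℝ) :
    fr (MA k x Finset.univ l s w) = Cg k x l s w := rfl

lemma C4_eq (l : Lvl (Pair n)) (s : ℝ) (w : Pair n ⊕ Pair n → ℝ) :
    fr (MA k x Finset.univ l s w * MA k x Finset.univ l s w) = C4 k x l s w := by
  unfold fr C4
  refine Finset.sum_congr rfl fun i _ => Finset.sum_congr rfl fun j _ => ?_
  rw [Matrix.mul_apply]
  rfl

/-- the matrix as a function of the position -/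
noncomputable def Mf (n : ℕ) (k x t : ℝ) (y : Pair n → ℝ) : Matrix (Fin n) (Fin n) ℝ :=
  fun i j => rf k SkS x t (av k SkS (pr i j)) y

lemma MA_at {A0 : Finset (Pair n)} {l : Lvl (Pair n)} {s t : ℝ} (h : At A0 l s t)
    (w : Pair n ⊕ Pair n → ℝ) : MA k x A0 l s w = Mf n k x t (u A0 l.a l.b s w) := by
  funext i j
  exact rl_at h _ w

lemma eg_Mf (hx : 0 ≤ x) (t : ℝ) (i j : Fin n) : EG fun y => Mf n k x t y i j :=
  eg_rf (ob_av k SkS x (pr i j)) hx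

lemma eg_fr {ι : Type} [Fintype ι] {f : (ι → ℝ) → Matrix (Fin n) (Fin n) ℝ}
    (h : ∀ i j, EG fun y => f y i j) : EG fun y => fr (f y) := by
  unfold fr
  exact EG.sum _ fun i _ => EG.sum _ fun j _ => (h i j).pow 2

lemma eg_mul {ι : Type} [Fintype ι] {f g : (ι → ℝ) → Matrix (Fin n) (Fin n) ℝ}
    (hf : ∀ i j, EG fun y => f y i j) (hg : ∀ i j, EG fun y => g y i j) (i j : Fin n) :
    EG fun y => (f y * g y) i j := by
  simp only [Matrix.mul_apply]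
  exact EG.sum _ fun p _ => (hf i p).mul (hg p j)

/-- **(X3), general**: integrals of matrix functionals at the time `t`. -/
theorem int_MA {A0 : Finset (Pair n)} {l : Lvl (Pair n)} {s t : ℝ} (h : At A0 l s t)
    (ht : 0 ≤ t) (hx : 0 ≤ x) (l' : Lvl (Pair n)) {Φ : Matrix (Fin n) (Fin n) ℝ → ℝ}
    (hΦ : EG fun y => Φ (Mf n k x t y)) :
    ∫ w, Nl k SkS x A0 l (fun _ => 1) s w * Φ (MA k x A0 l s w) ∂(gI (Pair n ⊕ Pair n)) =
      ∫ w, Nl k SkS x Finset.univ l' (fun _ => 1) t w * Φ (MA k x Finset.univ l' t w)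
        ∂(gI (Pair n ⊕ Pair n)) := by
  have hG : EG fun y => Nf k (SkS (n := n)) x t (fun _ => 1) y * Φ (Mf n k x t y) :=
    (eg_Nf (EG.const 1)).mul hΦ
  have h1 := int_transfer h ht l' hG
  have e1 : ∀ w, Nl k SkS x A0 l (fun _ => 1) s w * Φ (MA k x A0 l s w) =
      (fun y => Nf k (SkS (n := n)) x t (fun _ => 1) y * Φ (Mf n k x t y))
        (u A0 l.a l.b s w) := by
    intro w
    rw [Nl_at h, MA_at h]
  have e2 : ∀ w, Nl k SkS x Finset.univ l' (fun _ => 1) t w * Φ (MA k x Finset.univ l' t w) =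
      (fun y => Nf k (SkS (n := n)) x t (fun _ => 1) y * Φ (Mf n k x t y))
        (u Finset.univ l'.a l'.b t w) := by
    intro w
    rw [Nl_at (at_univ l' t), MA_at (at_univ l' t)]
  simp only [e1, e2]
  exact h1

theorem int_fr {A0 : Finset (Pair n)} {l : Lvl (Pair n)} {s t : ℝ} (h : At A0 l s t)
    (ht : t ∈ Set.Icc (0 : ℝ) 1) (hx : 0 ≤ x) (hn : 0 < n) (l' : Lvl (Pair n)) :
    ∫ w, Nl k SkS x A0 l (fun _ => 1) s w * fr (MA k x A0 l s w) ∂(gI (Pair n ⊕ Pair n)) =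
      (n : ℝ) ^ 2 * Z0 n k x * Rg k x l' t := by
  have hn' : (0 : ℝ) < n := Nat.cast_pos.2 hn
  have hZ := Z0p (n := n) k x
  rw [int_MA h ht.1 hx l' (Φ := fr) (eg_fr (eg_Mf hx t))]
  unfold Rg Et
  simp only [fr_MA_univ]
  field_simp

theorem int_fr_sq {A0 : Finset (Pair n)} {l : Lvl (Pair n)} {s t : ℝ} (h : At A0 l s t)
    (ht : t ∈ Set.Icc (0 : ℝ) 1) (hx : 0 ≤ x) (hn : 0 < n) (l' : Lvl (Pair n)) :
    ∫ w, Nl k SkS x A0 l (fun _ => 1) s w * fr (MA k x A0 l s w) ^ 2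
        ∂(gI (Pair n ⊕ Pair n)) = (n : ℝ) ^ 4 * Z0 n k x * Mg k x l' t := by
  have hn' : (0 : ℝ) < n := Nat.cast_pos.2 hn
  have hZ := Z0p (n := n) k x
  rw [int_MA h ht.1 hx l' (Φ := fun M => fr M ^ 2) ((eg_fr (eg_Mf hx t)).pow 2)]
  unfold Mg Et
  simp only [fr_MA_univ]
  field_simp

theorem int_rank_one {A0 : Finset (Pair n)} {l : Lvl (Pair n)} {s t : ℝ} (h : At A0 l s t)
    (ht : t ∈ Set.Icc (0 : ℝ) 1) (hk : k ≠ 0) (hx : 0 < x) (hx1 : x ≤ 1) (hn : 0 < n)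
    (l' : Lvl (Pair n)) :
    ∫ w, Nl k SkS x A0 l (fun _ => 1) s w *
        (fr (MA k x A0 l s w) ^ 2 - fr (MA k x A0 l s w * MA k x A0 l s w))
          ∂(gI (Pair n ⊕ Pair n)) ≤
      (n : ℝ) ^ 4 * Z0 n k x * (4 / (k ^ 2 * x ^ 2 * (n : ℝ) ^ 2) * Rg1 k x l' t) := by
  have hn' : (0 : ℝ) < n := Nat.cast_pos.2 hn
  have hZ := Z0p (n := n) k x
  rw [int_MA h ht.1 hx.le l' (Φ := fun M => fr M ^ 2 - fr (M * M))
    (((eg_fr (eg_Mf hx.le t)).pow 2).sub (eg_fr (eg_mul (eg_Mf hx.le t) (eg_Mf hx.le t))))]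
  have h1 := rank_one l' hk hx hx1 ht
  rw [div_le_iff₀ (by positivity)] at h1
  unfold Et at h1
  rw [div_le_iff₀ hZ] at h1
  simp only [fr_MA_univ, C4_eq]
  refine h1.trans (le_of_eq ?_)
  ring

/-- the rate of one coupling as a function of the position -/
noncomputable def Gf (n : ℕ) (k x t : ℝ) (e : Pair n) (y : Pair n → ℝ) : ℝ :=
  Nf k SkS x t (fun _ => 1) y *
    ∑ i, ∑ j, Df k SkS x t (av k SkS (pr i j)) (av' k SkS x (pr i j)) e y ^ 2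

lemma eg_Df (hx : 0 ≤ x) (t : ℝ) (e : Pair n) (i j : Fin n) :
    EG (Df k SkS x t (av k SkS (pr i j)) (av' k SkS x (pr i j)) e) := by
  obtain ⟨G', hG'⟩ := ob_av' (k := k) (S := SkS (n := n)) (x := x) (pr i j) e
  have h1 : Ob k SkS x (one' k SkS x e) _ := (ob_av k SkS x (SkS e)).const_mul (k * x)
  exact (eg_rf hG' hx).sub ((eg_rf (ob_av k SkS x (pr i j)) hx).mul (eg_rf h1 hx))

lemma eg_Gf (hx : 0 ≤ x) (t : ℝ) (e : Pair n) : EG (Gf n k x t e) :=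
  (eg_Nf (EG.const 1)).mul
    (EG.sum _ fun i _ => EG.sum _ fun j _ => (eg_Df hx t e i j).pow 2)

lemma Gf_at {A0 : Finset (Pair n)} {l : Lvl (Pair n)} {s t : ℝ} (h : At A0 l s t) (e : Pair n)
    (w : Pair n ⊕ Pair n → ℝ) :
    Nl k SkS x A0 l (fun _ => 1) s w * ∑ i, ∑ j, Dl k SkS x A0 l
        (av k SkS (pr i j)) (av' k SkS x (pr i j)) e s w ^ 2 =
      Gf n k x t e (u A0 l.a l.b s w) := by
  unfold Gf
  rw [Nl_at h]
  congr 1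
  refine Finset.sum_congr rfl fun i _ => Finset.sum_congr rfl fun j _ => ?_
  rw [Dl_at h]

/-- the rates of the couplings in `A` -/
lemma int_rates {A0 A : Finset (Pair n)} {l : Lvl (Pair n)} {s t : ℝ} (h : At A0 l s t)
    (ht : t ∈ Set.Icc (0 : ℝ) 1) (hx : 0 ≤ x) :
    ∫ w, Nl k SkS x A0 l (fun _ => 1) s w * ∑ e ∈ A, ∑ i, ∑ j, Dl k SkS x A0 l
        (av k SkS (pr i j)) (av' k SkS x (pr i j)) e s w ^ 2 ∂(gI (Pair n ⊕ Pair n)) =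
      ∑ e ∈ A, ∫ z, Gf n k x t e (fun e => √t * z e) ∂(gI (Pair n)) := by
  have e2 : ∀ w, Nl k SkS x A0 l (fun _ => 1) s w * ∑ e ∈ A, ∑ i, ∑ j, Dl k SkS x A0 l
        (av k SkS (pr i j)) (av' k SkS x (pr i j)) e s w ^ 2 =
        (fun y => ∑ e ∈ A, Gf n k x t e y) (u A0 l.a l.b s w) := by
    intro w
    rw [Finset.mul_sum]
    exact Finset.sum_congr rfl fun e _ => Gf_at h e w
  have egs : EG (fun y => ∑ e ∈ A, Gf n k x t e y) := EG.sum A fun e _ => eg_Gf hx t e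
  calc _ = ∫ w, (fun y => ∑ e ∈ A, Gf n k x t e y) (u A0 l.a l.b s w)
        ∂(gI (Pair n ⊕ Pair n)) := by rw [funext e2]
    _ = ∫ z, ∑ e ∈ A, Gf n k x t e (fun e => √t * z e) ∂(gI (Pair n)) :=
        int_at h ht.1 egs
    _ = _ := by
        refine integral_finsetSum _ fun e _ => ?_
        have := (EG.aff (eg_Gf (k := k) hx t e) 0 fun _ => √t).integrable
        simpa using this

/-- the rates of a row -/
theorem int_rate {l : Lvl (Pair n)} {s t : ℝ} (h : ∀ b : Fin n, At (row b) l s t)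
    (ht : t ∈ Set.Icc (0 : ℝ) 1) (hx : 0 ≤ x) (hn : 0 < n) (l' : Lvl (Pair n)) :
    ∑ b, ∫ w, H325.Nm k x b l s w * ∑ e ∈ row b, ∑ i, ∑ j, Dl k SkS x (row b) l
        (av k SkS (pr i j)) (av' k SkS x (pr i j)) e s w ^ 2 ∂(gI (Pair n ⊕ Pair n)) =
      2 * ((n : ℝ) ^ 2 * Z0 n k x * Rg1 k x l' t) := by
  have hn' : (0 : ℝ) < n := Nat.cast_pos.2 hn
  have hZ := Z0p (n := n) k x
  have e1 : ∀ b, ∫ w, H325.Nm k x b l s w * ∑ e ∈ row b, ∑ i, ∑ j, Dl k SkS x (row b) l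
        (av k SkS (pr i j)) (av' k SkS x (pr i j)) e s w ^ 2 ∂(gI (Pair n ⊕ Pair n)) =
      ∑ e ∈ row b, ∫ z, Gf n k x t e (fun e => √t * z e) ∂(gI (Pair n)) :=
    fun b => int_rates (h b) ht hx
  rw [Finset.sum_congr rfl fun b _ => e1 b,
    sum_rows fun e => ∫ z, Gf n k x t e (fun e => √t * z e) ∂(gI (Pair n))]
  congr 1
  rw [← int_rates (k := k) (x := x) (A := Finset.univ) (at_univ l' t) ht hx]
  unfold Rg1 Et Cr
  field_simp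

/-- (X3) (i): row `b`, level `L1`, share `t1` -/
theorem int_L1 (h1 : 0 ≤ t1) (h2 : t1 ≤ 1) (hx : 0 ≤ x) (hn : 0 < n) (l' : Lvl (Pair n))
    (b : Fin n) :
    ∫ w, H325.Nm k x b (L1 n t1) t1 w * fr (MC k x b (L1 n t1) t1 w) ^ 2
      ∂(gI (Pair n ⊕ Pair n)) = (n : ℝ) ^ 4 * Z0 n k x * Mg k x l' t1 ∧
    ∫ w, H325.Nm k x b (L1 n t1) t1 w * fr (MC k x b (L1 n t1) t1 w)
      ∂(gI (Pair n ⊕ Pair n)) = (n : ℝ) ^ 2 * Z0 n k x * Rg k x l' t1 :=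
  ⟨int_fr_sq (at_L1 h1 (row b)) ⟨h1, h2⟩ hx hn l', int_fr (at_L1 h1 (row b)) ⟨h1, h2⟩ hx hn l'⟩

/-- (X3) (i): row `b`, level `L2`, share `t2` -/
theorem int_L2 (h1 : 0 ≤ t1) (h12 : t1 ≤ t2) (h2 : t2 ≤ 1) (hx : 0 ≤ x) (hn : 0 < n)
    (l' : Lvl (Pair n)) (b : Fin n) :
    ∫ w, H325.Nm k x b (L2 n t1 t2) t2 w * fr (MC k x b (L2 n t1 t2) t2 w) ^ 2
      ∂(gI (Pair n ⊕ Pair n)) = (n : ℝ) ^ 4 * Z0 n k x * Mg k x l' t2 ∧
    ∫ w, H325.Nm k x b (L2 n t1 t2) t2 w * fr (MC k x b (L2 n t1 t2) t2 w)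
      ∂(gI (Pair n ⊕ Pair n)) = (n : ℝ) ^ 2 * Z0 n k x * Rg k x l' t2 :=
  ⟨int_fr_sq (at_L2 h1 h12 (row b)) ⟨h1.trans h12, h2⟩ hx hn l',
    int_fr (at_L2 h1 h12 (row b)) ⟨h1.trans h12, h2⟩ hx hn l'⟩

/-- (X3) (ii) -/
theorem rate_L1 (h1 : 0 ≤ t1) (h2 : t1 ≤ 1) (hx : 0 ≤ x) (hn : 0 < n) (l' : Lvl (Pair n)) :
    ∑ b, ∫ w, H325.Nm k x b (L1 n t1) t1 w * ∑ e ∈ row b, ∑ i, ∑ j, Dl k SkS x (row b) (L1 n t1)
        (av k SkS (pr i j)) (av' k SkS x (pr i j)) e t1 w ^ 2 ∂(gI (Pair n ⊕ Pair n)) =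
      2 * ((n : ℝ) ^ 2 * Z0 n k x * Rg1 k x l' t1) :=
  int_rate (fun b => at_L1 h1 (row b)) ⟨h1, h2⟩ hx hn l'

theorem rate_L2 (h1 : 0 ≤ t1) (h12 : t1 ≤ t2) (h2 : t2 ≤ 1) (hx : 0 ≤ x) (hn : 0 < n)
    (l' : Lvl (Pair n)) :
    ∑ b, ∫ w, H325.Nm k x b (L2 n t1 t2) t2 w * ∑ e ∈ row b, ∑ i, ∑ j,
      Dl k SkS x (row b) (L2 n t1 t2)
        (av k SkS (pr i j)) (av' k SkS x (pr i j)) e t2 w ^ 2 ∂(gI (Pair n ⊕ Pair n)) =
      2 * ((n : ℝ) ^ 2 * Z0 n k x * Rg1 k x l' t2) :=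
  int_rate (fun b => at_L2 h1 h12 (row b)) ⟨h1.trans h12, h2⟩ hx hn l'

/-! ### the two levels with the density of the second -/

lemma u_indep_inr {A0 : Finset (Pair n)} (a : Pair n → ℝ) (s : ℝ) (w : Pair n ⊕ Pair n → ℝ)
    (e : Pair n) (t : ℝ) : u A0 a (fun _ => 0) s (Function.update w (Sum.inr e) t) =
      u A0 a (fun _ => 0) s w := by
  funext j
  have h1 : (Sum.inl j : Pair n ⊕ Pair n) ≠ Sum.inr e := Sum.inl_ne_inr
  unfold u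
  rw [Function.update_of_ne h1]
  simp

lemma Nl_L1_indep {A0 : Finset (Pair n)} (F : (Pair n → ℝ) → ℝ) (s : ℝ)
    (w : Pair n ⊕ Pair n → ℝ) (e : Pair n) (t : ℝ) :
    Nl k SkS x A0 (L1 n t1) F s (Function.update w (Sum.inr e) t) =
      Nl k SkS x A0 (L1 n t1) F s w := by
  unfold Nl P pt
  have := u_indep_inr (A0 := A0) (L1 n t1).a s w e t
  have h2 : (L1 n t1).b = fun _ => 0 := rfl
  rw [h2, this]

lemma MA_L1_indep {A0 : Finset (Pair n)} (s : ℝ)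
    (w : Pair n ⊕ Pair n → ℝ) (e : Pair n) (t : ℝ) :
    MA k x A0 (L1 n t1) s (Function.update w (Sum.inr e) t) = MA k x A0 (L1 n t1) s w := by
  funext i j
  unfold MA rl
  rw [Nl_L1_indep, Nl_L1_indep]

/-- the density of the level `L2` against functions of the level `L1` -/
theorem dens_L2_L1 {A0 : Finset (Pair n)} (h12 : t1 ≤ t2) (h2 : t2 ≤ 1)
    {s : ℝ} (hs : s ∈ Set.Icc (0 : ℝ) 1) {φ : (Pair n ⊕ Pair n → ℝ) → ℝ} (hφ : EG φ)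
    (hind : ∀ e, ∀ w t, φ (Function.update w (Sum.inr e) t) = φ w) :
    ∫ w, Nl k SkS x A0 (L2 n t1 t2) (fun _ => 1) s w * φ w ∂(gI (Pair n ⊕ Pair n)) =
      ∫ w, Nl k SkS x A0 (L1 n t1) (fun _ => 1) s w * φ w ∂(gI (Pair n ⊕ Pair n)) := by
  have h := conv_T3 (A0 := A0) (a := (L2 n t1 t2).a) (b := (L2 n t1 t2).b)
    (c := (L2 n t1 t2).c) (c1 := (L1 n t1).c) (F := fun u => Zx k (SkS (n := n)) x u * 1)
    (φ := φ) (ob_one k SkS x).eg hφ hind (fun e _ => by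
      simp only [L1, L2]
      rw [Real.sq_sqrt (by linarith), Real.sq_sqrt (by linarith), Real.sq_sqrt (by linarith)]
      ring) hs
  have e1 : ∀ w, Nl k SkS x A0 (L2 n t1 t2) (fun _ => 1) s w * φ w =
      φ w * P A0 (L2 n t1 t2).a (L2 n t1 t2).b (L2 n t1 t2).c
        (fun u => Zx k (SkS (n := n)) x u * 1) s w := fun w => mul_comm _ _
  have e2 : ∀ w, Nl k SkS x A0 (L1 n t1) (fun _ => 1) s w * φ w =
      φ w * P A0 (L2 n t1 t2).a 0 (L1 n t1).c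
        (fun u => Zx k (SkS (n := n)) x u * 1) s w := fun w => mul_comm _ _
  simp only [e1, e2]
  exact h

lemma eg_MA {A0 : Finset (Pair n)} (hx : 0 ≤ x) (l : Lvl (Pair n)) {s : ℝ}
    (hs : s ∈ Set.Icc (0 : ℝ) 1) (i j : Fin n) : EG fun w => MA k x A0 l s w i j :=
  eg_rl A0 l (ob_av k SkS x (pr i j)) hx hs

/-- (X3) (iii), `i = 2` -/
theorem full_L2 (h1 : 0 ≤ t1) (h12 : t1 ≤ t2) (h2 : t2 ≤ 1) (hx : 0 ≤ x) (hn : 0 < n)
    (l' : Lvl (Pair n)) (s s' : ℝ) :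
    ∫ w, Nl k SkS x ∅ (L2 n t1 t2) (fun _ => 1) s w * fr (MA k x ∅ (L2 n t1 t2) s' w) ^ 2
      ∂(gI (Pair n ⊕ Pair n)) = (n : ℝ) ^ 4 * Z0 n k x * Mg k x l' t2 := by
  have e : MA k x ∅ (L2 n t1 t2) s' = MA k x ∅ (L2 n t1 t2) s := by
    funext w i j
    unfold MA rl Nl
    rw [P_empty _ _ _ _ s' s, P_empty _ _ _ _ s' s]
  rw [e]
  exact int_fr_sq (at_L2_empty h1 h12 s) ⟨h1.trans h12, h2⟩ hx hn l'

/-- (X3) (iii), `i = 1` -/
theorem full_L1 (h1 : 0 ≤ t1) (h12 : t1 ≤ t2) (h2 : t2 ≤ 1) (hx : 0 ≤ x) (hn : 0 < n)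
    (l' : Lvl (Pair n)) {s : ℝ} (hs : s ∈ Set.Icc (0 : ℝ) 1) :
    ∫ w, Nl k SkS x ∅ (L2 n t1 t2) (fun _ => 1) s w * fr (MA k x ∅ (L1 n t1) s w) ^ 2
      ∂(gI (Pair n ⊕ Pair n)) = (n : ℝ) ^ 4 * Z0 n k x * Mg k x l' t1 := by
  rw [dens_L2_L1 h12 h2 hs ((eg_fr (eg_MA hx (L1 n t1) hs)).pow 2)
    (fun e w t => by rw [MA_L1_indep])]
  exact int_fr_sq (at_L1_empty h1 s) ⟨h1, h12.trans h2⟩ hx hn l'

/-- (X3) (iii), rank one, `i = 2` -/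
theorem full_rank_L2 (h1 : 0 ≤ t1) (h12 : t1 ≤ t2) (h2 : t2 ≤ 1) (hk : k ≠ 0) (hx : 0 < x)
    (hx1 : x ≤ 1) (hn : 0 < n) (l' : Lvl (Pair n)) (s : ℝ) :
    ∫ w, Nl k SkS x ∅ (L2 n t1 t2) (fun _ => 1) s w *
        (fr (MA k x ∅ (L2 n t1 t2) s w) ^ 2 -
          fr (MA k x ∅ (L2 n t1 t2) s w * MA k x ∅ (L2 n t1 t2) s w))
          ∂(gI (Pair n ⊕ Pair n)) ≤
      (n : ℝ) ^ 4 * Z0 n k x * (4 / (k ^ 2 * x ^ 2 * (n : ℝ) ^ 2) * Rg1 k x l' t2) :=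
  int_rank_one (at_L2_empty h1 h12 s) ⟨h1.trans h12, h2⟩ hk hx hx1 hn l'

/-- (X3) (iii), rank one, `i = 1` -/
theorem full_rank_L1 (h1 : 0 ≤ t1) (h12 : t1 ≤ t2) (h2 : t2 ≤ 1) (hk : k ≠ 0) (hx : 0 < x)
    (hx1 : x ≤ 1) (hn : 0 < n) (l' : Lvl (Pair n)) {s : ℝ} (hs : s ∈ Set.Icc (0 : ℝ) 1) :
    ∫ w, Nl k SkS x ∅ (L2 n t1 t2) (fun _ => 1) s w *
        (fr (MA k x ∅ (L1 n t1) s w) ^ 2 -
          fr (MA k x ∅ (L1 n t1) s w * MA k x ∅ (L1 n t1) s w))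
          ∂(gI (Pair n ⊕ Pair n)) ≤
      (n : ℝ) ^ 4 * Z0 n k x * (4 / (k ^ 2 * x ^ 2 * (n : ℝ) ^ 2) * Rg1 k x l' t1) := by
  rw [dens_L2_L1 h12 h2 hs (((eg_fr (eg_MA hx.le (L1 n t1) hs)).pow 2).sub
    (eg_fr (eg_mul (eg_MA hx.le (L1 n t1) hs) (eg_MA hx.le (L1 n t1) hs))))
    (fun e w t => by rw [MA_L1_indep])]
  exact int_rank_one (at_L1_empty h1 s) ⟨h1, h12.trans h2⟩ hk hx hx1 hn l'

/-- the fourth moments of a row increase -/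
lemma mono_row (hx : 0 ≤ x) (l : Lvl (Pair n)) (b : Fin n) {s t : ℝ} (hs : 0 ≤ s) (hst : s ≤ t)
    (ht : t ≤ 1) :
    ∫ w, H325.Nm k x b l s w * fr (MC k x b l s w) ^ 2 ∂(gI (Pair n ⊕ Pair n)) ≤
      ∫ w, H325.Nm k x b l t w * fr (MC k x b l t w) ^ 2 ∂(gI (Pair n ⊕ Pair n)) := by
  have h := mono_sq_sq (k := k) (S := SkS (n := n)) (A0 := row b) (l := l)
    (Finset.univ : Finset (Fin n × Fin n))
    (f := fun a => rl k SkS x (row b) l (av k SkS (pr a.1 a.2))) hx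
    (fun a _ => mt_rl (ob_av k SkS x (pr a.1 a.2)) hx)
  have h2 := h ⟨hs, hst.trans ht⟩ ⟨hs.trans hst, ht⟩ hst
  simp only [Fintype.sum_prod_type] at h2
  exact h2

/-- (X3) (iv), `i = 2` -/
theorem row_L2_le (h1 : 0 ≤ t1) (h12 : t1 ≤ t2) (h2 : t2 ≤ 1) (hx : 0 ≤ x) (hn : 0 < n)
    (l' : Lvl (Pair n)) (b : Fin n) {s : ℝ} (hs : 0 ≤ s) (hst : s ≤ t2) :
    ∫ w, H325.Nm k x b (L2 n t1 t2) s w * fr (MC k x b (L2 n t1 t2) s w) ^ 2
      ∂(gI (Pair n ⊕ Pair n)) ≤ (n : ℝ) ^ 4 * Z0 n k x * Mg k x l' t2 :=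
  (mono_row hx _ b hs hst h2).trans (le_of_eq (int_L2 h1 h12 h2 hx hn l' b).1)

/-- (X3) (iv), `i = 1` -/
theorem row_L1_le (h1 : 0 ≤ t1) (h12 : t1 ≤ t2) (h2 : t2 ≤ 1) (hx : 0 ≤ x) (hn : 0 < n)
    (l' : Lvl (Pair n)) (b : Fin n) {s : ℝ} (hs : 0 ≤ s) (hst : s ≤ t1) :
    ∫ w, H325.Nm k x b (L2 n t1 t2) s w * fr (MC k x b (L1 n t1) s w) ^ 2
      ∂(gI (Pair n ⊕ Pair n)) ≤ (n : ℝ) ^ 4 * Z0 n k x * Mg k x l' t1 := by
  have hs1 : s ∈ Set.Icc (0 : ℝ) 1 := ⟨hs, hst.trans (h12.trans h2)⟩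
  have e := dens_L2_L1 (k := k) (x := x) (A0 := row b) h12 h2 hs1
    (φ := fun w => fr (MA k x (row b) (L1 n t1) s w) ^ 2)
    ((eg_fr (eg_MA hx (L1 n t1) hs1)).pow 2) (fun e w t => by rw [MA_L1_indep])
  have e' : ∫ w, H325.Nm k x b (L2 n t1 t2) s w * fr (MC k x b (L1 n t1) s w) ^ 2
      ∂(gI (Pair n ⊕ Pair n)) = ∫ w, H325.Nm k x b (L1 n t1) s w * fr (MC k x b (L1 n t1) s w) ^ 2
      ∂(gI (Pair n ⊕ Pair n)) := e
  rw [e']
  exact (mono_row hx _ b hs hst (h12.trans h2)).trans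
    (le_of_eq (int_L1 h1 (h12.trans h2) hx hn l' b).1)

/-- weights of the share `0` -/
lemma dens_weight (hx : 0 ≤ x) (l l0 : Lvl (Pair n)) (b : Fin n) {s : ℝ} (hs : s ∈ Set.Icc (0 : ℝ) 1) :
    ∫ w, H325.Nm k x b l s w * fr (MC k x b l0 0 w) ^ 2 ∂(gI (Pair n ⊕ Pair n)) =
      ∫ w, H325.Nm k x b l 0 w * fr (MC k x b l0 0 w) ^ 2 ∂(gI (Pair n ⊕ Pair n)) := by
  have h0 : (0 : ℝ) ∈ Set.Icc (0 : ℝ) 1 := ⟨le_rfl, zero_le_one⟩
  have h := Ob.weight_const (row b) l (ob_one k (SkS (n := n)) x)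
    (φ := fun w => fr (MA k x (row b) l0 0 w) ^ 2)
    ((eg_fr (eg_MA hx l0 h0)).pow 2) (fun e he w t => by
      congr 2
      funext i j
      exact rl_zero_update (row b) l0 _ he w t) le_rfl hs.1 hs.2
  exact h

/-- (X3) (iv), share `0`, `i = 2` -/
theorem row0_L2_le (h1 : 0 ≤ t1) (h12 : t1 ≤ t2) (h2 : t2 ≤ 1) (hx : 0 ≤ x) (hn : 0 < n)
    (l' : Lvl (Pair n)) (b : Fin n) {s : ℝ} (hs : s ∈ Set.Icc (0 : ℝ) 1) :
    ∫ w, H325.Nm k x b (L2 n t1 t2) s w * fr (MC k x b (L2 n t1 t2) 0 w) ^ 2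
      ∂(gI (Pair n ⊕ Pair n)) ≤ (n : ℝ) ^ 4 * Z0 n k x * Mg k x l' t2 := by
  rw [dens_weight hx _ _ b hs]
  exact row_L2_le h1 h12 h2 hx hn l' b le_rfl (h1.trans h12)

/-- (X3) (iv), share `0`, `i = 1` -/
theorem row0_L1_le (h1 : 0 ≤ t1) (h12 : t1 ≤ t2) (h2 : t2 ≤ 1) (hx : 0 ≤ x) (hn : 0 < n)
    (l' : Lvl (Pair n)) (b : Fin n) {s : ℝ} (hs : s ∈ Set.Icc (0 : ℝ) 1) :
    ∫ w, H325.Nm k x b (L2 n t1 t2) s w * fr (MC k x b (L1 n t1) 0 w) ^ 2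
      ∂(gI (Pair n ⊕ Pair n)) ≤ (n : ℝ) ^ 4 * Z0 n k x * Mg k x l' t1 := by
  rw [dens_weight hx _ _ b hs]
  exact row_L1_le h1 h12 h2 hx hn l' b le_rfl h1

end Vale.Agent.P146.H332
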