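import Vale.Agent.P146.H425.R1Def4
import Vale.Agent.P146.H712.RowP
import Vale.Agent.P146.H816.Swap
import Vale.Agent.P146.H816.Pairs
import Vale.Agent.P146.H332.R2G

/-!
Plan R1, block C (the two-site inequality): the objects.

* coordinates: `K4 (Pair n)` (four blocks of couplings), Gaussian measure `gI`;
* the law: density `dens q F` (`q : Par` collects `x θ t0 t1 s1 s2`);
* `Av R` (helper712) = Gaussian average over the coordinates in `R`; `AvP s R` = the same for a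
  function of one position, with the variance `s`;
* `AA k x s z` (helper325) = the matrix of the conditional expectations at the position `z`.
-/

open MeasureTheory ProbabilityTheory

namespace Vale.Agent.P146.R1C

open Vale.Agent.P157.Lv Vale.Agent.P146.H425 Vale.Agent.P146.H325 Vale.Agent.P146.H332
  Vale.Agent.P146.H712 Vale.Agent.P146.H816 Vale.Agent.P146.R1 Matrix

set_option linter.unusedSectionVars false

/-- The parameters: exponent, tilt of the value function, times. -/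
structure Par where
  x : ℝ
  θ : ℝ
  t0 : ℝ
  t1 : ℝ
  s1 : ℝ
  s2 : ℝ

/-- The conditions on the parameters. -/
structure Par.Ok (q : Par) : Prop where
  x0 : 0 < q.x
  x1 : q.x ≤ 1
  θ0 : 0 ≤ q.θ
  θ1 : q.θ ≤ 1
  h0 : 0 ≤ q.t0
  h01 : q.t0 ≤ q.t1
  h1 : q.t1 ≤ q.s1
  h12 : q.s1 ≤ q.s2
  h2 : q.s2 ≤ 1

section gen

variable {κ : Type} [Fintype κ] [DecidableEq κ]

/-- The positions at the times `t0`, `t1`, `s1`, `s2`. -/
noncomputable def P0 (q : Par) (w : K4 κ → ℝ) : κ → ℝ := p0 q.t0 w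
/-- The positions at the times `t0`, `t1`, `s1`, `s2`. -/
noncomputable def P1 (q : Par) (w : K4 κ → ℝ) : κ → ℝ := p1 q.t0 q.t1 w
/-- The positions at the times `t0`, `t1`, `s1`, `s2`. -/
noncomputable def P2 (q : Par) (w : K4 κ → ℝ) : κ → ℝ := p2 q.t0 q.t1 q.s1 w
/-- The positions at the times `t0`, `t1`, `s1`, `s2`. -/
noncomputable def P3 (q : Par) (w : K4 κ → ℝ) : κ → ℝ := p3 q.t0 q.t1 q.s1 q.s2 w

/-- The four copies of a set of couplings. -/
def lf (R : Finset κ) : Finset (K4 κ) := R.disjSum (R.disjSum (R.disjSum R))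

/-- The average over the couplings in `R` at the variance `s`. -/
noncomputable def AvP (s : ℝ) (R : Finset κ) (f : (κ → ℝ) → ℝ) (z : κ → ℝ) : ℝ :=
  ∫ g, f (sw R z (√s • g)) ∂(gI κ)

/-- The density of `P_θ` as a function of the coordinates. -/
noncomputable def dens (q : Par) (F : (κ → ℝ) → ℝ) (w : K4 κ → ℝ) : ℝ :=
  dn q.x q.θ q.t0 q.t1 q.s2 F (P0 q w) (P1 q w) (P3 q w)

/-- The mean, not normalized. -/
noncomputable def Ew (q : Par) (F : (κ → ℝ) → ℝ) (Φ : (K4 κ → ℝ) → ℝ) : ℝ :=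
  ∫ w, dens q F w * Φ w ∂(gI (K4 κ))

/-- The mean. -/
noncomputable def En (q : Par) (F : (κ → ℝ) → ℝ) (Φ : (K4 κ → ℝ) → ℝ) : ℝ :=
  Ew q F Φ / Ew q F (fun _ => 1)

lemma Ew_eq (q : Par) (F : (κ → ℝ) → ℝ) (Ψ : Fn4 κ) :
    Ew q F (fun w => Ψ (P0 q w) (P1 q w) (P2 q w) (P3 q w)) =
      Eu4 q.x q.θ q.t0 q.t1 q.s1 q.s2 F Ψ := rfl

lemma En_eq (q : Par) (F : (κ → ℝ) → ℝ) (Ψ : Fn4 κ) :
    En q F (fun w => Ψ (P0 q w) (P1 q w) (P2 q w) (P3 q w)) =
      Et4 q.x q.θ q.t0 q.t1 q.s1 q.s2 F Ψ := rfl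

lemma mem_lf {R : Finset κ} {j : K4 κ} : j ∈ lf R ↔
    (∃ e ∈ R, j = Sum.inl e) ∨ (∃ e ∈ R, j = Sum.inr (Sum.inl e)) ∨
      (∃ e ∈ R, j = Sum.inr (Sum.inr (Sum.inl e))) ∨
        ∃ e ∈ R, j = Sum.inr (Sum.inr (Sum.inr e)) := by
  unfold lf
  rcases j with j | j | j | j <;> simp

lemma sum_lf (R : Finset κ) (f : K4 κ → ℝ) : ∑ j ∈ lf R, f j =
    (∑ e ∈ R, f (Sum.inl e)) + ((∑ e ∈ R, f (Sum.inr (Sum.inl e))) +
      ((∑ e ∈ R, f (Sum.inr (Sum.inr (Sum.inl e)))) +
        ∑ e ∈ R, f (Sum.inr (Sum.inr (Sum.inr e))))) := by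
  unfold lf
  rw [Finset.sum_disjSum, Finset.sum_disjSum, Finset.sum_disjSum]

lemma lf_union (R R' : Finset κ) : lf (R ∪ R') = lf R ∪ lf R' := by
  ext j
  unfold lf
  rcases j with j | j | j | j <;> simp

lemma P0_sw (q : Par) (R : Finset κ) (w w' : K4 κ → ℝ) :
    P0 q (sw (lf R) w w') = sw R (P0 q w) (P0 q w') := by
  funext e
  by_cases he : e ∈ R <;> simp [P0, p0, c0, sw, lf, he]

lemma P1_sw (q : Par) (R : Finset κ) (w w' : K4 κ → ℝ) :
    P1 q (sw (lf R) w w') = sw R (P1 q w) (P1 q w') := by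
  funext e
  by_cases he : e ∈ R <;> simp [P1, p1, p0, c0, c1, sw, lf, he]

lemma P2_sw (q : Par) (R : Finset κ) (w w' : K4 κ → ℝ) :
    P2 q (sw (lf R) w w') = sw R (P2 q w) (P2 q w') := by
  funext e
  by_cases he : e ∈ R <;> simp [P2, p2, p1, p0, c0, c1, c2, sw, lf, he]

lemma P3_sw (q : Par) (R : Finset κ) (w w' : K4 κ → ℝ) :
    P3 q (sw (lf R) w w') = sw R (P3 q w) (P3 q w') := by
  funext e
  by_cases he : e ∈ R <;> simp [P3, p3, p2, p1, p0, c0, c1, c2, c3, sw, lf, he]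

/-- `AvP` in terms of `Av` -/
lemma AvP_eq (s : ℝ) (R : Finset κ) (f : (κ → ℝ) → ℝ) :
    AvP s R f = Av R fun y => f (sw R y (√s • y)) := by
  funext z
  unfold AvP Av
  congr 1
  funext g
  congr 1
  funext e
  by_cases he : e ∈ R <;> simp [sw, he]

end gen

/-! ### the SK objects at a position -/

variable {n : ℕ} (k x s : ℝ)

/-- The derivative of `AA` in the direction of the coupling `e`. -/
noncomputable def DC (e : Pair n) (z : Pair n → ℝ) : Matrix (Fin n) (Fin n) ℝ :=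
  fun i j => Df k SkS x s (av k SkS (pr i j)) (av' k SkS x (pr i j)) e z

/-- The row gradient `Hm` at a position: `∂_{(b,j)} C_{ib} = k * HH b i j`. -/
noncomputable def HH (b : Fin n) (z : Pair n → ℝ) : Matrix (Fin n) (Fin n) ℝ :=
  fun i j => AA k x s z i j -
    (1 - x) * RR k SkS x (cf s) (fun u => av k SkS (pr i b) u * av k SkS (pr j b) u) z -
    x * (AA k x s z i b * AA k x s z j b)

/-- The clean column of `b`: the row of `b'` is averaged. -/
noncomputable def cl (b b' : Fin n) (z : Pair n → ℝ) (i : Fin n) : ℝ :=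
  AvP s (row b') (fun z => AA k x s z i b) z

/-- The clean column, restricted to the bulk sites. -/
noncomputable def cl0 (b b' : Fin n) (z : Pair n → ℝ) (i : Fin n) : ℝ :=
  if i = b ∨ i = b' then 0 else cl k x s b b' z i

/-- The mean gradient of the clean column. -/
noncomputable def MM (b b' : Fin n) (z : Pair n → ℝ) : Matrix (Fin n) (Fin n) ℝ :=
  fun i j => k * AvP s (row b ∪ row b') (fun z => HH k x s b z i j) z

/-- `E_y |a|²` -/
noncomputable def ee (b b' : Fin n) (z : Pair n → ℝ) : ℝ :=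
  AvP s (row b ∪ row b') (fun z => ∑ i, cl0 k x s b b' z i ^ 2) z

variable {k x s}

lemma Mf_eq (z : Pair n → ℝ) : Mf n k x s z = AA k x s z := rfl

/-- `a`, function of the coordinates -/
noncomputable def Ca (k : ℝ) (q : Par) (b b' : Fin n) (w : K4 (Pair n) → ℝ) : Fin n → ℝ :=
  cl0 k q.x q.s1 b b' (P2 q w)

/-- `d`, function of the coordinates -/
noncomputable def Cd (k : ℝ) (q : Par) (b b' : Fin n) (w : K4 (Pair n) → ℝ) : Fin n → ℝ :=
  cl0 k q.x q.s2 b b' (P3 q w)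

/-- `S_a` -/
noncomputable def Sa (k : ℝ) (q : Par) (b b' : Fin n) (w : K4 (Pair n) → ℝ) :
    Matrix (Fin n) (Fin n) ℝ :=
  fun i j => Av (lf (row b ∪ row b')) (fun w => Ca k q b b' w i * Ca k q b b' w j) w

/-- `S_d` -/
noncomputable def Sd (k : ℝ) (q : Par) (b b' : Fin n) (w : K4 (Pair n) → ℝ) :
    Matrix (Fin n) (Fin n) ℝ :=
  fun i j => Av (lf (row b ∪ row b')) (fun w => Cd k q b b' w i * Cd k q b b' w j) w

/-- `N = E a d'` -/
noncomputable def Nd (k : ℝ) (q : Par) (b b' : Fin n) (w : K4 (Pair n) → ℝ) :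
    Matrix (Fin n) (Fin n) ℝ :=
  fun i j => Av (lf (row b ∪ row b')) (fun w => Ca k q b b' w i * Cd k q b b' w j) w

/-- `G` -/
noncomputable def Gb (k : ℝ) (q : Par) (b b' : Fin n) (w : K4 (Pair n) → ℝ) : ℝ :=
  ip (Sa k q b b' w) (Sd k q b b' w) - fr (Nd k q b b' w)

/-- the row vector `y` in the row of `b` -/
noncomputable def put (b : Fin n) (y : Fin n → ℝ) (z : Pair n → ℝ) : Pair n → ℝ :=
  fun e => if e ∈ row b then y (oth b e) else z e

end Vale.Agent.P146.R1C
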