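import Vale.Agent.P146.H332.KF

/-!
The basic functions of the heat calculus. `ι` is the set of the couplings, `A0` the active ones.
The position is `u s w e = √s w(inl e)` for `e ∈ A0` and `a e w(inl e) + b e w(inr e)` otherwise, and
`P F s w = E F(u s w + noise)`, the noise having the standard deviation `√(1 - s)` on `A0` and `c e`
otherwise. Then `P F` belongs to the class `KF` with the generator `0`.
-/

open MeasureTheory ProbabilityTheory Filter Topology

namespace Vale.Agent.P146.H332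

open Vale.Agent.P157.Lv

set_option linter.unusedSectionVars false

variable {ι : Type} [Fintype ι] [DecidableEq ι]

/-- The position. -/
noncomputable def u (A0 : Finset ι) (a b : ι → ℝ) (s : ℝ) (w : ι ⊕ ι → ℝ) : ι → ℝ := fun e =>
  if e ∈ A0 then √s * w (Sum.inl e) else a e * w (Sum.inl e) + b e * w (Sum.inr e)

/-- The position with the noise. -/
noncomputable def pt (A0 : Finset ι) (a b c : ι → ℝ) (s : ℝ) (w : ι ⊕ ι → ℝ) (z : ι → ℝ) :
    ι → ℝ := fun e => u A0 a b s w e + (if e ∈ A0 then √(1 - s) else c e) * z e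

/-- The smoothed function. -/
noncomputable def P (A0 : Finset ι) (a b c : ι → ℝ) (F : (ι → ℝ) → ℝ) (s : ℝ)
    (w : ι ⊕ ι → ℝ) : ℝ := ∫ z, F (pt A0 a b c s w z) ∂(gI ι)

/-- The constant in the bounds. -/
noncomputable def Mc (a b c : ι → ℝ) : ℝ := 1 + ∑ e, (|a e| + |b e| + |c e|)

section

variable {A0 : Finset ι} {a b c : ι → ℝ}

lemma Mc_nonneg (a b c : ι → ℝ) : 0 ≤ Mc a b c := by unfold Mc; positivity

lemma le_Mc (a b c : ι → ℝ) (e : ι) : |a e| + |b e| + |c e| ≤ Mc a b c := by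
  have h := Finset.single_le_sum (f := fun e => |a e| + |b e| + |c e|)
    (fun e _ => by positivity) (Finset.mem_univ e)
  unfold Mc
  linarith

lemma one_le_Mc (a b c : ι → ℝ) : 1 ≤ Mc a b c := by
  have : 0 ≤ ∑ e, (|a e| + |b e| + |c e|) := by positivity
  unfold Mc
  linarith

lemma norm_pt_le {s : ℝ} (hs : s ∈ Set.Icc (0 : ℝ) 1) (w : ι ⊕ ι → ℝ) (z : ι → ℝ) :
    ‖pt A0 a b c s w z‖ ≤ Mc a b c * (‖w‖ + ‖z‖) := by
  rw [pi_norm_le_iff_of_nonneg (mul_nonneg (Mc_nonneg _ _ _) (by positivity))]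
  intro e
  have h1 : |w (Sum.inl e)| ≤ ‖w‖ := by rw [← Real.norm_eq_abs]; exact norm_le_pi_norm w _
  have h2 : |w (Sum.inr e)| ≤ ‖w‖ := by rw [← Real.norm_eq_abs]; exact norm_le_pi_norm w _
  have h3 : |z e| ≤ ‖z‖ := by rw [← Real.norm_eq_abs]; exact norm_le_pi_norm z _
  have hM := le_Mc a b c e
  have hM1 := one_le_Mc a b c
  rw [Real.norm_eq_abs]
  unfold pt u
  split_ifs with he
  · have k1 : √s ≤ 1 := Real.sqrt_le_one.2 hs.2
    have k2 : √(1 - s) ≤ 1 := Real.sqrt_le_one.2 (by linarith [hs.1])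
    calc |√s * w (Sum.inl e) + √(1 - s) * z e| ≤ |√s * w (Sum.inl e)| + |√(1 - s) * z e| :=
          abs_add_le _ _
      _ = √s * |w (Sum.inl e)| + √(1 - s) * |z e| := by
          rw [abs_mul, abs_mul, abs_of_nonneg (Real.sqrt_nonneg _),
            abs_of_nonneg (Real.sqrt_nonneg _)]
      _ ≤ 1 * ‖w‖ + 1 * ‖z‖ := by gcongr
      _ ≤ Mc a b c * (‖w‖ + ‖z‖) := by nlinarith [norm_nonneg w, norm_nonneg z]
  · calc |a e * w (Sum.inl e) + b e * w (Sum.inr e) + c e * z e|
        ≤ |a e * w (Sum.inl e) + b e * w (Sum.inr e)| + |c e * z e| := abs_add_le _ _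
      _ ≤ |a e * w (Sum.inl e)| + |b e * w (Sum.inr e)| + |c e * z e| := by
          gcongr; exact abs_add_le _ _
      _ = |a e| * |w (Sum.inl e)| + |b e| * |w (Sum.inr e)| + |c e| * |z e| := by
          rw [abs_mul, abs_mul, abs_mul]
      _ ≤ |a e| * ‖w‖ + |b e| * ‖w‖ + |c e| * ‖z‖ := by gcongr
      _ ≤ Mc a b c * (‖w‖ + ‖z‖) := by
          nlinarith [norm_nonneg w, norm_nonneg z, abs_nonneg (a e), abs_nonneg (b e),
            abs_nonneg (c e)]

lemma measurable_pt (A0 : Finset ι) (a b c : ι → ℝ) (s : ℝ) :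
    Measurable fun p : (ι ⊕ ι → ℝ) × (ι → ℝ) => pt A0 a b c s p.1 p.2 := by
  refine measurable_pi_lambda _ fun e => ?_
  unfold pt u
  split_ifs
  · fun_prop
  · fun_prop

lemma measurable_pt_right (A0 : Finset ι) (a b c : ι → ℝ) (s : ℝ) (w : ι ⊕ ι → ℝ) :
    Measurable (pt A0 a b c s w) :=
  (measurable_pt A0 a b c s).comp (measurable_const.prodMk measurable_id)

lemma eg_pt {F : (ι → ℝ) → ℝ} (h : EG F) {s : ℝ} (hs : s ∈ Set.Icc (0 : ℝ) 1)
    (w : ι ⊕ ι → ℝ) : EG (fun z => F (pt A0 a b c s w z)) := by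
  obtain ⟨C, d, hC, hd, h1⟩ := h.bdd
  refine ⟨h.meas.comp (measurable_pt_right A0 a b c s w), C * Real.exp (d * Mc a b c * ‖w‖),
    d * Mc a b c, by positivity, mul_nonneg hd (Mc_nonneg _ _ _), fun z => (h1 _).trans ?_⟩
  rw [mul_assoc, ← Real.exp_add]
  gcongr
  calc d * ‖pt A0 a b c s w z‖ ≤ d * (Mc a b c * (‖w‖ + ‖z‖)) := by
        gcongr; exact norm_pt_le hs w z
    _ = _ := by ring

lemma pt_update {e : ι} (he : e ∈ A0) (s : ℝ) (w : ι ⊕ ι → ℝ) (z : ι → ℝ) (t : ℝ) :
    pt A0 a b c s (Function.update w (Sum.inl e) t) z =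
      Function.update (pt A0 a b c s w z) e (√s * t + √(1 - s) * z e) := by
  funext j
  by_cases hj : j = e
  · subst hj
    simp [pt, u, he]
  · have h1 : (Sum.inl j : ι ⊕ ι) ≠ Sum.inl e := fun h => hj (Sum.inl_injective h)
    have h2 : (Sum.inr j : ι ⊕ ι) ≠ Sum.inl e := Sum.inr_ne_inl
    simp [pt, u, Function.update_of_ne hj, Function.update_of_ne h1]

lemma pt_update_right {e : ι} (he : e ∈ A0) (s : ℝ) (w : ι ⊕ ι → ℝ) (z : ι → ℝ) (t : ℝ) :
    pt A0 a b c s w (Function.update z e t) =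
      Function.update (pt A0 a b c s w z) e (√s * w (Sum.inl e) + √(1 - s) * t) := by
  funext j
  by_cases hj : j = e
  · subst hj
    simp [pt, u, he]
  · simp [pt, u, Function.update_of_ne hj]

lemma cont_pt (A0 : Finset ι) (a b c : ι → ℝ) (w : ι ⊕ ι → ℝ) (z : ι → ℝ) :
    Continuous fun s => pt A0 a b c s w z := by
  refine continuous_pi fun e => ?_
  by_cases he : e ∈ A0
  · simp only [pt, u, he, if_true]
    fun_prop
  · simp only [pt, u, he, if_false]
    fun_prop

/-- The smoothed function has exponential growth and is continuous in the share. -/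
lemma ge_P {F : (ι → ℝ) → ℝ} (h : EG F) (hc : Continuous F) : GE (P A0 a b c F) := by
  obtain ⟨C, d, hC, hd, h1⟩ := h.bdd
  have hM := Mc_nonneg a b c
  have key : ∀ s ∈ Set.Icc (0 : ℝ) 1, ∀ w z, |F (pt A0 a b c s w z)| ≤
      C * Real.exp (d * Mc a b c * ‖w‖) * Real.exp (d * Mc a b c * ‖z‖) := by
    intro s hs w z
    refine (h1 _).trans ?_
    rw [mul_assoc, ← Real.exp_add]
    gcongr
    calc d * ‖pt A0 a b c s w z‖ ≤ d * (Mc a b c * (‖w‖ + ‖z‖)) := by
          gcongr; exact norm_pt_le hs w z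
      _ = _ := by ring
  refine ⟨fun s hs => ?_, ⟨C * ∫ z, Real.exp (d * Mc a b c * ‖z‖) ∂(gI ι), d * Mc a b c,
    mul_nonneg hC (integral_nonneg fun w => (Real.exp_pos _).le), by positivity,
    fun s hs w => ?_⟩, fun w => ?_⟩
  · exact (h.meas.comp (measurable_pt A0 a b c s)).stronglyMeasurable.integral_prod_right'.measurable
  · unfold P
    rw [← Real.norm_eq_abs]
    have : C * (∫ z, Real.exp (d * Mc a b c * ‖z‖) ∂(gI ι)) * Real.exp (d * Mc a b c * ‖w‖) =
        ∫ z, C * Real.exp (d * Mc a b c * ‖w‖) * Real.exp (d * Mc a b c * ‖z‖) ∂(gI ι) := by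
      rw [integral_const_mul]; ring
    rw [this]
    refine norm_integral_le_of_norm_le ((integrable_exp_norm _).const_mul _)
      (Filter.Eventually.of_forall fun z => ?_)
    rw [Real.norm_eq_abs]
    exact key s hs w z
  · refine continuousOn_of_dominated
      (bound := fun z => C * Real.exp (d * Mc a b c * ‖w‖) * Real.exp (d * Mc a b c * ‖z‖))
      (F := fun s z => F (pt A0 a b c s w z)) ?_ ?_ ?_ ?_
    · intro s hs
      exact (eg_pt h hs _).meas.aestronglyMeasurable
    · intro s hs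
      exact Filter.Eventually.of_forall fun z => by rw [Real.norm_eq_abs]; exact key s hs w z
    · exact (integrable_exp_norm _).const_mul _
    · exact Filter.Eventually.of_forall fun z =>
        (hc.comp (cont_pt A0 a b c w z)).continuousOn

lemma pd_P {H H' : (ι → ℝ) → ℝ} {e : ι} (hd : PD e H H') (hg : EG H) (hg' : EG H') (he : e ∈ A0)
    {s : ℝ} (hs : s ∈ Set.Icc (0 : ℝ) 1) :
    PD (Sum.inl e) (P A0 a b c H s) (fun w => √s * P A0 a b c H' s w) := by
  intro y x
  obtain ⟨C, d, hC, hd', h1⟩ := hg'.bdd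
  have hM := Mc_nonneg a b c
  have h0 : HasDerivAt (fun t => ∫ z, H (pt A0 a b c s (Function.update y (Sum.inl e) t) z) ∂(gI ι))
      (∫ z, √s * H' (pt A0 a b c s (Function.update y (Sum.inl e) x) z) ∂(gI ι)) x := by
    refine (hasDerivAt_integral_of_dominated_loc_of_deriv_le
      (F := fun t z => H (pt A0 a b c s (Function.update y (Sum.inl e) t) z))
      (F' := fun t z => √s * H' (pt A0 a b c s (Function.update y (Sum.inl e) t) z))
      (bound := fun z => C * Real.exp (d * (Mc a b c * (‖y‖ + |x| + 1))) *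
        Real.exp (d * Mc a b c * ‖z‖))
      (Metric.ball_mem_nhds x one_pos) ?_ ?_ ?_ ?_ ?_ ?_).2
    · exact Filter.Eventually.of_forall fun t => (eg_pt hg hs _).meas.aestronglyMeasurable
    · exact (eg_pt hg hs _).integrable
    · exact ((eg_pt hg' hs _).const_mul _).meas.aestronglyMeasurable
    · refine Filter.Eventually.of_forall fun w t ht => ?_
      rw [Metric.mem_ball, Real.dist_eq] at ht
      have h2 : ‖pt A0 a b c s (Function.update y (Sum.inl e) t) w‖ ≤
          Mc a b c * ((‖y‖ + |x| + 1) + ‖w‖) := by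
        refine (norm_pt_le hs _ _).trans ?_
        have h3 := norm_update_le y (Sum.inl e) t
        have h4 : |t| ≤ |x| + 1 := by
          have := abs_add_le (t - x) x
          rw [sub_add_cancel] at this
          linarith
        gcongr
        linarith
      have k1 : √s ≤ 1 := Real.sqrt_le_one.2 hs.2
      rw [Real.norm_eq_abs, abs_mul, abs_of_nonneg (Real.sqrt_nonneg s)]
      calc √s * |H' (pt A0 a b c s (Function.update y (Sum.inl e) t) w)|
          ≤ 1 * (C * Real.exp (d * ‖pt A0 a b c s (Function.update y (Sum.inl e) t) w‖)) := by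
            gcongr
            exact h1 _
        _ ≤ 1 * (C * Real.exp (d * (Mc a b c * ((‖y‖ + |x| + 1) + ‖w‖)))) := by gcongr
        _ = C * Real.exp (d * (Mc a b c * (‖y‖ + |x| + 1))) *
            Real.exp (d * Mc a b c * ‖w‖) := by
            rw [one_mul, mul_assoc, ← Real.exp_add]
            congr 2
            ring
    · exact (integrable_exp_norm _).const_mul _
    · refine Filter.Eventually.of_forall fun z t _ => ?_
      simp only [pt_update he]
      have h3 := hd (pt A0 a b c s y z) (√s * t + √(1 - s) * z e)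
      have h4 : HasDerivAt (fun t : ℝ => √s * t + √(1 - s) * z e) (√s) t := by
        simpa using ((hasDerivAt_id t).const_mul (√s)).add_const (√(1 - s) * z e)
      exact (h3.comp t h4).congr_deriv (mul_comm _ _)
  rw [integral_const_mul] at h0
  exact h0

/-- Stein's lemma for the noise. -/
lemma stein_pt {H H' : (ι → ℝ) → ℝ} {e : ι} (hd : PD e H H') (hg : EG H) (hg' : EG H')
    (he : e ∈ A0) {s : ℝ} (hs : s ∈ Set.Icc (0 : ℝ) 1) (w : ι ⊕ ι → ℝ) :
    ∫ z, z e * H (pt A0 a b c s w z) ∂(gI ι) = √(1 - s) * P A0 a b c H' s w := by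
  unfold P
  rw [← integral_const_mul]
  refine PD.stein (e := e) ?_ (eg_pt hg hs w) ((eg_pt hg' hs w).const_mul _)
  intro z x
  have h1 : HasDerivAt (fun t : ℝ => √s * w (Sum.inl e) + √(1 - s) * t) (√(1 - s)) x := by
    simpa using ((hasDerivAt_id x).const_mul (√(1 - s))).const_add (√s * w (Sum.inl e))
  have h2 := (hd (pt A0 a b c s w z) (√s * w (Sum.inl e) + √(1 - s) * x)).comp x h1
  simp only [pt_update_right he]
  exact h2.congr_deriv (mul_comm _ _)

/-- The path of the position. -/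
lemma hasDerivAt_pt (A0 : Finset ι) (a b c : ι → ℝ) {s : ℝ} (hs : s ∈ Set.Ioo (0 : ℝ) 1)
    (w : ι ⊕ ι → ℝ) (z : ι → ℝ) :
    HasDerivAt (fun s => pt A0 a b c s w z)
      (fun e => if e ∈ A0 then w (Sum.inl e) / (2 * √s) - z e / (2 * √(1 - s)) else 0) s := by
  rw [hasDerivAt_pi]
  intro e
  by_cases he : e ∈ A0
  · simp only [pt, u, he, if_true]
    have h1 : HasDerivAt (fun s : ℝ => √s) (1 / (2 * √s)) s := Real.hasDerivAt_sqrt hs.1.ne'
    have h2 : HasDerivAt (fun s : ℝ => √(1 - s)) (-1 / (2 * √(1 - s))) s := by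
      have h3 : HasDerivAt (fun s : ℝ => 1 - s) (-1) s := by
        simpa using (hasDerivAt_id s).const_sub 1
      have := h3.sqrt (by linarith [hs.2])
      simpa using this
    refine ((h1.mul_const (w (Sum.inl e))).add (h2.mul_const (z e))).congr_deriv ?_
    ring
  · simp only [pt, u, he, if_false]
    exact hasDerivAt_const _ _

/-- Smooth functions of the couplings. -/
structure SF (A0 : Finset ι) (F : (ι → ℝ) → ℝ) (F1 F2 : ι → (ι → ℝ) → ℝ) : Prop where
  e0 : EG F
  c0 : Continuous F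
  e1 : ∀ e ∈ A0, EG (F1 e)
  c1 : ∀ e ∈ A0, Continuous (F1 e)
  e2 : ∀ e ∈ A0, EG (F2 e)
  c2 : ∀ e ∈ A0, Continuous (F2 e)
  fd : ∀ y, HasFDerivAt F (∑ e, F1 e y • (ContinuousLinearMap.proj e : (ι → ℝ) →L[ℝ] ℝ)) y
  pd : ∀ e ∈ A0, PD e (F1 e) (F2 e)

lemma SF.pd0 {F : (ι → ℝ) → ℝ} {F1 F2 : ι → (ι → ℝ) → ℝ} (h : SF A0 F F1 F2) (e : ι) :
    PD e F (F1 e) := by
  intro y x
  have h1 : HasDerivAt (fun t => Function.update y e t) (Pi.single e (1 : ℝ)) x :=
    hasDerivAt_update y e x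
  have h2 := (h.fd (Function.update y e x)).comp_hasDerivAt x h1
  refine h2.congr_deriv ?_
  simp [Pi.single_apply]

/-- **The smoothed function belongs to the class `KF`, with the generator `0`.** -/
theorem SF.kf {F : (ι → ℝ) → ℝ} {F1 F2 : ι → (ι → ℝ) → ℝ} (h : SF A0 F F1 F2) (a b c : ι → ℝ) :
    KF (A0.map Function.Embedding.inl) (P A0 a b c F)
      (fun e => Sum.elim (fun e => P A0 a b c (F1 e)) (fun _ _ _ => 0) e) (fun _ _ => 0) := by
  refine ⟨ge_P h.e0 h.c0, GE.const 0, fun e he => ?_,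
    fun e => Sum.elim (fun e => P A0 a b c (F2 e)) (fun _ _ _ => 0) e, fun e he => ?_,
    fun s hs e he => ?_, fun s hs e he => ?_, fun s hs w => ?_⟩
  · obtain ⟨e', he', rfl⟩ := Finset.mem_map.1 he
    exact ge_P (h.e1 e' he') (h.c1 e' he')
  · obtain ⟨e', he', rfl⟩ := Finset.mem_map.1 he
    exact ge_P (h.e2 e' he') (h.c2 e' he')
  · obtain ⟨e', he', rfl⟩ := Finset.mem_map.1 he
    exact pd_P (h.pd0 e') h.e0 (h.e1 e' he') he' hs
  · obtain ⟨e', he', rfl⟩ := Finset.mem_map.1 he
    exact pd_P (h.pd e' he') (h.e1 e' he') (h.e2 e' he') he' hs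
  · obtain ⟨C', a', hC', ha', hf1⟩ : ∃ C a : ℝ, 0 ≤ C ∧ 0 ≤ a ∧
        ∀ y, ∑ e ∈ A0, |F1 e y| ≤ C * Real.exp (a * ‖y‖) := by
      obtain ⟨C, a, hC, ha, h⟩ := (EG.sum A0 (f := fun e y => |F1 e y|) fun e he => (h.e1 e he).abs).bdd
      exact ⟨C, a, hC, ha, fun y => (le_abs_self _).trans (h y)⟩
    have hM := Mc_nonneg a b c
    have hsI : s ∈ Set.Icc (0 : ℝ) 1 := Set.Ioo_subset_Icc_self hs
    set F' : ℝ → (ι → ℝ) → ℝ := fun s z => ∑ e ∈ A0, F1 e (pt A0 a b c s w z) *
      (w (Sum.inl e) / (2 * √s) - z e / (2 * √(1 - s))) with hF'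
    set c1 : ℝ := 1 / √(s / 2) with hc1
    set c2 : ℝ := 1 / √((1 - s) / 2) with hc2
    have hs0 := hs.1
    have hs1 := hs.2
    have hnb : Set.Ioo (s / 2) ((1 + s) / 2) ∈ 𝓝 s := Ioo_mem_nhds (by linarith) (by linarith)
    have hIcc : ∀ t ∈ Set.Ioo (s / 2) ((1 + s) / 2), t ∈ Set.Icc (0 : ℝ) 1 := fun t ht =>
      ⟨by linarith [ht.1], by linarith [ht.2]⟩
    have hegF : ∀ t ∈ Set.Icc (0 : ℝ) 1, EG (F' t) := by
      intro t ht
      refine EG.sum A0 fun e he => (eg_pt (h.e1 e he) ht _).mul ?_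
      have := (EG.const (ι := ι) (w (Sum.inl e) / (2 * √t))).sub
        ((EG.coord e).const_mul (1 / (2 * √(1 - t))))
      refine this.mono (measurable_const.sub ((measurable_pi_apply e).div_const _))
        fun y => le_of_eq ?_
      congr 1; ring
    have key := (hasDerivAt_integral_of_dominated_loc_of_deriv_le (μ := gI ι)
      (F := fun s z => F (pt A0 a b c s w z)) (F' := F') (x₀ := s)
      (bound := fun z => C' * Real.exp (a' * (Mc a b c * (‖w‖ + ‖z‖))) *
        (Real.exp ‖w‖ * c1 + Real.exp ‖z‖ * c2))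
      (s := Set.Ioo (s / 2) ((1 + s) / 2)) hnb ?_ ?_ ?_ ?_ ?_ ?_).2
    · have e1 : ∫ z, F' s z ∂(gI ι) = 0 + 1 / 2 * ∑ e ∈ A0.map Function.Embedding.inl,
          (w e / √s * Sum.elim (fun e => P A0 a b c (F1 e)) (fun _ _ _ => 0) e s w -
            Sum.elim (fun e => P A0 a b c (F2 e)) (fun _ _ _ => 0) e s w) := by
        have i1 : ∀ e ∈ A0, Integrable (fun z => F1 e (pt A0 a b c s w z)) (gI ι) :=
          fun e he => (eg_pt (h.e1 e he) hsI _).integrable
        have i2 : ∀ e ∈ A0, Integrable (fun z => z e * F1 e (pt A0 a b c s w z)) (gI ι) :=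
          fun e he => ((EG.coord e).mul (eg_pt (h.e1 e he) hsI _)).integrable
        have e2 : F' s = fun z => ∑ e ∈ A0, ((w (Sum.inl e) / (2 * √s)) *
            F1 e (pt A0 a b c s w z) -
            1 / (2 * √(1 - s)) * (z e * F1 e (pt A0 a b c s w z))) := by
          funext z
          rw [hF']
          exact Finset.sum_congr rfl fun e _ => by ring
        have e3 : ∫ z, F' s z ∂(gI ι) = ∑ e ∈ A0, ∫ z, ((w (Sum.inl e) / (2 * √s)) *
            F1 e (pt A0 a b c s w z) -
            1 / (2 * √(1 - s)) * (z e * F1 e (pt A0 a b c s w z))) ∂(gI ι) := by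
          rw [e2]
          exact integral_finsetSum A0 fun e he => ((i1 e he).const_mul _).sub
            ((i2 e he).const_mul _)
        rw [e3, zero_add, Finset.sum_map, Finset.mul_sum]
        refine Finset.sum_congr rfl fun e he => ?_
        rw [integral_sub ((i1 e he).const_mul _) ((i2 e he).const_mul _), integral_const_mul,
          integral_const_mul, stein_pt (h.pd e he) (h.e1 e he) (h.e2 e he) he hsI]
        have h1 : √(1 - s) ≠ 0 := (Real.sqrt_pos.2 (by linarith)).ne'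
        show w (Sum.inl e) / (2 * √s) * P A0 a b c (F1 e) s w -
          1 / (2 * √(1 - s)) * (√(1 - s) * P A0 a b c (F2 e) s w) =
          1 / 2 * (w (Sum.inl e) / √s * P A0 a b c (F1 e) s w - P A0 a b c (F2 e) s w)
        field_simp
      rw [← e1]
      exact key
    · filter_upwards [hnb] with t ht
      exact (eg_pt h.e0 (hIcc t ht) _).meas.aestronglyMeasurable
    · exact (eg_pt h.e0 hsI _).integrable
    · exact (hegF s hsI).meas.aestronglyMeasurable
    · refine Filter.Eventually.of_forall fun z t ht => ?_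
      have htI := hIcc t ht
      rw [Real.norm_eq_abs, hF']
      have hz : ‖z‖ ≤ Real.exp ‖z‖ := (Real.add_one_le_exp ‖z‖).trans' (by linarith)
      have hw : ‖w‖ ≤ Real.exp ‖w‖ := (Real.add_one_le_exp ‖w‖).trans' (by linarith)
      have hsq1 : 1 / (2 * √t) ≤ c1 := by
        have h1 : √(s / 2) ≤ √t := Real.sqrt_le_sqrt ht.1.le
        have h2 : 0 < √(s / 2) := Real.sqrt_pos.2 (by linarith)
        exact one_div_le_one_div_of_le h2 (by linarith)
      have hsq2 : 1 / (2 * √(1 - t)) ≤ c2 := by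
        have h1 : √((1 - s) / 2) ≤ √(1 - t) := Real.sqrt_le_sqrt (by linarith [ht.2])
        have h2 : 0 < √((1 - s) / 2) := Real.sqrt_pos.2 (by linarith)
        exact one_div_le_one_div_of_le h2 (by linarith)
      have hc : ∀ e, |w (Sum.inl e) / (2 * √t) - z e / (2 * √(1 - t))| ≤
          Real.exp ‖w‖ * c1 + Real.exp ‖z‖ * c2 := by
        intro e
        refine (abs_sub _ _).trans (add_le_add ?_ ?_)
        · rw [abs_div, abs_of_nonneg (by positivity : (0 : ℝ) ≤ 2 * √t), div_eq_mul_one_div]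
          have : |w (Sum.inl e)| ≤ ‖w‖ := by rw [← Real.norm_eq_abs]; exact norm_le_pi_norm w _
          gcongr
          exact this.trans hw
        · rw [abs_div, abs_of_nonneg (by positivity : (0 : ℝ) ≤ 2 * √(1 - t)), div_eq_mul_one_div]
          have : |z e| ≤ ‖z‖ := by rw [← Real.norm_eq_abs]; exact norm_le_pi_norm z e
          gcongr
          exact this.trans hz
      calc |∑ e ∈ A0, F1 e (pt A0 a b c t w z) *
            (w (Sum.inl e) / (2 * √t) - z e / (2 * √(1 - t)))|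
          ≤ ∑ e ∈ A0, |F1 e (pt A0 a b c t w z) *
            (w (Sum.inl e) / (2 * √t) - z e / (2 * √(1 - t)))| :=
            Finset.abs_sum_le_sum_abs _ _
        _ ≤ ∑ e ∈ A0, |F1 e (pt A0 a b c t w z)| *
            (Real.exp ‖w‖ * c1 + Real.exp ‖z‖ * c2) := by
            refine Finset.sum_le_sum fun e _ => ?_
            rw [abs_mul]
            exact mul_le_mul_of_nonneg_left (hc e) (abs_nonneg _)
        _ = (∑ e ∈ A0, |F1 e (pt A0 a b c t w z)|) *
            (Real.exp ‖w‖ * c1 + Real.exp ‖z‖ * c2) := by rw [Finset.sum_mul]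
        _ ≤ _ := by
            have hp : 0 ≤ Real.exp ‖w‖ * c1 + Real.exp ‖z‖ * c2 := by positivity
            refine mul_le_mul_of_nonneg_right ((hf1 _).trans ?_) hp
            gcongr
            exact norm_pt_le htI _ _
    · have h1 := (integrable_exp_norm (ι := ι) (a' * Mc a b c)).const_mul
        (C' * Real.exp (a' * Mc a b c * ‖w‖) * (Real.exp ‖w‖ * c1))
      have h2 := (integrable_exp_norm (ι := ι) (a' * Mc a b c + 1)).const_mul
        (C' * Real.exp (a' * Mc a b c * ‖w‖) * c2)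
      refine (h1.add h2).congr (Filter.Eventually.of_forall fun z => ?_)
      simp only [Pi.add_apply]
      have k1 : a' * (Mc a b c * (‖w‖ + ‖z‖)) = a' * Mc a b c * ‖w‖ + a' * Mc a b c * ‖z‖ := by ring
      rw [k1, Real.exp_add, add_mul (a' * Mc a b c) 1, Real.exp_add, one_mul]
      ring
    · refine Filter.Eventually.of_forall fun z t ht => ?_
      have ht' : t ∈ Set.Ioo (0 : ℝ) 1 := ⟨by linarith [ht.1], by linarith [ht.2]⟩
      refine ((h.fd _).comp_hasDerivAt t (hasDerivAt_pt A0 a b c ht' w z)).congr_deriv ?_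
      rw [hF']
      simp only [_root_.sum_apply, _root_.smul_apply,
        ContinuousLinearMap.proj_apply, smul_eq_mul, mul_ite, mul_zero]
      rw [Finset.sum_ite_mem, Finset.univ_inter]

/-- An exponential lower bound is preserved by the smoothing. -/
lemma P_lower {F : (ι → ℝ) → ℝ} (h : EG F) {k d : ℝ} (hk : 0 < k) (hd : 0 ≤ d)
    (hF : ∀ y, k * Real.exp (-(d * ‖y‖)) ≤ F y) (a b c : ι → ℝ) :
    ∃ k' : ℝ, 0 < k' ∧ ∀ s ∈ Set.Icc (0 : ℝ) 1, ∀ w,
      k' * Real.exp (-(d * Mc a b c * ‖w‖)) ≤ P A0 a b c F s w := by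
  have hM := Mc_nonneg a b c
  have hE : EG (fun z : ι → ℝ => Real.exp (-(d * Mc a b c * ‖z‖))) := by
    refine EG.of_bdd (by fun_prop) (C := 1) fun z => ?_
    rw [abs_of_pos (Real.exp_pos _), Real.exp_le_one_iff]
    have : 0 ≤ d * Mc a b c * ‖z‖ := by positivity
    linarith
  refine ⟨k * ∫ z, Real.exp (-(d * Mc a b c * ‖z‖)) ∂(gI ι), mul_pos hk ?_, fun s hs w => ?_⟩
  · exact integral_exp_pos hE.integrable
  · unfold P
    have : k * (∫ z, Real.exp (-(d * Mc a b c * ‖z‖)) ∂(gI ι)) *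
        Real.exp (-(d * Mc a b c * ‖w‖)) = ∫ z, k * Real.exp (-(d * Mc a b c * ‖w‖)) *
          Real.exp (-(d * Mc a b c * ‖z‖)) ∂(gI ι) := by
      rw [integral_const_mul]; ring
    rw [this]
    refine integral_mono (hE.integrable.const_mul _) (eg_pt h hs w).integrable fun z => ?_
    refine le_trans ?_ (hF _)
    show k * Real.exp (-(d * Mc a b c * ‖w‖)) * Real.exp (-(d * Mc a b c * ‖z‖)) ≤ _
    rw [mul_assoc, ← Real.exp_add]
    gcongr
    have := mul_le_mul_of_nonneg_left (norm_pt_le (A0 := A0) (a := a) (b := b) (c := c) hs w z) hd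
    linarith

end

end Vale.Agent.P146.H332
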