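import Vale.Agent.P146.H325.Heat
import Vale.Agent.P146.H332.KFBase

/-!
Conversions between the coordinate systems of the heat calculus: coordinates on which the weight
does not depend can be resampled, and two independent Gaussian steps are one.
-/

open MeasureTheory ProbabilityTheory

namespace Vale.Agent.P146.H332

open Vale.Agent.P157.Lv Vale.Agent.P146.H425 Vale.Agent.P146.H325

set_option linter.unusedSectionVars false

section res

variable {J : Type} [Fintype J] [DecidableEq J]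

/-- replace the coordinates of `A` -/
def mg (A : Finset J) (w w' : J → ℝ) : J → ℝ := fun j => if j ∈ A then w' j else w j

lemma mg_eq (A : Finset J) (w w' : J → ℝ) : mg A w w' =
    fun j => (if j ∈ A then 0 else 1) * w j + (if j ∈ A then 1 else 0) * w' j := by
  funext j
  unfold mg
  split_ifs <;> simp

lemma mg_indep {A : Finset J} {φ : (J → ℝ) → ℝ}
    (h : ∀ j ∈ A, ∀ w t, φ (Function.update w j t) = φ w) (w w' : J → ℝ) :
    φ (mg A w w') = φ w := by
  induction A using Finset.induction_on with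
  | empty =>
    congr 1
  | insert a A ha ih =>
    have e : mg (insert a A) w w' = Function.update (mg A w w') a (w' a) := by
      funext j
      by_cases hj : j = a
      · subst hj
        simp [mg]
      · simp [mg, hj]
    rw [e, h a (Finset.mem_insert_self a A)]
    exact ih fun j hj => h j (Finset.mem_insert_of_mem hj)

lemma resample (A : Finset J) {G : (J → ℝ) → ℝ} (hG : EG G) :
    ∫ w, G w ∂(gI J) = ∫ w, (∫ w', G (mg A w w') ∂(gI J)) ∂(gI J) := by
  have h2 := mp_mixv (ι := J) (α := fun j => if j ∈ A then 0 else 1)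
    (β := fun j => if j ∈ A then 1 else 0) (by intro i; split_ifs <;> norm_num)
  have h3 : Integrable (fun q : (J → ℝ) × (J → ℝ) =>
      G (fun j => (if j ∈ A then 0 else 1) * q.1 j + (if j ∈ A then 1 else 0) * q.2 j))
      ((gI J).prod (gI J)) :=
    MeasurePreserving.integrable_comp_of_integrable (g := G) h2 hG.integrable
  have h4 : ∫ w, G w ∂(gI J) = ∫ q : (J → ℝ) × (J → ℝ),
      G (fun j => (if j ∈ A then 0 else 1) * q.1 j + (if j ∈ A then 1 else 0) * q.2 j)
        ∂((gI J).prod (gI J)) := by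
    conv_lhs => rw [← h2.map_eq]
    rw [integral_map h2.measurable.aemeasurable]
    rw [h2.map_eq]
    exact hG.meas.aestronglyMeasurable
  rw [h4, integral_prod _ h3]
  simp only [mg_eq]

lemma resample_mul {A : Finset J} {φ G : (J → ℝ) → ℝ} (hφ : EG φ) (hG : EG G)
    (h : ∀ j ∈ A, ∀ w t, φ (Function.update w j t) = φ w) :
    ∫ w, φ w * G w ∂(gI J) = ∫ w, φ w * (∫ w', G (mg A w w') ∂(gI J)) ∂(gI J) := by
  rw [resample A (hφ.mul hG)]
  refine integral_congr_ae (Filter.Eventually.of_forall fun w => ?_)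
  simp only
  rw [← integral_const_mul]
  refine integral_congr_ae (Filter.Eventually.of_forall fun w' => ?_)
  simp only
  rw [mg_indep h]

end res

variable {ι : Type} [Fintype ι] [DecidableEq ι]

/-- (T0) -/
theorem int_sum {G : (ι ⊕ ι → ℝ) → ℝ} (hG : EG G) :
    ∫ w, G w ∂(gI (ι ⊕ ι)) = ∫ w1, (∫ w2, G (Sum.elim w1 w2) ∂(gI ι)) ∂(gI ι) := by
  have h1 := MeasureTheory.measurePreserving_sumPiEquivProdPi_symm (ι := ι) (ι' := ι)
    (X := fun _ => ℝ) (fun _ => gaussianReal 0 1)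
  have e : ∀ q : (ι → ℝ) × (ι → ℝ), (MeasurableEquiv.sumPiEquivProdPi
      (fun _ : ι ⊕ ι => ℝ)).symm q = Sum.elim q.1 q.2 := by
    intro q
    funext j
    cases j <;> rfl
  have h2 : MeasurePreserving (fun q : (ι → ℝ) × (ι → ℝ) => (Sum.elim q.1 q.2 : ι ⊕ ι → ℝ))
      ((gI ι).prod (gI ι)) (gI (ι ⊕ ι)) := by
    have : (fun q : (ι → ℝ) × (ι → ℝ) => (Sum.elim q.1 q.2 : ι ⊕ ι → ℝ)) =
      (MeasurableEquiv.sumPiEquivProdPi (fun _ : ι ⊕ ι => ℝ)).symm := by
      funext q
      exact (e q).symm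
    rw [this]
    exact h1
  have h3 : Integrable (fun q : (ι → ℝ) × (ι → ℝ) => G (Sum.elim q.1 q.2))
      ((gI ι).prod (gI ι)) :=
    MeasurePreserving.integrable_comp_of_integrable (g := G) h2 hG.integrable
  have h4 : ∫ w, G w ∂(gI (ι ⊕ ι)) = ∫ q : (ι → ℝ) × (ι → ℝ), G (Sum.elim q.1 q.2)
        ∂((gI ι).prod (gI ι)) := by
    conv_lhs => rw [← h2.map_eq]
    rw [integral_map h2.measurable.aemeasurable]
    rw [h2.map_eq]
    exact hG.meas.aestronglyMeasurable
  rw [h4, integral_prod _ h3]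

lemma eg_inr {H : (ι → ℝ) → ℝ} (hH : EG H) : EG fun w : ι ⊕ ι → ℝ => H fun e => w (Sum.inr e) := by
  obtain ⟨C, k, hC, hk, hb⟩ := hH.bdd
  refine ⟨hH.meas.comp (by fun_prop), C, k, hC, hk, fun w => (hb _).trans ?_⟩
  gcongr
  rw [pi_norm_le_iff_of_nonneg (norm_nonneg _)]
  exact fun e => norm_le_pi_norm w _

lemma eg_inl {H : (ι → ℝ) → ℝ} (hH : EG H) : EG fun w : ι ⊕ ι → ℝ => H fun e => w (Sum.inl e) := by
  obtain ⟨C, k, hC, hk, hb⟩ := hH.bdd
  refine ⟨hH.meas.comp (by fun_prop), C, k, hC, hk, fun w => (hb _).trans ?_⟩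
  gcongr
  rw [pi_norm_le_iff_of_nonneg (norm_nonneg _)]
  exact fun e => norm_le_pi_norm w _

lemma int_inr {H : (ι → ℝ) → ℝ} (hH : EG H) :
    ∫ w : ι ⊕ ι → ℝ, H (fun e => w (Sum.inr e)) ∂(gI (ι ⊕ ι)) = ∫ z, H z ∂(gI ι) := by
  rw [int_sum (eg_inr hH)]
  simp

lemma int_inl {H : (ι → ℝ) → ℝ} (hH : EG H) :
    ∫ w : ι ⊕ ι → ℝ, H (fun e => w (Sum.inl e)) ∂(gI (ι ⊕ ι)) = ∫ z, H z ∂(gI ι) := by
  rw [int_sum (eg_inl hH)]
  simp

lemma eg_P {A0 : Finset ι} {a b c : ι → ℝ} {F : (ι → ℝ) → ℝ} (hF : EG F) {s : ℝ}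
    (hs : s ∈ Set.Icc (0 : ℝ) 1) : EG (P A0 a b c F s) := by
  obtain ⟨C, d, hC, hd, h1⟩ := hF.bdd
  have hM := Mc_nonneg a b c
  refine ⟨?_, C * ∫ z : ι → ℝ, Real.exp (d * Mc a b c * ‖z‖) ∂(gI ι), d * Mc a b c,
    mul_nonneg hC (integral_nonneg fun w => (Real.exp_pos _).le), mul_nonneg hd hM, fun w => ?_⟩
  · have : StronglyMeasurable (Function.uncurry fun (w : ι ⊕ ι → ℝ) (z : ι → ℝ) =>
        F (pt A0 a b c s w z)) :=
      (hF.meas.comp (measurable_pt A0 a b c s)).stronglyMeasurable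
    exact this.integral_prod_right.measurable
  · have h2 : |P A0 a b c F s w| ≤ ∫ z, |F (pt A0 a b c s w z)| ∂(gI ι) := by
      rw [← Real.norm_eq_abs]
      exact norm_integral_le_integral_norm _
    refine h2.trans ?_
    have h3 : ∫ z, |F (pt A0 a b c s w z)| ∂(gI ι) ≤
        ∫ z, C * Real.exp (d * Mc a b c * ‖w‖) * Real.exp (d * Mc a b c * ‖z‖) ∂(gI ι) := by
      refine integral_mono (eg_pt hF.abs hs w).integrable ((integrable_exp_norm _).const_mul _)
        fun z => ?_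
      refine (h1 _).trans ?_
      rw [mul_assoc, ← Real.exp_add]
      gcongr
      calc d * ‖pt A0 a b c s w z‖ ≤ d * (Mc a b c * (‖w‖ + ‖z‖)) := by
            gcongr; exact norm_pt_le hs w z
        _ = _ := by ring
    refine h3.trans (le_of_eq ?_)
    rw [integral_const_mul]
    ring

/-- the position as a function of the two families of coordinates -/
lemma eg_u {A0 : Finset ι} {a b : ι → ℝ} {G : (ι → ℝ) → ℝ} (hG : EG G) {s : ℝ}
    (hs : s ∈ Set.Icc (0 : ℝ) 1) : EG fun w => G (u A0 a b s w) := by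
  obtain ⟨C, d, hC, hd, h1⟩ := hG.bdd
  have hM := Mc_nonneg a b (0 : ι → ℝ)
  have hm : Measurable fun w : ι ⊕ ι → ℝ => u A0 a b s w := by
    refine measurable_pi_lambda _ fun e => ?_
    unfold u
    split_ifs
    · fun_prop
    · fun_prop
  refine ⟨hG.meas.comp hm, C, d * Mc a b 0, hC, mul_nonneg hd hM, fun w => (h1 _).trans ?_⟩
  refine mul_le_mul_of_nonneg_left (Real.exp_le_exp.2 ?_) hC
  rw [mul_assoc]
  refine mul_le_mul_of_nonneg_left ?_ hd
  have h2 := norm_pt_le (A0 := A0) (a := a) (b := b) (c := 0) hs w 0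
  rw [norm_zero, add_zero] at h2
  have h3 : pt A0 a b 0 s w 0 = u A0 a b s w := by
    funext e
    simp [pt]
  rwa [h3] at h2

/-- the coordinates `inl e`, `inr e` for `e ∈ A0` -/
def both (A0 : Finset ι) : Finset (ι ⊕ ι) := A0.disjSum A0

/-- the coordinates `inr e` for `e ∈ A0` -/
def rgt (A0 : Finset ι) : Finset (ι ⊕ ι) := A0.map Function.Embedding.inr

lemma mem_rgt {A0 : Finset ι} {e : ι} : Sum.inr e ∈ rgt A0 ↔ e ∈ A0 := by
  simp [rgt]

lemma inl_rgt {A0 : Finset ι} {e : ι} : (Sum.inl e : ι ⊕ ι) ∉ rgt A0 := by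
  simp [rgt]

lemma mg_rgt_inl {A0 : Finset ι} (w w' : ι ⊕ ι → ℝ) (e : ι) :
    mg (rgt A0) w w' (Sum.inl e) = w (Sum.inl e) := by
  unfold mg
  rw [if_neg inl_rgt]

lemma mg_rgt_inr {A0 : Finset ι} (w w' : ι ⊕ ι → ℝ) (e : ι) :
    mg (rgt A0) w w' (Sum.inr e) = if e ∈ A0 then w' (Sum.inr e) else w (Sum.inr e) := by
  unfold mg
  simp only [mem_rgt]

/-- (T1) -/
theorem conv_T1 {A0 : Finset ι} {a b c : ι → ℝ} {F : (ι → ℝ) → ℝ} {φ : (ι ⊕ ι → ℝ) → ℝ}
    (hF : EG F) (hφ : EG φ) (hind : ∀ e ∈ A0, ∀ w t, φ (Function.update w (Sum.inr e) t) = φ w)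
    {t : ℝ} (ht : t ∈ Set.Icc (0 : ℝ) 1) (ha : ∀ e ∈ A0, a e = √t)
    (hbc : ∀ e ∈ A0, b e ^ 2 + c e ^ 2 = 1 - t) {s0 : ℝ} (hs0 : s0 ∈ Set.Icc (0 : ℝ) 1) :
    ∫ w, φ w * P ∅ a b c F s0 w ∂(gI (ι ⊕ ι)) = ∫ w, φ w * P A0 a b c F t w ∂(gI (ι ⊕ ι)) := by
  have hind' : ∀ j ∈ rgt A0, ∀ w t, φ (Function.update w j t) = φ w := by
    intro j hj w t
    obtain ⟨e, he, rfl⟩ := Finset.mem_map.1 hj
    exact hind e he w t
  rw [resample_mul hφ (eg_P hF hs0) hind']
  refine integral_congr_ae (Filter.Eventually.of_forall fun w => ?_)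
  simp only
  congr 1
  -- the inner integral
  set v : ι → ℝ := fun e => a e * w (Sum.inl e) + (if e ∈ A0 then 0 else b e) * w (Sum.inr e)
    with hv
  set b' : ι → ℝ := fun e => if e ∈ A0 then b e else 0 with hb'
  set c' : ι → ℝ := fun e => if e ∈ A0 then √(1 - t) else c e with hc'
  have e1 : ∀ w' : ι ⊕ ι → ℝ, P ∅ a b c F s0 (mg (rgt A0) w w') =
      (fun z' : ι → ℝ => ∫ z, F (fun e => v e + b' e * z' e + c e * z e) ∂(gI ι))
        (fun e => w' (Sum.inr e)) := by
    intro w'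
    unfold P
    congr 1
    funext z
    congr 1
    funext e
    simp only [pt, u, Finset.notMem_empty, if_false, mg_rgt_inl, mg_rgt_inr, hv, hb']
    split_ifs <;> ring
  simp only [e1]
  have eg1 : EG fun z' : ι → ℝ => ∫ z, F (fun e => v e + b' e * z' e + c e * z e) ∂(gI ι) := by
    have h1 := eg_P (A0 := (∅ : Finset ι)) (a := fun _ => 1) (b := b') (c := c)
      (F := fun y => F y) hF hs0
    obtain ⟨C, d, hC, hd, h2⟩ := h1.bdd
    have e2 : ∀ z', ∫ z, F (fun e => v e + b' e * z' e + c e * z e) ∂(gI ι) =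
        P ∅ (fun _ => 1) b' c F s0 (Sum.elim v z') := by
      intro z'
      unfold P
      congr 1
      funext z
      congr 1
      funext e
      simp [pt, u]
    simp only [e2]
    refine ⟨?_, C * Real.exp (d * ‖v‖), d, by positivity, hd, fun z' => (h2 _).trans ?_⟩
    · refine h1.meas.comp ?_
      refine measurable_pi_lambda _ fun j => ?_
      cases j
      · simp only [Sum.elim_inl]
        exact measurable_const
      · simp only [Sum.elim_inr]
        exact measurable_pi_apply _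
    · rw [mul_assoc, ← Real.exp_add]
      gcongr
      rw [← mul_add]
      gcongr
      rw [pi_norm_le_iff_of_nonneg (by positivity)]
      intro j
      cases j with
      | inl e => simpa using (norm_le_pi_norm v e).trans (by linarith [norm_nonneg z'])
      | inr e => simpa using (norm_le_pi_norm z' e).trans (by linarith [norm_nonneg v])
  rw [int_inr eg1, rotv hF (a := b') (b := c) (c := c') (fun e => ?_) v]
  · unfold P
    congr 1
    funext z
    congr 1
    funext e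
    simp only [pt, u, hv, hc']
    by_cases he : e ∈ A0
    · simp only [he, if_true]
      rw [ha e he]
      ring
    · simp only [he, if_false]
  · simp only [hb', hc']
    by_cases he : e ∈ A0
    · simp only [he, if_true]
      rw [hbc e he, Real.sq_sqrt (by linarith [ht.2])]
    · simp only [he, if_false]
      ring

/-- (T3) -/
theorem conv_T3 {A0 : Finset ι} {a b c c1 : ι → ℝ} {F : (ι → ℝ) → ℝ} {φ : (ι ⊕ ι → ℝ) → ℝ}
    (hF : EG F) (hφ : EG φ) (hind : ∀ e, ∀ w t, φ (Function.update w (Sum.inr e) t) = φ w)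
    (hbc : ∀ e ∉ A0, c1 e ^ 2 = b e ^ 2 + c e ^ 2) {s : ℝ} (hs : s ∈ Set.Icc (0 : ℝ) 1) :
    ∫ w, φ w * P A0 a b c F s w ∂(gI (ι ⊕ ι)) =
      ∫ w, φ w * P A0 a 0 c1 F s w ∂(gI (ι ⊕ ι)) := by
  have hind' : ∀ j ∈ rgt (Finset.univ : Finset ι), ∀ w t, φ (Function.update w j t) = φ w := by
    intro j hj w t
    obtain ⟨e, he, rfl⟩ := Finset.mem_map.1 hj
    exact hind e w t
  rw [resample_mul hφ (eg_P hF hs) hind']
  refine integral_congr_ae (Filter.Eventually.of_forall fun w => ?_)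
  simp only
  congr 1
  set v : ι → ℝ := fun e => (if e ∈ A0 then √s else a e) * w (Sum.inl e) with hv
  set b' : ι → ℝ := fun e => if e ∈ A0 then 0 else b e with hb'
  set d' : ι → ℝ := fun e => if e ∈ A0 then √(1 - s) else c e with hd'
  set c' : ι → ℝ := fun e => if e ∈ A0 then √(1 - s) else c1 e with hc'
  have e1 : ∀ w' : ι ⊕ ι → ℝ, P A0 a b c F s (mg (rgt Finset.univ) w w') =
      (fun z' : ι → ℝ => ∫ z, F (fun e => v e + b' e * z' e + d' e * z e) ∂(gI ι))
        (fun e => w' (Sum.inr e)) := by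
    intro w'
    unfold P
    congr 1
    funext z
    congr 1
    funext e
    simp only [pt, u, mg_rgt_inl, mg_rgt_inr, Finset.mem_univ, if_true, hv, hb', hd']
    split_ifs <;> ring
  simp only [e1]
  have eg1 : EG fun z' : ι → ℝ => ∫ z, F (fun e => v e + b' e * z' e + d' e * z e) ∂(gI ι) := by
    have h1 := eg_P (A0 := (∅ : Finset ι)) (a := fun _ => 1) (b := b') (c := d')
      (F := fun y => F y) hF hs
    obtain ⟨C, d, hC, hd, h2⟩ := h1.bdd
    have e2 : ∀ z', ∫ z, F (fun e => v e + b' e * z' e + d' e * z e) ∂(gI ι) =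
        P ∅ (fun _ => 1) b' d' F s (Sum.elim v z') := by
      intro z'
      unfold P
      congr 1
      funext z
      congr 1
      funext e
      simp [pt, u]
    simp only [e2]
    refine ⟨?_, C * Real.exp (d * ‖v‖), d, by positivity, hd, fun z' => (h2 _).trans ?_⟩
    · refine h1.meas.comp ?_
      refine measurable_pi_lambda _ fun j => ?_
      cases j
      · simp only [Sum.elim_inl]
        exact measurable_const
      · simp only [Sum.elim_inr]
        exact measurable_pi_apply _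
    · rw [mul_assoc, ← Real.exp_add]
      gcongr
      rw [← mul_add]
      gcongr
      rw [pi_norm_le_iff_of_nonneg (by positivity)]
      intro j
      cases j with
      | inl e => simpa using (norm_le_pi_norm v e).trans (by linarith [norm_nonneg z'])
      | inr e => simpa using (norm_le_pi_norm z' e).trans (by linarith [norm_nonneg v])
  rw [int_inr eg1, rotv hF (a := b') (b := d') (c := c') (fun e => ?_) v]
  · unfold P
    congr 1
    funext z
    congr 1
    funext e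
    simp only [pt, u, hv, hc']
    by_cases he : e ∈ A0
    · simp only [he, if_true]
    · simp only [he, if_false]
      simp
  · simp only [hb', hc', hd']
    by_cases he : e ∈ A0
    · simp only [he, if_true]
      ring
    · simp only [he, if_false]
      rw [hbc e he]

lemma both_iff {A0 : Finset ι} {j : ι ⊕ ι} : j ∈ both A0 ↔ Sum.elim id id j ∈ A0 := by
  cases j <;> simp [both]

/-- (T2) -/
theorem conv_T2 {A0 : Finset ι} {a b : ι → ℝ} {G : (ι → ℝ) → ℝ} {φ : (ι ⊕ ι → ℝ) → ℝ}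
    (hG : EG G) (hφ : EG φ) (hl : ∀ e ∈ A0, ∀ w t, φ (Function.update w (Sum.inl e) t) = φ w)
    (hr : ∀ e ∈ A0, ∀ w t, φ (Function.update w (Sum.inr e) t) = φ w)
    {t : ℝ} (ht : t ∈ Set.Icc (0 : ℝ) 1) (hab : ∀ e ∈ A0, a e ^ 2 + b e ^ 2 = t) {s0 : ℝ}
    (hs0 : s0 ∈ Set.Icc (0 : ℝ) 1) :
    ∫ w, φ w * G (u ∅ a b s0 w) ∂(gI (ι ⊕ ι)) = ∫ w, φ w * G (u A0 a b t w) ∂(gI (ι ⊕ ι)) := by
  have hind' : ∀ j ∈ both A0, ∀ w t, φ (Function.update w j t) = φ w := by
    intro j hj w t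
    rw [both_iff] at hj
    cases j with
    | inl e => exact hl e hj w t
    | inr e => exact hr e hj w t
  rw [resample_mul hφ (eg_u hG hs0) hind', resample_mul hφ (eg_u hG ht) hind']
  refine integral_congr_ae (Filter.Eventually.of_forall fun w => ?_)
  simp only
  congr 1
  set v : ι → ℝ := fun e => if e ∈ A0 then 0 else a e * w (Sum.inl e) + b e * w (Sum.inr e)
    with hv
  set a' : ι → ℝ := fun e => if e ∈ A0 then a e else 0 with ha'
  set b' : ι → ℝ := fun e => if e ∈ A0 then b e else 0 with hb'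
  set c' : ι → ℝ := fun e => if e ∈ A0 then √t else 0 with hc'
  have m1 : ∀ (w' : ι ⊕ ι → ℝ) (e : ι), mg (both A0) w w' (Sum.inl e) =
      if e ∈ A0 then w' (Sum.inl e) else w (Sum.inl e) := by
    intro w' e
    unfold mg
    simp only [both_iff, Sum.elim_inl, id]
  have m2 : ∀ (w' : ι ⊕ ι → ℝ) (e : ι), mg (both A0) w w' (Sum.inr e) =
      if e ∈ A0 then w' (Sum.inr e) else w (Sum.inr e) := by
    intro w' e
    unfold mg
    simp only [both_iff, Sum.elim_inr, id]
  have e1 : ∀ w' : ι ⊕ ι → ℝ, G (u ∅ a b s0 (mg (both A0) w w')) =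
      G (fun e => v e + a' e * w' (Sum.inl e) + b' e * w' (Sum.inr e)) := by
    intro w'
    congr 1
    funext e
    simp only [u, Finset.notMem_empty, if_false, m1, m2, hv, ha', hb']
    split_ifs <;> ring
  have e2 : ∀ w' : ι ⊕ ι → ℝ, G (u A0 a b t (mg (both A0) w w')) =
      G (fun e => v e + c' e * w' (Sum.inl e)) := by
    intro w'
    congr 1
    funext e
    simp only [u, m1, m2, hv, hc']
    by_cases he : e ∈ A0
    · simp only [he, if_true]; ring
    · simp only [he, if_false]; ring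
  simp only [e1, e2]
  have eg1 : EG fun w' : ι ⊕ ι → ℝ =>
      G (fun e => v e + a' e * w' (Sum.inl e) + b' e * w' (Sum.inr e)) := by
    obtain ⟨C, d, hC, hd, h2⟩ := hG.bdd
    refine ⟨hG.meas.comp (by fun_prop), C * Real.exp (d * ‖v‖), d * (bK a' + bK b'),
      by positivity, mul_nonneg hd (add_nonneg (bK_nonneg _) (bK_nonneg _)),
      fun w' => (h2 _).trans ?_⟩
    rw [mul_assoc, ← Real.exp_add]
    gcongr
    rw [mul_assoc, ← mul_add]
    gcongr
    rw [pi_norm_le_iff_of_nonneg (add_nonneg (norm_nonneg _)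
      (mul_nonneg (add_nonneg (bK_nonneg _) (bK_nonneg _)) (norm_nonneg _)))]
    intro e
    have h3 := norm_le_pi_norm v e
    have h4 := norm_le_pi_norm w' (Sum.inl e)
    have h5 := norm_le_pi_norm w' (Sum.inr e)
    have h6 := le_bK a' e
    have h7 := le_bK b' e
    refine (norm_add_le _ _).trans ?_
    refine (add_le_add (norm_add_le _ _) le_rfl).trans ?_
    rw [norm_mul, norm_mul, Real.norm_eq_abs (a' e), Real.norm_eq_abs (b' e)]
    have h8 := mul_le_mul h6 h4 (norm_nonneg _) (bK_nonneg _)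
    have h9 := mul_le_mul h7 h5 (norm_nonneg _) (bK_nonneg _)
    linarith
  have eg2 : EG fun w1 : ι → ℝ => G (fun e => v e + c' e * w1 e) := EG.aff hG v c'
  rw [int_sum eg1, int_inl eg2]
  simp only [Sum.elim_inl, Sum.elim_inr]
  refine rotv hG (a := a') (b := b') (c := c') (fun e => ?_) v
  simp only [ha', hb', hc']
  by_cases he : e ∈ A0
  · simp only [he, if_true]
    rw [hab e he, Real.sq_sqrt ht.1]
  · simp only [he, if_false]; ring

lemma u_empty (a b : ι → ℝ) (s s' : ℝ) (w : ι ⊕ ι → ℝ) : u ∅ a b s w = u ∅ a b s' w := by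
  funext e
  simp [u]

lemma P_empty (a b c : ι → ℝ) (F : (ι → ℝ) → ℝ) (s s' : ℝ) (w : ι ⊕ ι → ℝ) :
    P ∅ a b c F s w = P ∅ a b c F s' w := by
  unfold P
  have : ∀ z, pt ∅ a b c s w z = pt ∅ a b c s' w z := by
    intro z
    funext e
    simp [pt, u]
  simp only [this]

/-- (T2b), first part -/
theorem conv_T2b {a b : ι → ℝ} {G : (ι → ℝ) → ℝ} (hG : EG G) {t : ℝ}
    (ht : t ∈ Set.Icc (0 : ℝ) 1) (hab : ∀ e, a e ^ 2 + b e ^ 2 = t) {s0 : ℝ}
    (hs0 : s0 ∈ Set.Icc (0 : ℝ) 1) :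
    ∫ w, G (u ∅ a b s0 w) ∂(gI (ι ⊕ ι)) =
      ∫ w, G (u Finset.univ a b t w) ∂(gI (ι ⊕ ι)) := by
  have h := conv_T2 (A0 := Finset.univ) (φ := fun _ => 1) hG (EG.const 1)
    (fun _ _ _ _ => rfl) (fun _ _ _ _ => rfl) ht (fun e _ => hab e) hs0
  simpa using h

/-- (T2b), second part -/
theorem int_u_univ {a b : ι → ℝ} {G : (ι → ℝ) → ℝ} (hG : EG G) (t : ℝ) :
    ∫ w, G (u Finset.univ a b t w) ∂(gI (ι ⊕ ι)) = Tc (fun _ => t) G 0 := by
  have e : ∀ w : ι ⊕ ι → ℝ, G (u Finset.univ a b t w) =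
      (fun z : ι → ℝ => G (fun e => (0 : ι → ℝ) e + √t * z e)) (fun e => w (Sum.inl e)) := by
    intro w
    simp only
    congr 1
    funext e
    simp [u]
  simp only [e]
  exact int_inl (EG.aff hG 0 fun _ => √t)

end Vale.Agent.P146.H332
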