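import Vale.Agent.P146.H425.Chain
import Vale.Agent.P146.H325.Cond
import Vale.Agent.P146.H332.Conv

/-!
The logarithm of the partition function is convex and of class `C^{1,1}`; the squared gradient of
the layer functional of helper425 in terms of the conditional expectations `rl`.
-/

open MeasureTheory ProbabilityTheory

namespace Vale.Agent.P146.H332

open Vale.Agent.P157.Lv Vale.Agent.P146.H425 Vale.Agent.P146.H325

set_option linter.unusedSectionVars false

variable {ι : Type} [Fintype ι] [DecidableEq ι] {X : Type} [Fintype X] [Nonempty X]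
variable (k : ℝ) (S : ι → X → ℝ)

/-- the logarithm of the partition function -/
noncomputable def lz (u : ι → ℝ) : ℝ := Real.log (Zp k S u)

/-- the change of the energy -/
def dE (w : ι → ℝ) (x : X) : ℝ := k * ∑ e, S e x * w e

/-- bound of the energy -/
noncomputable def Kb : ℝ := |k| * ∑ e, ∑ x, |S e x|

lemma Kb_nonneg : 0 ≤ Kb k S := by unfold Kb; positivity

lemma abs_dE (w : ι → ℝ) (x : X) : |dE k S w x| ≤ Kb k S * ‖w‖ := by
  unfold dE Kb
  rw [abs_mul, mul_assoc]
  refine mul_le_mul_of_nonneg_left ?_ (abs_nonneg k)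
  refine (Finset.abs_sum_le_sum_abs _ _).trans ?_
  rw [Finset.sum_mul]
  refine Finset.sum_le_sum fun e _ => ?_
  rw [abs_mul]
  have h3 : |S e x| ≤ ∑ x, |S e x| :=
    Finset.single_le_sum (f := fun x => |S e x|) (fun _ _ => abs_nonneg _) (Finset.mem_univ x)
  exact mul_le_mul h3 (by rw [← Real.norm_eq_abs]; exact norm_le_pi_norm w e) (abs_nonneg _)
    ((abs_nonneg _).trans h3)

lemma Zp_add (y w : ι → ℝ) :
    Zp k S (y + w) = Zp k S y * av k S (fun x => Real.exp (dE k S w x)) y := by
  unfold av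
  rw [mul_div_cancel₀ _ (Zp_pos k S y).ne']
  unfold Zp
  refine Finset.sum_congr rfl fun x _ => ?_
  unfold ez dE
  rw [← Real.exp_add]
  congr 1
  simp only [Pi.add_apply, mul_add, Finset.sum_add_distrib]

lemma av_dE (y w : ι → ℝ) : av k S (dE k S w) y = ∑ e, k * av k S (S e) y * w e := by
  have : dE k S w = fun x => k * ∑ e, w e * S e x := by
    funext x
    unfold dE
    congr 1
    exact Finset.sum_congr rfl fun e _ => mul_comm _ _
  rw [this, av_mul, av_sum, Finset.mul_sum]
  refine Finset.sum_congr rfl fun e _ => ?_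
  rw [av_mul]
  ring

lemma av_exp_pos (y w : ι → ℝ) : 0 < av k S (fun x => Real.exp (dE k S w x)) y := by
  unfold av
  refine div_pos (Finset.sum_pos (fun x _ => mul_pos (ez_pos k S y x) (Real.exp_pos _))
    Finset.univ_nonempty) (Zp_pos k S y)

lemma lz_add (y w : ι → ℝ) :
    lz k S (y + w) = lz k S y + Real.log (av k S (fun x => Real.exp (dE k S w x)) y) := by
  unfold lz
  rw [Zp_add, Real.log_mul (Zp_pos k S y).ne' (av_exp_pos k S y w).ne']

/-- Jensen -/
lemma av_le_log (y w : ι → ℝ) :
    av k S (dE k S w) y ≤ Real.log (av k S (fun x => Real.exp (dE k S w x)) y) := by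
  rw [Real.le_log_iff_exp_le (av_exp_pos k S y w)]
  set m := av k S (dE k S w) y with hm
  have h1 : av k S (fun x => Real.exp m * (1 + (dE k S w x - m))) y ≤
      av k S (fun x => Real.exp (dE k S w x)) y := by
    refine av_mono k S (fun x => ?_) y
    have h2 := Real.add_one_le_exp (dE k S w x - m)
    have h3 : Real.exp (dE k S w x) = Real.exp m * Real.exp (dE k S w x - m) := by
      rw [← Real.exp_add]; congr 1; ring
    rw [h3]
    exact mul_le_mul_of_nonneg_left (by linarith) (Real.exp_pos m).le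
  rw [av_mul, av_add, av_const, av_sub, av_const, ← hm] at h1
  linarith

lemma log_le_av (y w : ι → ℝ) :
    Real.log (av k S (fun x => Real.exp (dE k S w x)) y) ≤
      av k S (dE k S w) y + 3 * (Kb k S * ‖w‖) ^ 2 := by
  set M := Kb k S * ‖w‖ with hM
  have hM0 : 0 ≤ M := mul_nonneg (Kb_nonneg k S) (norm_nonneg _)
  have hb : ∀ x, |dE k S w x| ≤ M := abs_dE k S w
  have hav : |av k S (dE k S w) y| ≤ M := abs_av_le k S hb y
  rw [Real.log_le_iff_le_exp (av_exp_pos k S y w)]
  rcases le_or_gt M 1 with h1 | h1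
  · have h2 : av k S (fun x => Real.exp (dE k S w x)) y ≤
        av k S (fun x => 1 + dE k S w x + M ^ 2 * 3) y := by
      refine av_mono k S (fun x => ?_) y
      have h3 := exp_le_quad (dE k S w x)
      have h4 : Real.exp |dE k S w x| ≤ 3 := by
        calc Real.exp |dE k S w x| ≤ Real.exp 1 := Real.exp_le_exp.2 ((hb x).trans h1)
          _ ≤ 3 := by linarith [Real.exp_one_lt_d9]
      have h5 : dE k S w x ^ 2 ≤ M ^ 2 := by
        rw [← sq_abs]
        exact pow_le_pow_left₀ (abs_nonneg _) (hb x) 2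
      have h6 : dE k S w x ^ 2 * Real.exp |dE k S w x| ≤ M ^ 2 * 3 :=
        mul_le_mul h5 h4 (Real.exp_pos _).le (by positivity)
      linarith
    have e1 : av k S (fun x => 1 + dE k S w x + M ^ 2 * 3) y =
        1 + av k S (dE k S w) y + M ^ 2 * 3 := by
      rw [av_add, av_add, av_const, av_const]
    rw [e1] at h2
    refine h2.trans ?_
    have := Real.add_one_le_exp (av k S (dE k S w) y + 3 * M ^ 2)
    linarith
  · have h2 : av k S (fun x => Real.exp (dE k S w x)) y ≤ av k S (fun _ => Real.exp M) y :=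
      av_mono k S (fun x => Real.exp_le_exp.2 ((le_abs_self _).trans (hb x))) y
    rw [av_const] at h2
    refine h2.trans (Real.exp_le_exp.2 ?_)
    nlinarith [(abs_le.1 hav).1]

/-- **The logarithm of the partition function is of class `C^{1,1}`.** -/
theorem c11_lz : C11 (lz k S) (fun e u => k * av k S (S e) u) (Kb k S) (3 * Kb k S ^ 2) := by
  refine ⟨Kb_nonneg k S, by positivity, fun y w => ?_, fun e => ?_, fun e y => ?_, fun y w => ?_⟩
  · rw [lz_add, add_sub_cancel_left, abs_le]
    have hb : ∀ x, |dE k S w x| ≤ Kb k S * ‖w‖ := abs_dE k S w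
    constructor
    · refine le_trans ?_ (av_le_log k S y w)
      exact (abs_le.1 (abs_av_le k S hb y)).1
    · rw [Real.log_le_iff_le_exp (av_exp_pos k S y w)]
      have h2 : av k S (fun x => Real.exp (dE k S w x)) y ≤
          av k S (fun _ => Real.exp (Kb k S * ‖w‖)) y :=
        av_mono k S (fun x => Real.exp_le_exp.2 ((le_abs_self _).trans (hb x))) y
      rwa [av_const] at h2
  · exact ((cont_av k S (S e)).const_mul k |>.measurable)
  · rw [abs_mul]
    unfold Kb
    refine mul_le_mul_of_nonneg_left ?_ (abs_nonneg k)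
    have h1 : |av k S (S e) y| ≤ ∑ x, |S e x| := abs_av_le k S (le_supn (S e)) y
    refine h1.trans ?_
    exact Finset.single_le_sum (f := fun e => ∑ x, |S e x|)
      (fun _ _ => Finset.sum_nonneg fun _ _ => abs_nonneg _) (Finset.mem_univ e)
  · rw [lz_add, add_sub_cancel_left]
    rw [← av_dE k S y w]
    have h1 := av_le_log k S y w
    have h2 := log_le_av k S y w
    rw [abs_le]
    constructor
    · have : 0 ≤ 3 * Kb k S ^ 2 * ‖w‖ ^ 2 := by positivity
      linarith
    · rw [mul_pow] at h2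
      linarith

/-- **The logarithm of the partition function is convex.** -/
theorem cv_lz : Cv (lz k S) := by
  intro a b ha hb hab w0 w1
  set y := a • w0 + b • w1 with hy
  have h : ∀ w, lz k S y + av k S (dE k S w) y ≤ lz k S (y + w) := by
    intro w
    rw [lz_add k S y w]
    linarith [av_le_log k S y w]
  have h0 := h (w0 - y)
  have h1 := h (w1 - y)
  rw [add_sub_cancel] at h0 h1
  have e : a * av k S (dE k S (w0 - y)) y + b * av k S (dE k S (w1 - y)) y = 0 := by
    rw [av_dE, av_dE, Finset.mul_sum, Finset.mul_sum, ← Finset.sum_add_distrib]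
    refine Finset.sum_eq_zero fun e _ => ?_
    have : a * (w0 - y) e + b * (w1 - y) e = 0 := by
      simp only [hy, Pi.sub_apply, Pi.add_apply, Pi.smul_apply, smul_eq_mul]
      have : b = 1 - a := by linarith
      rw [this]
      ring
    linear_combination k * av k S (S e) y * this
  have e2 : lz k S y = a * lz k S y + b * lz k S y := by rw [← add_mul, hab, one_mul]
  have m0 := mul_le_mul_of_nonneg_left h0 ha
  have m1 := mul_le_mul_of_nonneg_left h1 hb
  rw [mul_add] at m0 m1
  rw [e2]
  linarith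

variable {k S} {x : ℝ} (l : Lvl ι)

lemma exp_lz (u : ι → ℝ) : Real.exp (x * lz k S u) = Zx k S x u := rfl

/-- the unnormalised expectation for all couplings active -/
lemma Nl_univ (F : (ι → ℝ) → ℝ) (t : ℝ) (w : ι ⊕ ι → ℝ) :
    Nl k S x Finset.univ l F t w = ∫ z, Zx k S x ((√t • fun e => w (Sum.inl e)) + √(1 - t) • z) *
      F ((√t • fun e => w (Sum.inl e)) + √(1 - t) • z) ∂(gI ι) := by
  unfold Nl P
  refine integral_congr_ae (Filter.Eventually.of_forall fun z => ?_)
  have : pt Finset.univ l.a l.b l.c t w z = (√t • fun e => w (Sum.inl e)) + √(1 - t) • z := by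
    funext e
    simp [pt, u]
  simp only [this]

/-- **The squared gradient of the layer functional.** -/
theorem Phi_eq (hx : 0 < x) {t : ℝ} (ht : t ∈ Set.Icc (0 : ℝ) 1) :
    Phi x (lz k S) (fun e u => k * av k S (S e) u) t =
      (∫ w, Nl k S x Finset.univ l (fun _ => 1) t w *
        ∑ e, (k * rl k S x Finset.univ l (av k S (S e)) t w) ^ 2 ∂(gI (ι ⊕ ι))) /
          ∫ z, Zx k S x z ∂(gI ι) := by
  unfold Phi
  have e0 : ∫ z, Real.exp (x * lz k S z) ∂(gI ι) = ∫ z, Zx k S x z ∂(gI ι) := rfl
  rw [e0]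
  congr 1
  unfold Nm
  -- the function of the position
  set H : (ι → ℝ) → ℝ := fun y => (∫ z, Zx k S x ((√t • y) + √(1 - t) • z) ∂(gI ι)) *
    ∑ e, ((∫ z, Zx k S x ((√t • y) + √(1 - t) • z) *
      (k * av k S (S e) ((√t • y) + √(1 - t) • z)) ∂(gI ι)) /
        ∫ z, Zx k S x ((√t • y) + √(1 - t) • z) ∂(gI ι)) ^ 2 with hH
  have a1 : ∀ z, Real.exp (x * W x (√(1 - t)) (lz k S) (√t • z)) *
      G2 x (√(1 - t)) (lz k S) (fun e u => k * av k S (S e) u) (√t • z) = H z := by
    intro z
    have h1 : Real.exp (x * W x (√(1 - t)) (lz k S) (√t • z)) =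
        ∫ z', Zx k S x ((√t • z) + √(1 - t) • z') ∂(gI ι) := by
      have h2 := LipB.exp_W (s := √(1 - t)) (c11_lz k S).lip (c11_lz k S).B0 hx (√t • z)
      rw [h2]
      rfl
    rw [h1]
    simp only [hH]
    congr 1
  have a2 : ∀ w : ι ⊕ ι → ℝ, Nl k S x Finset.univ l (fun _ => 1) t w *
        ∑ e, (k * rl k S x Finset.univ l (av k S (S e)) t w) ^ 2 =
      H fun e => w (Sum.inl e) := by
    intro w
    have h1 : Nl k S x Finset.univ l (fun _ => 1) t w =
        ∫ z, Zx k S x ((√t • fun e => w (Sum.inl e)) + √(1 - t) • z) ∂(gI ι) := by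
      rw [Nl_univ]
      simp only [mul_one]
    simp only [hH]
    rw [h1]
    congr 1
    refine Finset.sum_congr rfl fun e _ => ?_
    rw [← rl_const_mul]
    unfold rl
    rw [h1, Nl_univ]
  simp only [a1, a2]
  refine (int_inl ?_).symm
  -- growth
  have h0 : EG fun w : ι ⊕ ι → ℝ => Nl k S x Finset.univ l (fun _ => 1) t w *
        ∑ e, (k * rl k S x Finset.univ l (av k S (S e)) t w) ^ 2 := by
    have h1 : EG (Nl k S x Finset.univ l (fun _ => 1) t) :=
      ((ob_one k S x).kfN Finset.univ l).gf.eg ht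
    refine h1.mul (EG.sum _ fun e _ => (EG.const_mul k ?_).pow 2)
    exact ((ob_av k S x (S e)).kfr Finset.univ hx.le l).gf.eg ht
  have h2 : EG fun w : ι ⊕ ι → ℝ => H fun e => w (Sum.inl e) := by
    have : (fun w : ι ⊕ ι → ℝ => H fun e => w (Sum.inl e)) = fun w : ι ⊕ ι → ℝ =>
      Nl k S x Finset.univ l (fun _ => 1) t w *
        ∑ e, (k * rl k S x Finset.univ l (av k S (S e)) t w) ^ 2 := by
      funext w
      exact (a2 w).symm
    rw [this]
    exact h0
  obtain ⟨C, d, hC, hd, hb⟩ := h2.bdd
  refine ⟨?_, C, d, hC, hd, fun y => ?_⟩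
  · have h3 := h2.meas.comp (measurable_pi_lambda
      (fun (y : ι → ℝ) (j : ι ⊕ ι) => Sum.elim y (fun _ => (0 : ℝ)) j) (fun j => by
        cases j
        · simp only [Sum.elim_inl]; exact measurable_pi_apply _
        · simp only [Sum.elim_inr]; exact measurable_const))
    exact h3
  · have h3 := hb (Sum.elim y fun _ => 0)
    refine h3.trans ?_
    gcongr
    rw [pi_norm_le_iff_of_nonneg (norm_nonneg _)]
    intro j
    cases j with
    | inl e => exact norm_le_pi_norm y e
    | inr e => simp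

/-- **The variance bound in terms of the conditional expectations.** -/
theorem var_le_rl (k : ℝ) (S : ι → X → ℝ) (l : Lvl ι) (hx : 0 < x) :
    ∫ z, (lz k S z - ∫ z', lz k S z' ∂(gI ι)) ^ 2 ∂(gI ι) ≤
      ∫ t in (0 : ℝ)..1, (∫ w, Nl k S x Finset.univ l (fun _ => 1) t w *
        ∑ e, (k * rl k S x Finset.univ l (av k S (S e)) t w) ^ 2 ∂(gI (ι ⊕ ι))) /
          ∫ z, Zx k S x z ∂(gI ι) := by
  refine (var_le_Phi (c11_lz k S) (cv_lz k S) hx).trans (le_of_eq ?_)
  refine intervalIntegral.integral_congr fun t ht => ?_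
  rw [Set.uIcc_of_le zero_le_one] at ht
  exact Phi_eq l hx ht

end Vale.Agent.P146.H332
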