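import Vale.Agent.P146.H332.Lin

/-!
Matrix inequalities for the `3/4` proof: traces of products of positive semidefinite matrices, the
Frobenius norm is monotone, and the two-replica form of the commutator bound.
-/

open Matrix

namespace Vale.Agent.P146.H332

set_option linter.unusedSectionVars false

variable {q : Type} [Fintype q] [DecidableEq q]

lemma Psd.of {A : Matrix q q ℝ} (hs : ∀ i j, A i j = A j i)
    (h : ∀ v : q → ℝ, 0 ≤ ∑ i, ∑ j, v i * A i j * v j) : Psd A := by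
  refine ⟨by ext i j; rw [transpose_apply]; exact hs j i, fun c => ?_⟩
  refine (h c).trans (le_of_eq ?_)
  exact Finset.sum_congr rfl fun i _ => Finset.sum_congr rfl fun j _ => by ring

/-- (M1), first part. -/
theorem psd_mul_nonneg {A B : Matrix q q ℝ} (hA : ∀ i j, A i j = A j i)
    (hA0 : ∀ v : q → ℝ, 0 ≤ ∑ i, ∑ j, v i * A i j * v j) (hB : ∀ i j, B i j = B j i)
    (hB0 : ∀ v : q → ℝ, 0 ≤ ∑ i, ∑ j, v i * B i j * v j) : 0 ≤ ∑ i, ∑ j, A i j * B i j :=
  (Psd.of hA hA0).sum_mul_nonneg (Psd.of hB hB0)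

/-- (M1), second part. -/
theorem psd_sq_mono {A B : Matrix q q ℝ} (hA : ∀ i j, A i j = A j i)
    (hA0 : ∀ v : q → ℝ, 0 ≤ ∑ i, ∑ j, v i * A i j * v j) (hB : ∀ i j, B i j = B j i)
    (hAB : ∀ v : q → ℝ, ∑ i, ∑ j, v i * A i j * v j ≤ ∑ i, ∑ j, v i * B i j * v j) :
    ∑ i, ∑ j, A i j ^ 2 ≤ ∑ i, ∑ j, B i j ^ 2 := by
  have h1 : Psd (B - A) := by
    refine Psd.of (fun i j => by simp only [Matrix.sub_apply]; rw [hA i j, hB i j]) fun v => ?_
    have := hAB v
    have e : ∑ i, ∑ j, v i * (B - A) i j * v j =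
        ∑ i, ∑ j, v i * B i j * v j - ∑ i, ∑ j, v i * A i j * v j := by
      simp only [Matrix.sub_apply, mul_sub, sub_mul, Finset.sum_sub_distrib]
    rw [e]
    linarith
  have h2 := (Psd.of hA hA0).fr_le_add h1
  rw [add_sub_cancel] at h2
  exact h2

/-- the Frobenius scalar product -/
def ip (A B : Matrix q q ℝ) : ℝ := ∑ i, ∑ j, A i j * B i j

lemma ip_eq_trace (A B : Matrix q q ℝ) : ip A B = (Aᵀ * B).trace := by
  simp only [ip, trace, diag, mul_apply, transpose_apply]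
  exact Finset.sum_comm

lemma ip_self (A : Matrix q q ℝ) : ip A A = fr A := by
  simp only [ip, fr, sq]

lemma fr_transpose (A : Matrix q q ℝ) : fr Aᵀ = fr A := by
  unfold fr
  rw [Finset.sum_comm]
  rfl

/-- Young's inequality -/
lemma ip_le (A B : Matrix q q ℝ) {lam : ℝ} (h : 0 < lam) :
    ip A B ≤ lam / 2 * fr A + 1 / (2 * lam) * fr B := by
  unfold ip fr
  simp only [Finset.mul_sum, ← Finset.sum_add_distrib]
  refine Finset.sum_le_sum fun i _ => Finset.sum_le_sum fun j _ => ?_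
  have h1 : 0 ≤ (lam * A i j - B i j) ^ 2 / (2 * lam) := by positivity
  have h2 : (lam * A i j - B i j) ^ 2 / (2 * lam) =
      lam / 2 * A i j ^ 2 + 1 / (2 * lam) * B i j ^ 2 - A i j * B i j := by
    field_simp
    ring
  linarith

/-- (M2). -/
theorem comm_young {H1 H2 C1 C2 : Matrix q q ℝ} (hH1 : H1ᵀ = H1) (hH2 : H2ᵀ = H2)
    (hC1 : C1ᵀ = C1) (hC2 : C2ᵀ = C2) {lam : ℝ} (h : 0 < lam) :
    (H1 * C1 * C2 * H2).trace ≤ lam / 2 * (H1 * (C2 * C2) * H1).trace +
      1 / (2 * lam) * (H2 * (C1 * C1) * H2).trace +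
      ((C1 * C1).trace * (H1 * H1).trace - (H1 * (C1 * C1) * H1).trace) +
      ((C2 * C2).trace * (H2 * H2).trace - (H2 * (C2 * C2) * H2).trace) := by
  have f1 : ∀ {A : Matrix q q ℝ}, Aᵀ = A → (A * A).trace = fr A := by
    intro A hA
    rw [fr_eq_trace, hA]
  have f2 : ∀ {A B : Matrix q q ℝ}, Aᵀ = A → Bᵀ = B → (B * (A * A) * B).trace = fr (A * B) := by
    intro A B hA hB
    rw [← ip_self, ip_eq_trace, transpose_mul, hA, hB]
    simp only [mul_assoc]
  set K1 := C1 * H1 - H1 * C1 with hK1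
  set K2 := C2 * H2 - H2 * C2 with hK2
  have k1 := fr_comm_le hC1 hH1
  have k2 := fr_comm_le hC2 hH2
  rw [← hK1] at k1
  rw [← hK2] at k2
  -- the identity
  have a1 : ip (C1 * H1) (C2 * H2) = (H1 * C1 * C2 * H2).trace := by
    rw [ip_eq_trace, transpose_mul, hC1, hH1]
    simp only [mul_assoc]
  have a2 : ip (H1 * C1) (H2 * C2) = (H1 * C1 * C2 * H2).trace := by
    rw [ip_eq_trace, ← trace_transpose, transpose_mul, transpose_transpose, transpose_mul, hC2,
      hH2, trace_mul_comm]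
    simp only [mul_assoc]
  have a3 : ip (C1 * H1) (H2 * C2) = (H1 * C1 * H2 * C2).trace := by
    rw [ip_eq_trace, transpose_mul, hC1, hH1]
    simp only [mul_assoc]
  have a4 : ip (H1 * C1) (C2 * H2) = (H1 * C1 * H2 * C2).trace := by
    rw [ip_eq_trace, ← trace_transpose, transpose_mul, transpose_transpose, transpose_mul, hC2,
      hH2, trace_mul_comm]
    simp only [mul_assoc]
  have a5 : ip (C2 * H1) (H2 * C1) = (H1 * C1 * H2 * C2).trace := by
    rw [ip_eq_trace, ← trace_transpose, transpose_mul, transpose_transpose, transpose_mul, hC1,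
      hH2]
    have : C1 * H2 * (C2 * H1) = C1 * H2 * C2 * H1 := by simp only [mul_assoc]
    rw [this, trace_mul_comm]
    simp only [mul_assoc]
  have e : ip K1 K2 = ip (C1 * H1) (C2 * H2) - ip (C1 * H1) (H2 * C2) -
      ip (H1 * C1) (C2 * H2) + ip (H1 * C1) (H2 * C2) := by
    rw [hK1, hK2]
    unfold ip
    simp only [← Finset.sum_sub_distrib, ← Finset.sum_add_distrib, Matrix.sub_apply]
    exact Finset.sum_congr rfl fun i _ => Finset.sum_congr rfl fun j _ => by ring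
  have e2 : (H1 * C1 * C2 * H2).trace = 1 / 2 * ip K1 K2 + ip (C2 * H1) (H2 * C1) := by
    rw [e, a1, a2, a3, a4, a5]; ring
  have y1 := ip_le K1 K2 one_pos
  have y2 := ip_le (C2 * H1) (H2 * C1) h
  have y3 : fr (H2 * C1) = fr (C1 * H2) := by
    rw [← fr_transpose, transpose_mul, hH2, hC1]
  rw [y3] at y2
  rw [e2, f2 hC2 hH1, f2 hC1 hH2, f2 hC1 hH1, f2 hC2 hH2, f1 hC1, f1 hC2, f1 hH1, f1 hH2]
  linarith

end Vale.Agent.P146.H332
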