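import Vale.Agent.P146.H325.Cond
import Vale.Agent.P146.H325.Sk
import Vale.Agent.P146.H332.Mat

/-!
The rank one block at a fixed level of the tilted law: the gradient of all `C_ij = r(⟨σ_i σ_j⟩)`
controls the covariances `r⟨σ_iσ_jσ_pσ_q⟩ - C_ij C_pq`, and these control `|C|⁴ - tr C⁴`.
-/

open MeasureTheory ProbabilityTheory Matrix

namespace Vale.Agent.P146.H332

open Vale.Agent.P157.Lv Vale.Agent.P146.H425 Vale.Agent.P146.H325

set_option linter.unusedSectionVars false

section gen

variable {ι : Type} [Fintype ι] [DecidableEq ι] {X : Type} [Fintype X] [Nonempty X]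
variable {κ : Type} [Fintype κ] [DecidableEq κ]
variable (k : ℝ) (S : ι → X → ℝ) (x : ℝ) (A0 : Finset ι) (l : Lvl ι) (h : κ → X → ℝ)
  (s : ℝ) (w : ι ⊕ ι → ℝ)

/-- `r⟨h_a h_b⟩` -/
noncomputable def MM : Matrix κ κ ℝ := fun a b =>
  rl k S x A0 l (av k S fun σ => h a σ * h b σ) s w

/-- `r(⟨h_a⟩⟨h_b⟩)` -/
noncomputable def NN : Matrix κ κ ℝ := fun a b =>
  rl k S x A0 l (fun u => av k S (h a) u * av k S (h b) u) s w

/-- `r⟨h_a⟩` -/
noncomputable def mm : κ → ℝ := fun a => rl k S x A0 l (av k S (h a)) s w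

lemma MM_comm (a b : κ) : MM k S x A0 l h s w a b = MM k S x A0 l h s w b a := by
  unfold MM
  congr 1
  funext u
  congr 1
  funext σ
  exact mul_comm _ _

lemma NN_comm (a b : κ) : NN k S x A0 l h s w a b = NN k S x A0 l h s w b a := by
  unfold NN
  congr 1
  funext u
  exact mul_comm _ _

lemma sum_MM (c : κ → ℝ) : ∑ a, ∑ b, c a * c b * MM k S x A0 l h s w a b =
    rl k S x A0 l (av k S fun σ => (∑ a, c a * h a σ) ^ 2) s w := by
  have e1 : (av k S fun σ => (∑ a, c a * h a σ) ^ 2) = fun u => ∑ a, ∑ b, (c a * c b) *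
      av k S (fun σ => h a σ * h b σ) u := by
    funext u
    have : (fun σ => (∑ a, c a * h a σ) ^ 2) = fun σ => ∑ a, ∑ b, (c a * c b) *
        (h a σ * h b σ) := by
      funext σ
      rw [sq, Finset.sum_mul_sum]
      exact Finset.sum_congr rfl fun a _ => Finset.sum_congr rfl fun b _ => by ring
    rw [this, av_sum]
    refine Finset.sum_congr rfl fun a _ => ?_
    rw [av_sum]
    exact Finset.sum_congr rfl fun b _ => av_mul k S _ _ u
  rw [e1, rl_sum]
  · refine Finset.sum_congr rfl fun a _ => ?_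
    rw [rl_sum]
    · refine Finset.sum_congr rfl fun b _ => ?_
      rw [rl_const_mul]
      rfl
    · exact fun b _ => ebd ((eg_av k S _).const_mul _)
  · exact fun a _ => esum _ fun b _ => ebd ((eg_av k S _).const_mul _)

lemma sum_NN (c : κ → ℝ) : ∑ a, ∑ b, c a * c b * NN k S x A0 l h s w a b =
    rl k S x A0 l (fun u => av k S (fun σ => ∑ a, c a * h a σ) u ^ 2) s w := by
  have e1 : (fun u => av k S (fun σ => ∑ a, c a * h a σ) u ^ 2) = fun u => ∑ a, ∑ b, (c a * c b) *
      (av k S (h a) u * av k S (h b) u) := by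
    funext u
    rw [av_sum, sq, Finset.sum_mul_sum]
    refine Finset.sum_congr rfl fun a _ => Finset.sum_congr rfl fun b _ => ?_
    rw [av_mul, av_mul]
    ring
  rw [e1, rl_sum]
  · refine Finset.sum_congr rfl fun a _ => ?_
    rw [rl_sum]
    · refine Finset.sum_congr rfl fun b _ => ?_
      rw [rl_const_mul]
      rfl
    · exact fun b _ => ebd (((eg_av k S _).mul (eg_av k S _)).const_mul _)
  · exact fun a _ => esum _ fun b _ => ebd (((eg_av k S _).mul (eg_av k S _)).const_mul _)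

lemma sum_mm (c : κ → ℝ) : ∑ a, c a * mm k S x A0 l h s w a =
    rl k S x A0 l (av k S fun σ => ∑ a, c a * h a σ) s w := by
  have e1 : (av k S fun σ => ∑ a, c a * h a σ) = fun u => ∑ a, c a * av k S (h a) u := by
    funext u
    rw [av_sum]
    exact Finset.sum_congr rfl fun a _ => av_mul k S _ _ u
  rw [e1, rl_sum]
  · refine Finset.sum_congr rfl fun a _ => ?_
    rw [rl_const_mul]
    rfl
  · exact fun a _ => ebd ((eg_av k S _).const_mul _)

/-- The thermal covariance is positive semidefinite. -/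
lemma psd_MN : Psd (MM k S x A0 l h s w - NN k S x A0 l h s w) := by
  refine ⟨?_, fun c => ?_⟩
  · ext a b
    rw [transpose_apply, Matrix.sub_apply, Matrix.sub_apply, MM_comm, NN_comm]
  · have e : ∑ a, ∑ b, c a * c b * (MM k S x A0 l h s w - NN k S x A0 l h s w) a b =
        ∑ a, ∑ b, c a * c b * MM k S x A0 l h s w a b -
          ∑ a, ∑ b, c a * c b * NN k S x A0 l h s w a b := by
      simp only [Matrix.sub_apply, mul_sub, Finset.sum_sub_distrib]
    rw [e, sum_MM, sum_NN, sub_nonneg]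
    exact rl_mono (ebd ((eg_av k S _).pow 2)) (ebd (eg_av k S _)) fun u => av_sq_le k S _ u

/-- The total covariance is positive semidefinite. -/
lemma psd_Mm : Psd (MM k S x A0 l h s w -
    vecMulVec (mm k S x A0 l h s w) (mm k S x A0 l h s w)) := by
  refine ⟨?_, fun c => ?_⟩
  · ext a b
    rw [transpose_apply, Matrix.sub_apply, Matrix.sub_apply, MM_comm, vecMulVec_apply,
      vecMulVec_apply, mul_comm (mm k S x A0 l h s w b)]
  · have e : ∑ a, ∑ b, c a * c b * (MM k S x A0 l h s w -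
        vecMulVec (mm k S x A0 l h s w) (mm k S x A0 l h s w)) a b =
        ∑ a, ∑ b, c a * c b * MM k S x A0 l h s w a b - (∑ a, c a * mm k S x A0 l h s w a) ^ 2 := by
      rw [sq, Finset.sum_mul_sum]
      simp only [Matrix.sub_apply, mul_sub, Finset.sum_sub_distrib, vecMulVec_apply]
      congr 1
      exact Finset.sum_congr rfl fun a _ => Finset.sum_congr rfl fun b _ => by ring
    rw [e, sum_MM, sum_mm, sub_nonneg]
    refine (rl_sq_le (eg_av k S _)).trans ?_
    exact rl_mono (ebd ((eg_av k S _).pow 2)) (ebd (eg_av k S _)) fun u => av_sq_le k S _ u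

/-- **The rank one block, general form.** -/
theorem kov_gen (hx0 : 0 ≤ x) (hx1 : x ≤ 1) :
    x ^ 2 * ∑ a, ∑ b, (MM k S x A0 l h s w a b -
      mm k S x A0 l h s w a * mm k S x A0 l h s w b) ^ 2 ≤
    ∑ a, ∑ b, (MM k S x A0 l h s w a b - (1 - x) * NN k S x A0 l h s w a b -
      x * (mm k S x A0 l h s w a * mm k S x A0 l h s w b)) ^ 2 :=
  kov_le (psd_MN k S x A0 l h s w) (psd_Mm k S x A0 l h s w) hx0 hx1

end gen

variable {n : ℕ}

/-- sums over all pairs of sites -/
lemma sum_pairs (G : Fin n → Fin n → ℝ) (hG : ∀ p q, G p q = G q p) (h0 : ∀ p, G p p = 0) :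
    ∑ p, ∑ q, G p q = 2 * ∑ e : Pair n, G e.1.1 e.1.2 := by
  rw [← sum_rows fun e => G e.1.1 e.1.2]
  refine Finset.sum_congr rfl fun b _ => ?_
  rw [← sum_row_all b (G := G b) (h0 b)]
  refine Finset.sum_congr rfl fun e he => ?_
  rw [mem_row] at he
  unfold oth
  split_ifs with h1
  · rw [h1]
  · rw [hG b, he.resolve_left h1]

lemma sum4_comm (F : Fin n → Fin n → Fin n → Fin n → ℝ) :
    ∑ i, ∑ j, ∑ p, ∑ q, F i j p q = ∑ p, ∑ q, ∑ i, ∑ j, F i j p q := by
  calc ∑ i, ∑ j, ∑ p, ∑ q, F i j p q = ∑ i, ∑ p, ∑ j, ∑ q, F i j p q :=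
        Finset.sum_congr rfl fun i _ => Finset.sum_comm
    _ = ∑ p, ∑ i, ∑ j, ∑ q, F i j p q := Finset.sum_comm
    _ = ∑ p, ∑ i, ∑ q, ∑ j, F i j p q :=
        Finset.sum_congr rfl fun i _ => Finset.sum_congr rfl fun j _ => Finset.sum_comm
    _ = ∑ p, ∑ q, ∑ i, ∑ j, F i j p q := Finset.sum_congr rfl fun i _ => Finset.sum_comm

variable (k x : ℝ) (l : Lvl (Pair n)) (s : ℝ) (w : Pair n ⊕ Pair n → ℝ)

/-- (M0), first part. -/
theorem kov_pairs (hx0 : 0 ≤ x) (hx1 : x ≤ 1) :
    k ^ 2 * x ^ 2 / 2 * ∑ i, ∑ j, ∑ p, ∑ q,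
      (rl k SkS x Finset.univ l (av k SkS fun σ => pr i j σ * pr p q σ) s w -
        rl k SkS x Finset.univ l (av k SkS (pr i j)) s w *
          rl k SkS x Finset.univ l (av k SkS (pr p q)) s w) ^ 2 ≤
    ∑ e : Pair n, ∑ i, ∑ j, Dl k SkS x Finset.univ l (av k SkS (pr i j))
      (av' k SkS x (pr i j)) e s w ^ 2 := by
  set r : ((Pair n → ℝ) → ℝ) → ℝ := fun F => rl k SkS x Finset.univ l F s w with hr
  set M : Fin n → Fin n → Fin n → Fin n → ℝ := fun i j p q =>
    r (av k SkS fun σ => pr i j σ * pr p q σ) with hM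
  set N : Fin n → Fin n → Fin n → Fin n → ℝ := fun i j p q =>
    r (fun u => av k SkS (pr i j) u * av k SkS (pr p q) u) with hN
  set C : Fin n → Fin n → ℝ := fun i j => r (av k SkS (pr i j)) with hC
  have key := kov_gen k SkS x Finset.univ l (fun a : Fin n × Fin n => pr a.1 a.2) s w hx0 hx1
  simp only [Fintype.sum_prod_type] at key
  have e1 : ∀ i j, MM k SkS x Finset.univ l (fun a : Fin n × Fin n => pr a.1 a.2) s w i j =
    M i.1 i.2 j.1 j.2 := fun i j => rfl
  have e2 : ∀ i j, NN k SkS x Finset.univ l (fun a : Fin n × Fin n => pr a.1 a.2) s w i j =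
    N i.1 i.2 j.1 j.2 := fun i j => rfl
  have e3 : ∀ i, mm k SkS x Finset.univ l (fun a : Fin n × Fin n => pr a.1 a.2) s w i =
    C i.1 i.2 := fun i => rfl
  simp only [e1, e2, e3] at key
  -- the gradient
  have d1 : ∀ e : Pair n, ∀ i j, Dl k SkS x Finset.univ l (av k SkS (pr i j))
      (av' k SkS x (pr i j)) e s w = k * (M i j e.1.1 e.1.2 - (1 - x) * N i j e.1.1 e.1.2 -
        x * (C i j * C e.1.1 e.1.2)) := by
    intro e i j
    have a1 : th k SkS x Finset.univ l e s w = k * x * C e.1.1 e.1.2 := by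
      unfold th
      have : one' k SkS x e = fun u => k * x * av k SkS (pr e.1.1 e.1.2) u := rfl
      rw [this, rl_const_mul]
    have a2 : rl k SkS x Finset.univ l (av' k SkS x (pr i j) e) s w =
        k * (M i j e.1.1 e.1.2 - (1 - x) * N i j e.1.1 e.1.2) := by
      have : av' k SkS x (pr i j) e = fun u => k *
          (av k SkS (fun σ => pr i j σ * pr e.1.1 e.1.2 σ) u -
            (1 - x) * (av k SkS (pr i j) u * av k SkS (pr e.1.1 e.1.2) u)) := rfl
      rw [this, rl_const_mul, rl_sub (ebd (eg_av k SkS _))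
        (ebd (((eg_av k SkS _).mul (eg_av k SkS _)).const_mul _)), rl_const_mul]
    unfold Dl
    rw [a1, a2]
    ring
  simp only [d1]
  -- the symmetric sum over the pairs of sites
  set G : Fin n → Fin n → ℝ := fun p q => ∑ i, ∑ j, (M i j p q - (1 - x) * N i j p q -
        x * (C i j * C p q)) ^ 2 with hG
  have g1 : ∀ p q, G p q = G q p := by
    intro p q
    have b1 : ∀ i j, M i j p q = M i j q p := fun i j => by simp only [hM]; rw [pr_comm p q]
    have b2 : ∀ i j, N i j p q = N i j q p := fun i j => by simp only [hN]; rw [pr_comm p q]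
    have b3 : C p q = C q p := by simp only [hC]; rw [pr_comm p q]
    simp only [hG, b1, b2, b3]
  have g2 : ∀ p, G p p = 0 := by
    intro p
    have c1 : ∀ i j, M i j p p = C i j := fun i j => by
      simp only [hM, hC]; rw [pr_self p]; simp only [mul_one]
    have c2 : ∀ i j, N i j p p = C i j := fun i j => by
      simp only [hN, hC]; rw [pr_self p]
      simp only [av_const, mul_one]
    have c3 : C p p = 1 := by
      simp only [hC]; rw [pr_self p]
      simp only [hr]
      have : av k SkS (fun _ : Fin n → ℤˣ => (1 : ℝ)) = fun _ => 1 := by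
        funext u; exact av_one k SkS u
      rw [this]
      exact rl_one
    simp only [hG, c1, c2, c3]
    refine Finset.sum_eq_zero fun i _ => Finset.sum_eq_zero fun j _ => ?_
    ring
  have g3 := sum_pairs G g1 g2
  have f1 : ∑ i, ∑ j, ∑ p, ∑ q, (M i j p q - (1 - x) * N i j p q - x * (C i j * C p q)) ^ 2 =
      ∑ p, ∑ q, G p q := by
    simp only [hG]
    exact sum4_comm _
  rw [f1, g3] at key
  have f2 : ∑ e : Pair n, ∑ i, ∑ j, (k * (M i j e.1.1 e.1.2 - (1 - x) * N i j e.1.1 e.1.2 -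
      x * (C i j * C e.1.1 e.1.2))) ^ 2 = k ^ 2 * ∑ e : Pair n, G e.1.1 e.1.2 := by
    simp only [hG, Finset.mul_sum, mul_pow]
  rw [f2]
  have hk : 0 ≤ k ^ 2 := sq_nonneg k
  have := mul_le_mul_of_nonneg_left key hk
  linarith

/-- (M0), second part. -/
theorem swap_pairs :
    (∑ i, ∑ j, rl k SkS x Finset.univ l (av k SkS (pr i j)) s w ^ 2) ^ 2 -
      ∑ i, ∑ j, (∑ p, rl k SkS x Finset.univ l (av k SkS (pr i p)) s w *
        rl k SkS x Finset.univ l (av k SkS (pr p j)) s w) ^ 2 ≤
    2 * ∑ i, ∑ j, ∑ p, ∑ q,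
      (rl k SkS x Finset.univ l (av k SkS fun σ => pr i j σ * pr p q σ) s w -
        rl k SkS x Finset.univ l (av k SkS (pr i j)) s w *
          rl k SkS x Finset.univ l (av k SkS (pr p q)) s w) ^ 2 := by
  set C : Matrix (Fin n) (Fin n) ℝ := fun i j =>
    rl k SkS x Finset.univ l (av k SkS (pr i j)) s w with hC
  have hs : Cᵀ = C := by
    ext i j
    rw [transpose_apply]
    simp only [hC]
    rw [pr_comm]
  have h1 := swap_le hs (fun i j p q =>
    rl k SkS x Finset.univ l (av k SkS fun σ => pr i j σ * pr p q σ) s w) (by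
      intro i j p q
      have : (fun σ : Fin n → ℤˣ => pr i j σ * pr p q σ) = fun σ => pr i p σ * pr j q σ := by
        funext σ
        unfold pr
        ring
      rw [this])
  unfold fr at h1
  simp only [mul_apply] at h1
  exact h1

end Vale.Agent.P146.H332
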