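import Vale.Agent.P146.H332.KFBase

/-!
The heat calculus under the tilted law. `Z` is a positive function with generator `0` (the density
of the tilted law with respect to the Gaussian law at the share `s`, up to a constant). For `f` in
the class `KF`, `KX A Z DZ f D Lx` says that the generator of `f` under the tilted law is `Lx`:
`d/ds E[Z f] = E[Z Lx]`, `Lx (f g) = f Lx g + g Lx f + ∑ D f D g`, and `Lx (N / Z) = 0` as soon as
the generator of `N` is `0`.
-/

open MeasureTheory ProbabilityTheory Filter Topology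

namespace Vale.Agent.P146.H332

open Vale.Agent.P157.Lv

set_option linter.unusedSectionVars false

variable {J : Type} [Fintype J] [DecidableEq J]

/-- A positive density with generator `0`. -/
structure Den (A : Finset J) (Z : ℝ → (J → ℝ) → ℝ) (DZ : J → ℝ → (J → ℝ) → ℝ) : Prop where
  kf : KF A Z DZ (fun _ _ => 0)
  lb : ∃ c a : ℝ, 0 < c ∧ ∀ s ∈ Set.Icc (0 : ℝ) 1, ∀ w, c * Real.exp (-(a * ‖w‖)) ≤ Z s w

/-- Smooth functions with the generator `Lx` under the tilted law. -/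
def KX (A : Finset J) (Z : ℝ → (J → ℝ) → ℝ) (DZ : J → ℝ → (J → ℝ) → ℝ)
    (f : ℝ → (J → ℝ) → ℝ) (D : J → ℝ → (J → ℝ) → ℝ) (Lx : ℝ → (J → ℝ) → ℝ) : Prop :=
  KF A f D (fun s w => Lx s w - ∑ e ∈ A, D e s w * DZ e s w * (Z s w)⁻¹)

variable {A : Finset J} {Z : ℝ → (J → ℝ) → ℝ} {DZ : J → ℝ → (J → ℝ) → ℝ}
  {f g : ℝ → (J → ℝ) → ℝ} {D D' : J → ℝ → (J → ℝ) → ℝ} {L L' : ℝ → (J → ℝ) → ℝ}

namespace Den

lemma pos (h : Den A Z DZ) {s : ℝ} (hs : s ∈ Set.Icc (0 : ℝ) 1) (w : J → ℝ) : 0 < Z s w := by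
  obtain ⟨c, a, hc, hl⟩ := h.lb
  exact (mul_pos hc (Real.exp_pos _)).trans_le (hl s hs w)

lemma ge_inv (h : Den A Z DZ) : GE (fun s w => (Z s w)⁻¹) := by
  obtain ⟨c, a, hc, hl⟩ := h.lb
  exact h.kf.gf.inv hc hl

end Den

namespace KX

lemma of_kf (hf : KF A f D L) :
    KX A Z DZ f D (fun s w => L s w + ∑ e ∈ A, D e s w * DZ e s w * (Z s w)⁻¹) :=
  KF.congr hf (fun _ _ => rfl) (fun _ _ _ _ => rfl) fun s w => by ring

lemma congr {f' : ℝ → (J → ℝ) → ℝ} (hf : KX A Z DZ f D L) (h0 : ∀ s w, f' s w = f s w)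
    (h1 : ∀ e ∈ A, ∀ s w, D' e s w = D e s w) (h2 : ∀ s w, L' s w = L s w) :
    KX A Z DZ f' D' L' :=
  KF.congr hf h0 h1 fun s w => by
    rw [h2]
    congr 1
    exact Finset.sum_congr rfl fun e he => by rw [h1 e he]

lemma weight {Y : (J → ℝ) → ℝ} (hY : EG Y) (hd : ∀ e ∈ A, ∀ y t, Y (Function.update y e t) = Y y) :
    KX A Z DZ (fun _ => Y) (fun _ _ _ => 0) (fun _ _ => 0) :=
  KF.congr (KF.weight hY hd) (fun _ _ => rfl) (fun _ _ _ _ => rfl) fun s w => by simp

lemma const (c : ℝ) : KX A Z DZ (fun _ _ => c) (fun _ _ _ => 0) (fun _ _ => 0) :=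
  weight (EG.const c) fun _ _ _ _ => rfl

lemma add (hf : KX A Z DZ f D L) (hg : KX A Z DZ g D' L') :
    KX A Z DZ (fun s w => f s w + g s w) (fun e s w => D e s w + D' e s w)
      (fun s w => L s w + L' s w) :=
  KF.congr (KF.add hf hg) (fun _ _ => rfl) (fun _ _ _ _ => rfl) fun s w => by
    simp only [add_mul, Finset.sum_add_distrib]
    ring

lemma mul (hf : KX A Z DZ f D L) (hg : KX A Z DZ g D' L') :
    KX A Z DZ (fun s w => f s w * g s w) (fun e s w => f s w * D' e s w + g s w * D e s w)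
      (fun s w => f s w * L' s w + g s w * L s w + ∑ e ∈ A, D e s w * D' e s w) :=
  KF.congr (KF.mul hf hg) (fun _ _ => rfl) (fun _ _ _ _ => rfl) fun s w => by
    have : ∑ e ∈ A, (f s w * D' e s w + g s w * D e s w) * DZ e s w * (Z s w)⁻¹ =
        f s w * ∑ e ∈ A, D' e s w * DZ e s w * (Z s w)⁻¹ +
        g s w * ∑ e ∈ A, D e s w * DZ e s w * (Z s w)⁻¹ := by
      simp only [Finset.mul_sum, ← Finset.sum_add_distrib]
      exact Finset.sum_congr rfl fun e _ => by ring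
    rw [this]; ring

lemma const_mul (c : ℝ) (hf : KX A Z DZ f D L) :
    KX A Z DZ (fun s w => c * f s w) (fun e s w => c * D e s w) (fun s w => c * L s w) :=
  ((const c).mul hf).congr (fun _ _ => rfl) (fun e _ s w => by ring) fun s w => by simp

lemma neg (hf : KX A Z DZ f D L) :
    KX A Z DZ (fun s w => -f s w) (fun e s w => -D e s w) (fun s w => -L s w) :=
  (hf.const_mul (-1)).congr (fun s w => by ring) (fun e _ s w => by ring) fun s w => by ring

lemma sub (hf : KX A Z DZ f D L) (hg : KX A Z DZ g D' L') :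
    KX A Z DZ (fun s w => f s w - g s w) (fun e s w => D e s w - D' e s w)
      (fun s w => L s w - L' s w) :=
  (hf.add hg.neg).congr (fun s w => by ring) (fun e _ s w => by ring) fun s w => by ring

lemma sum {K : Type*} (S : Finset K) {f : K → ℝ → (J → ℝ) → ℝ} {D : K → J → ℝ → (J → ℝ) → ℝ}
    {L : K → ℝ → (J → ℝ) → ℝ} (hf : ∀ i ∈ S, KX A Z DZ (f i) (D i) (L i)) :
    KX A Z DZ (fun s w => ∑ i ∈ S, f i s w) (fun e s w => ∑ i ∈ S, D i e s w)
      (fun s w => ∑ i ∈ S, L i s w) := by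
  classical
  induction S using Finset.induction_on with
  | empty => simpa using const (A := A) (Z := Z) (DZ := DZ) 0
  | insert a S ha ih =>
    simp only [Finset.sum_insert ha]
    exact (hf a (Finset.mem_insert_self a S)).add
      (ih fun i hi => hf i (Finset.mem_insert_of_mem hi))

lemma sq (hf : KX A Z DZ f D L) : KX A Z DZ (fun s w => f s w ^ 2)
    (fun e s w => 2 * f s w * D e s w)
    (fun s w => 2 * f s w * L s w + ∑ e ∈ A, D e s w ^ 2) :=
  (hf.mul hf).congr (fun s w => by ring) (fun e _ s w => by ring) fun s w => by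
    have : ∑ e ∈ A, D e s w ^ 2 = ∑ e ∈ A, D e s w * D e s w :=
      Finset.sum_congr rfl fun e _ => by ring
    rw [this]; ring

/-- **Ratios are martingales under the tilted law.** -/
theorem ratio (hZ : Den A Z DZ) {N : ℝ → (J → ℝ) → ℝ} {DN : J → ℝ → (J → ℝ) → ℝ}
    (hN : KF A N DN (fun _ _ => 0)) :
    KX A Z DZ (fun s w => N s w * (Z s w)⁻¹)
      (fun e s w => (DN e s w - N s w * (Z s w)⁻¹ * DZ e s w) * (Z s w)⁻¹) (fun _ _ => 0) := by
  obtain ⟨c, a, hc, hl⟩ := hZ.lb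
  have h1 := hN.mul (hZ.kf.inv hc hl)
  refine KF.congr h1 (fun _ _ => rfl) (fun e _ s w => ?_) fun s w => ?_
  · rw [div_eq_mul_inv, ← inv_pow]; ring
  · have : ∀ e ∈ A, (DN e s w - N s w * (Z s w)⁻¹ * DZ e s w) * (Z s w)⁻¹ * DZ e s w *
        (Z s w)⁻¹ = -(N s w * (DZ e s w ^ 2 / Z s w ^ 3)) - DN e s w * (-DZ e s w / Z s w ^ 2) := by
      intro e _
      rw [div_eq_mul_inv, div_eq_mul_inv, ← inv_pow, ← inv_pow]; ring
    rw [Finset.sum_congr rfl this, Finset.sum_sub_distrib, Finset.sum_neg_distrib, mul_add,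
      Finset.mul_sum]
    simp [add_comm]

/-- The density times `f`. -/
lemma den_mul (hZ : Den A Z DZ) (hf : KX A Z DZ f D L) :
    KF A (fun s w => Z s w * f s w) (fun e s w => Z s w * D e s w + f s w * DZ e s w)
      (fun s w => Z s w * (L s w - ∑ e ∈ A, D e s w * DZ e s w * (Z s w)⁻¹) +
        ∑ e ∈ A, DZ e s w * D e s w) :=
  (KF.mul hZ.kf hf).congr (fun _ _ => rfl) (fun _ _ _ _ => rfl) fun s w => by ring

lemma den_L (hZ : Den A Z DZ) {s : ℝ} (hs : s ∈ Set.Icc (0 : ℝ) 1) (w : J → ℝ)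
    (L : ℝ → (J → ℝ) → ℝ) (D : J → ℝ → (J → ℝ) → ℝ) :
    Z s w * (L s w - ∑ e ∈ A, D e s w * DZ e s w * (Z s w)⁻¹) +
        ∑ e ∈ A, DZ e s w * D e s w = Z s w * L s w := by
  have h0 := (hZ.pos hs w).ne'
  have : Z s w * ∑ e ∈ A, D e s w * DZ e s w * (Z s w)⁻¹ = ∑ e ∈ A, DZ e s w * D e s w := by
    rw [Finset.mul_sum]
    refine Finset.sum_congr rfl fun e _ => ?_
    field_simp
  rw [mul_sub, this]; ring

/-- The generator has exponential growth. -/
lemma gL (hZ : Den A Z DZ) (hf : KX A Z DZ f D L) : GE L := by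
  have h1 := KF.gL hf
  have h2 : GE (fun s w => ∑ e ∈ A, D e s w * DZ e s w * (Z s w)⁻¹) :=
    GE.sum A fun e he => ((hf.gD e he).mul (hZ.kf.gD e he)).mul hZ.ge_inv
  exact (h1.add h2).congr fun s w => by ring

/-- **The derivative of a tilted expectation.** -/
theorem deriv (hZ : Den A Z DZ) (hf : KX A Z DZ f D L) {s : ℝ} (hs : s ∈ Set.Ioo (0 : ℝ) 1) :
    HasDerivAt (fun s => ∫ w, Z s w * f s w ∂(gI J)) (∫ w, Z s w * L s w ∂(gI J)) s := by
  refine ((den_mul hZ hf).deriv hs).congr_deriv ?_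
  congr 1
  funext w
  exact den_L hZ (Set.Ioo_subset_Icc_self hs) w L D

theorem cont (hZ : Den A Z DZ) (hf : KX A Z DZ f D L) :
    ContinuousOn (fun s => ∫ w, Z s w * f s w ∂(gI J)) (Set.Icc 0 1) := (den_mul hZ hf).cont

/-- The fundamental theorem of calculus for tilted expectations. -/
theorem ftc (hZ : Den A Z DZ) (hf : KX A Z DZ f D L) {a b : ℝ} (ha : 0 ≤ a) (hab : a ≤ b)
    (hb : b ≤ 1) : ∫ s in a..b, (∫ w, Z s w * L s w ∂(gI J)) =
      (∫ w, Z b w * f b w ∂(gI J)) - ∫ w, Z a w * f a w ∂(gI J) := by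
  rw [← (den_mul hZ hf).ftc ha hab hb]
  refine intervalIntegral.integral_congr fun s hs => ?_
  rw [Set.uIcc_of_le hab] at hs
  congr 1
  funext w
  exact (den_L hZ ⟨ha.trans hs.1, hs.2.trans hb⟩ w L D).symm

end KX

end Vale.Agent.P146.H332
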