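import Vale.Agent.P146.H325.Cond
import Vale.Agent.P146.H325.Sk
import Vale.Agent.P146.H332.KX

/-!
Touches: how much the conditional expectations change when the active couplings are revealed up to
the share `t`.
-/

open MeasureTheory ProbabilityTheory

namespace Vale.Agent.P146.H332

open Vale.Agent.P157.Lv Vale.Agent.P146.H425 Vale.Agent.P146.H325

set_option linter.unusedSectionVars false

section basic

variable {J : Type} [Fintype J] [DecidableEq J]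
variable {A : Finset J} {f : ℝ → (J → ℝ) → ℝ} {D : J → ℝ → (J → ℝ) → ℝ}
  {L : ℝ → (J → ℝ) → ℝ}

/-- Expectations with generator `0` are constant. -/
lemma KF.const_of_zero (hf : KF A f D fun _ _ => 0) {a b : ℝ} (ha : 0 ≤ a) (hab : a ≤ b)
    (hb : b ≤ 1) : ∫ w, f b w ∂(gI J) = ∫ w, f a w ∂(gI J) := by
  have h := hf.ftc ha hab hb
  simp only [integral_zero, intervalIntegral.integral_zero] at h
  linarith

/-- Expectations with nonnegative generator are monotone. -/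
lemma KF.mono_of_nonneg (hf : KF A f D L) {a b : ℝ} (ha : 0 ≤ a) (hab : a ≤ b) (hb : b ≤ 1)
    (hL : ∀ s ∈ Set.Icc a b, ∀ w, 0 ≤ L s w) : ∫ w, f a w ∂(gI J) ≤ ∫ w, f b w ∂(gI J) := by
  have h := hf.ftc ha hab hb
  have h1 : 0 ≤ ∫ s in a..b, (∫ w, L s w ∂(gI J)) :=
    intervalIntegral.integral_nonneg hab fun s hs => integral_nonneg (hL s hs)
  linarith

lemma KF.intervalIntegrable (hf : KF A f D L) {a b : ℝ} (ha : 0 ≤ a) (hab : a ≤ b) (hb : b ≤ 1) :
    IntervalIntegrable (fun s => ∫ w, L s w ∂(gI J)) volume a b := by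
  refine ContinuousOn.intervalIntegrable ?_
  rw [Set.uIcc_of_le hab]
  exact hf.gL.continuousOn.mono (Set.Icc_subset_Icc ha hb)

/-- The increment is at most the length times the largest mean of the generator. -/
lemma KF.sub_le (hf : KF A f D L) {a b : ℝ} (ha : 0 ≤ a) (hab : a ≤ b) (hb : b ≤ 1) {M : ℝ}
    (hM : ∀ s ∈ Set.Icc a b, ∫ w, L s w ∂(gI J) ≤ M) :
    (∫ w, f b w ∂(gI J)) - ∫ w, f a w ∂(gI J) ≤ (b - a) * M := by
  rw [← hf.ftc ha hab hb]
  have h := intervalIntegral.integral_mono_on hab (hf.intervalIntegrable ha hab hb)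
    (_root_.intervalIntegrable_const (c := M)) hM
  rwa [intervalIntegral.integral_const, smul_eq_mul] at h

end basic

variable {ι : Type} [Fintype ι] [DecidableEq ι] {X : Type} [Fintype X] [Nonempty X]
variable {k : ℝ} {S : ι → X → ℝ} {x : ℝ} (A0 : Finset ι) (l : Lvl ι)

lemma pt_zero_update {e : ι} (he : e ∈ A0) (w : ι ⊕ ι → ℝ) (z : ι → ℝ) (t : ℝ) :
    pt A0 l.a l.b l.c 0 (Function.update w (Sum.inl e) t) z = pt A0 l.a l.b l.c 0 w z := by
  funext j
  have h1 : ∀ j, j ∉ A0 → (Sum.inl j : ι ⊕ ι) ≠ Sum.inl e := by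
    intro j hj h
    exact hj (Sum.inl_injective h ▸ he)
  have h2 : (Sum.inr j : ι ⊕ ι) ≠ Sum.inl e := Sum.inr_ne_inl
  by_cases hj : j ∈ A0
  · simp [pt, u, hj]
  · simp [pt, u, hj, Function.update_of_ne (h1 j hj)]

lemma Nl_zero_update (F : (ι → ℝ) → ℝ) {e : ι} (he : e ∈ A0) (w : ι ⊕ ι → ℝ) (t : ℝ) :
    Nl k S x A0 l F 0 (Function.update w (Sum.inl e) t) = Nl k S x A0 l F 0 w := by
  unfold Nl P
  simp only [pt_zero_update A0 l he]

lemma rl_zero_update (F : (ι → ℝ) → ℝ) {e : ι} (he : e ∈ A0) (w : ι ⊕ ι → ℝ) (t : ℝ) :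
    rl k S x A0 l F 0 (Function.update w (Sum.inl e) t) = rl k S x A0 l F 0 w := by
  unfold rl
  rw [Nl_zero_update A0 l F he, Nl_zero_update A0 l _ he]

/-- weights of the initial share -/
lemma kf_weight {φ : (ι ⊕ ι → ℝ) → ℝ} (hφ : EG φ)
    (h : ∀ e ∈ A0, ∀ w t, φ (Function.update w (Sum.inl e) t) = φ w) :
    KF (act A0) (fun _ => φ) (fun _ _ _ => 0) (fun _ _ => 0) := by
  refine KF.weight hφ fun j hj => ?_
  obtain ⟨e, he, rfl⟩ := Finset.mem_map.1 hj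
  exact h e he

variable {F : (ι → ℝ) → ℝ} {F' : ι → (ι → ℝ) → ℝ}

/-- the martingale property against weights -/
lemma Ob.weight_const (hF : Ob k S x F F') {φ : (ι ⊕ ι → ℝ) → ℝ} (hφ : EG φ)
    (h : ∀ e ∈ A0, ∀ w t, φ (Function.update w (Sum.inl e) t) = φ w) {a b : ℝ} (ha : 0 ≤ a)
    (hab : a ≤ b) (hb : b ≤ 1) :
    ∫ w, Nl k S x A0 l F b w * φ w ∂(gI (ι ⊕ ι)) =
      ∫ w, Nl k S x A0 l F a w * φ w ∂(gI (ι ⊕ ι)) := by
  have h1 := ((hF.kfN A0 l).mul (kf_weight A0 hφ h))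
  have h2 := h1.congr (f' := fun s w => Nl k S x A0 l F s w * φ w)
    (L' := fun _ _ => 0) (fun s w => rfl) (fun j hj s w => rfl) (fun s w => by simp)
  exact KF.const_of_zero h2 ha hab hb

lemma N_rl (F : (ι → ℝ) → ℝ) (s : ℝ) (w : ι ⊕ ι → ℝ) :
    Nl k S x A0 l (fun _ => 1) s w * rl k S x A0 l F s w = Nl k S x A0 l F s w := by
  unfold rl
  rw [mul_div_cancel₀ _ (N1_pos k S x A0 l s w).ne']

lemma eg_rl (hF : Ob k S x F F') (hx : 0 ≤ x) {s : ℝ} (hs : s ∈ Set.Icc (0 : ℝ) 1) :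
    EG (rl k S x A0 l F s) := (hF.kfr A0 hx l).gf.eg hs

lemma eg_N {s : ℝ} (hs : s ∈ Set.Icc (0 : ℝ) 1) : EG (Nl k S x A0 l (fun _ => 1) s) :=
  ((ob_one k S x).kfN A0 l).gf.eg hs

/-- the square of a conditional expectation -/
lemma Ob.kf_sq (hF : Ob k S x F F') (hx : 0 ≤ x) : ∃ D, KF (act A0)
    (fun s w => Nl k S x A0 l (fun _ => 1) s w * rl k S x A0 l F s w ^ 2) D
    (fun s w => Nl k S x A0 l (fun _ => 1) s w * ∑ e ∈ A0, Dl k S x A0 l F F' e s w ^ 2) := by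
  obtain ⟨D, h⟩ := kf_two A0 hF hF hx l l l
  refine ⟨D, h.congr (fun s w => ?_) (fun j hj s w => rfl) (fun s w => ?_)⟩
  · ring
  · congr 1
    refine Finset.sum_congr rfl fun e _ => ?_
    ring

/-- the increments of a conditional expectation are orthogonal to the past -/
lemma Ob.incr (hF : Ob k S x F F') (hx : 0 ≤ x) {t : ℝ} (ht : t ∈ Set.Icc (0 : ℝ) 1) :
    ∫ w, Nl k S x A0 l (fun _ => 1) t w *
        (rl k S x A0 l F t w - rl k S x A0 l F 0 w) ^ 2 ∂(gI (ι ⊕ ι)) =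
      (∫ w, Nl k S x A0 l (fun _ => 1) t w * rl k S x A0 l F t w ^ 2 ∂(gI (ι ⊕ ι))) -
        ∫ w, Nl k S x A0 l (fun _ => 1) 0 w * rl k S x A0 l F 0 w ^ 2 ∂(gI (ι ⊕ ι)) := by
  have h0 : (0 : ℝ) ∈ Set.Icc (0 : ℝ) 1 := ⟨le_rfl, zero_le_one⟩
  set N := Nl k S x A0 l (fun _ => 1) with hN
  set r := rl k S x A0 l F with hr
  have eN : EG (N t) := eg_N A0 l ht
  have er : EG (r t) := eg_rl A0 l hF hx ht
  have er0 : EG (r 0) := eg_rl A0 l hF hx h0
  have i1 : Integrable (fun w => N t w * r t w ^ 2) (gI (ι ⊕ ι)) := (eN.mul (er.pow 2)).integrable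
  have i2 : Integrable (fun w => 2 * (N t w * r t w * r 0 w)) (gI (ι ⊕ ι)) :=
    (((eN.mul er).mul er0).const_mul 2).integrable
  have i3 : Integrable (fun w => N t w * r 0 w ^ 2) (gI (ι ⊕ ι)) :=
    (eN.mul (er0.pow 2)).integrable
  have e1 : ∀ w, N t w * (r t w - r 0 w) ^ 2 =
      N t w * r t w ^ 2 - 2 * (N t w * r t w * r 0 w) + N t w * r 0 w ^ 2 := fun w => by ring
  simp only [e1]
  have i12 : Integrable (fun w => N t w * r t w ^ 2 - 2 * (N t w * r t w * r 0 w))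
      (gI (ι ⊕ ι)) := i1.sub i2
  rw [integral_add i12 i3, integral_sub i1 i2, integral_const_mul]
  have c1 : ∫ w, N t w * r t w * r 0 w ∂(gI (ι ⊕ ι)) =
      ∫ w, N 0 w * r 0 w ^ 2 ∂(gI (ι ⊕ ι)) := by
    have h := Ob.weight_const A0 l hF er0 (fun e he w t => rl_zero_update A0 l F he w t)
      le_rfl ht.1 ht.2
    have e2 : ∀ w, N t w * r t w * r 0 w = Nl k S x A0 l F t w * r 0 w := fun w => by
      rw [hN, hr, N_rl]
    have e3 : ∀ w, N 0 w * r 0 w ^ 2 = Nl k S x A0 l F 0 w * r 0 w := fun w => by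
      rw [sq, ← mul_assoc, hN, hr, N_rl]
    simp only [e2, e3]
    exact h
  have c2 : ∫ w, N t w * r 0 w ^ 2 ∂(gI (ι ⊕ ι)) = ∫ w, N 0 w * r 0 w ^ 2 ∂(gI (ι ⊕ ι)) :=
    Ob.weight_const A0 l (ob_one k S x) (er0.pow 2)
      (fun e he w t => by rw [hr, rl_zero_update A0 l F he w t]) le_rfl ht.1 ht.2
  rw [c1, c2]
  ring

/-- Jensen: the second moments of conditional expectations increase. -/
lemma Ob.sq_mono (hF : Ob k S x F F') (hx : 0 ≤ x) {a b : ℝ} (ha : 0 ≤ a) (hab : a ≤ b)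
    (hb : b ≤ 1) :
    ∫ w, Nl k S x A0 l (fun _ => 1) a w * rl k S x A0 l F a w ^ 2 ∂(gI (ι ⊕ ι)) ≤
      ∫ w, Nl k S x A0 l (fun _ => 1) b w * rl k S x A0 l F b w ^ 2 ∂(gI (ι ⊕ ι)) := by
  obtain ⟨D, h⟩ := Ob.kf_sq A0 l hF hx
  exact KF.mono_of_nonneg h ha hab hb fun s _ w => mul_nonneg (N1_pos k S x A0 l s w).le
    (Finset.sum_nonneg fun e _ => sq_nonneg _)

/-- the derivative of an average is an observable -/
lemma ob_av' (h : X → ℝ) (e : ι) : ∃ G', Ob k S x (av' k S x h e) G' := by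
  obtain ⟨G', hG⟩ := ob_avav k S x h (S e)
  exact ⟨_, ((ob_av k S x fun x => h x * S e x).sub (hG.const_mul (1 - x))).const_mul k⟩

/-- **Touches, general form.** -/
theorem touch_gen {κ : Type} [Fintype κ] (h : κ → X → ℝ) (hx : 0 ≤ x) {t : ℝ}
    (ht : t ∈ Set.Icc (0 : ℝ) 1) {B : ℝ}
    (hB : ∀ s ∈ Set.Icc (0 : ℝ) t, ∫ w, Nl k S x A0 l (fun _ => 1) s w *
      ∑ e ∈ A0, ∑ a, (rl k S x A0 l (av k S (h a)) s w * th k S x A0 l e s w) ^ 2
        ∂(gI (ι ⊕ ι)) ≤ B) :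
    ∫ w, Nl k S x A0 l (fun _ => 1) t w *
        ∑ a, (rl k S x A0 l (av k S (h a)) t w - rl k S x A0 l (av k S (h a)) 0 w) ^ 2
          ∂(gI (ι ⊕ ι)) ≤
      t * (4 * ∫ w, Nl k S x A0 l (fun _ => 1) t w *
        ∑ e ∈ A0, ∑ a, Dl k S x A0 l (av k S (h a)) (av' k S x (h a)) e t w ^ 2 ∂(gI (ι ⊕ ι)) +
          6 * B) := by
  have h0 : (0 : ℝ) ∈ Set.Icc (0 : ℝ) 1 := ⟨le_rfl, zero_le_one⟩
  have ht0 := ht.1
  set N := Nl k S x A0 l (fun _ => 1) with hN
  have hNp : ∀ s w, 0 < N s w := fun s w => N1_pos k S x A0 l s w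
  set r : κ → ℝ → (ι ⊕ ι → ℝ) → ℝ := fun a => rl k S x A0 l (av k S (h a)) with hr
  set Dd : ι → κ → ℝ → (ι ⊕ ι → ℝ) → ℝ := fun e a =>
    Dl k S x A0 l (av k S (h a)) (av' k S x (h a)) e with hDd
  set V : ι → κ → ℝ → (ι ⊕ ι → ℝ) → ℝ := fun e a => rl k S x A0 l (av' k S x (h a) e) with hV
  set Q : ι → κ → ℝ → (ι ⊕ ι → ℝ) → ℝ := fun e a s w => r a s w * th k S x A0 l e s w with hQ
  have hDVQ : ∀ e a s w, Dd e a s w = V e a s w - Q e a s w := fun e a s w => rfl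
  have ob : ∀ a, Ob k S x (av k S (h a)) (av' k S x (h a)) := fun a => ob_av k S x (h a)
  have egr : ∀ a s, s ∈ Set.Icc (0 : ℝ) 1 → EG (r a s) := fun a s hs => eg_rl A0 l (ob a) hx hs
  have egN : ∀ s, s ∈ Set.Icc (0 : ℝ) 1 → EG (N s) := fun s hs => eg_N A0 l hs
  have egth : ∀ e s, s ∈ Set.Icc (0 : ℝ) 1 → EG (th k S x A0 l e s) := by
    intro e s hs
    have : one' k S x e = fun u => (k * x) * av k S (S e) u := rfl
    have h1 := (ob_av k S x (S e)).const_mul (k * x)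
    exact eg_rl A0 l h1 hx hs
  have egV : ∀ e a s, s ∈ Set.Icc (0 : ℝ) 1 → EG (V e a s) := by
    intro e a s hs
    obtain ⟨G', hG⟩ := ob_av' (k := k) (S := S) (x := x) (h a) e
    exact eg_rl A0 l hG hx hs
  have egQ : ∀ e a s, s ∈ Set.Icc (0 : ℝ) 1 → EG (Q e a s) := fun e a s hs =>
    (egr a s hs).mul (egth e s hs)
  have egD : ∀ e a s, s ∈ Set.Icc (0 : ℝ) 1 → EG (Dd e a s) := fun e a s hs =>
    (egV e a s hs).sub (egQ e a s hs)
  -- sums
  have egS : ∀ (G : ι → κ → (ι ⊕ ι → ℝ) → ℝ), (∀ e a, EG (G e a)) → ∀ s ∈ Set.Icc (0 : ℝ) 1,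
      Integrable (fun w => N s w * ∑ e ∈ A0, ∑ a, G e a w ^ 2) (gI (ι ⊕ ι)) := by
    intro G hG s hs
    exact ((egN s hs).mul (EG.sum A0 fun e _ => EG.sum Finset.univ fun a _ =>
      (hG e a).pow 2)).integrable
  set g : ℝ → ℝ := fun s => ∫ w, N s w * ∑ e ∈ A0, ∑ a, Dd e a s w ^ 2 ∂(gI (ι ⊕ ι)) with hg
  set vv : ℝ → ℝ := fun s => ∫ w, N s w * ∑ e ∈ A0, ∑ a, V e a s w ^ 2 ∂(gI (ι ⊕ ι)) with hvv
  set qq : ℝ → ℝ := fun s => ∫ w, N s w * ∑ e ∈ A0, ∑ a, Q e a s w ^ 2 ∂(gI (ι ⊕ ι)) with hqq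
  -- monotonicity of the martingale part
  have mono : ∀ s ∈ Set.Icc (0 : ℝ) t, vv s ≤ vv t := by
    intro s hs
    have hs1 : s ∈ Set.Icc (0 : ℝ) 1 := ⟨hs.1, hs.2.trans ht.2⟩
    have e1 : ∀ s ∈ Set.Icc (0 : ℝ) 1, vv s =
        ∑ e ∈ A0, ∑ a, ∫ w, N s w * V e a s w ^ 2 ∂(gI (ι ⊕ ι)) := by
      intro s hs
      simp only [hvv, Finset.mul_sum]
      rw [integral_finsetSum]
      · refine Finset.sum_congr rfl fun e _ => ?_
        rw [integral_finsetSum]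
        exact fun a _ => ((egN s hs).mul ((egV e a s hs).pow 2)).integrable
      · exact fun e _ => (EG.sum Finset.univ fun a _ =>
          (egN s hs).mul ((egV e a s hs).pow 2)).integrable
    rw [e1 s hs1, e1 t ht]
    refine Finset.sum_le_sum fun e _ => Finset.sum_le_sum fun a _ => ?_
    obtain ⟨G', hG⟩ := ob_av' (k := k) (S := S) (x := x) (h a) e
    exact Ob.sq_mono A0 l hG hx hs.1 hs.2 ht.2
  -- the comparison of the rates
  have c1 : ∀ s ∈ Set.Icc (0 : ℝ) 1, g s ≤ 2 * vv s + 2 * qq s := by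
    intro s hs
    simp only [hg, hvv, hqq]
    rw [← integral_const_mul, ← integral_const_mul, ← integral_add
      ((egS (fun e a => V e a s) (fun e a => egV e a s hs) s hs).const_mul 2)
      ((egS (fun e a => Q e a s) (fun e a => egQ e a s hs) s hs).const_mul 2)]
    refine integral_mono (egS (fun e a => Dd e a s) (fun e a => egD e a s hs) s hs)
      (((egS (fun e a => V e a s) (fun e a => egV e a s hs) s hs).const_mul 2).add
      ((egS (fun e a => Q e a s) (fun e a => egQ e a s hs) s hs).const_mul 2)) fun w => ?_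
    simp only
    have : ∑ e ∈ A0, ∑ a, Dd e a s w ^ 2 ≤ 2 * (∑ e ∈ A0, ∑ a, V e a s w ^ 2) +
        2 * ∑ e ∈ A0, ∑ a, Q e a s w ^ 2 := by
      simp only [Finset.mul_sum, ← Finset.sum_add_distrib]
      refine Finset.sum_le_sum fun e _ => Finset.sum_le_sum fun a _ => ?_
      rw [hDVQ]
      nlinarith [sq_nonneg (V e a s w + Q e a s w)]
    nlinarith [mul_le_mul_of_nonneg_left this (hNp s w).le]
  have c2 : ∀ s ∈ Set.Icc (0 : ℝ) 1, vv s ≤ 2 * g s + 2 * qq s := by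
    intro s hs
    simp only [hg, hvv, hqq]
    rw [← integral_const_mul, ← integral_const_mul, ← integral_add
      ((egS (fun e a => Dd e a s) (fun e a => egD e a s hs) s hs).const_mul 2)
      ((egS (fun e a => Q e a s) (fun e a => egQ e a s hs) s hs).const_mul 2)]
    refine integral_mono (egS (fun e a => V e a s) (fun e a => egV e a s hs) s hs)
      (((egS (fun e a => Dd e a s) (fun e a => egD e a s hs) s hs).const_mul 2).add
      ((egS (fun e a => Q e a s) (fun e a => egQ e a s hs) s hs).const_mul 2)) fun w => ?_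
    simp only
    have : ∑ e ∈ A0, ∑ a, V e a s w ^ 2 ≤ 2 * (∑ e ∈ A0, ∑ a, Dd e a s w ^ 2) +
        2 * ∑ e ∈ A0, ∑ a, Q e a s w ^ 2 := by
      simp only [Finset.mul_sum, ← Finset.sum_add_distrib]
      refine Finset.sum_le_sum fun e _ => Finset.sum_le_sum fun a _ => ?_
      rw [hDVQ]
      nlinarith [sq_nonneg (V e a s w - Q e a s w - Q e a s w)]
    nlinarith [mul_le_mul_of_nonneg_left this (hNp s w).le]
  have hq : ∀ s ∈ Set.Icc (0 : ℝ) t, qq s ≤ B := hB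
  have c3 : ∀ s ∈ Set.Icc (0 : ℝ) t, g s ≤ 4 * g t + 6 * B := by
    intro s hs
    have hs1 : s ∈ Set.Icc (0 : ℝ) 1 := ⟨hs.1, hs.2.trans ht.2⟩
    have := c1 s hs1
    have := c2 t ht
    have := mono s hs
    have := hq s hs
    have := hq t ⟨ht.1, le_rfl⟩
    linarith
  -- the increment
  have e2 : ∫ w, N t w * ∑ a, (r a t w - r a 0 w) ^ 2 ∂(gI (ι ⊕ ι)) =
      ∑ a, ∫ w, N t w * (r a t w - r a 0 w) ^ 2 ∂(gI (ι ⊕ ι)) := by
    simp only [Finset.mul_sum]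
    rw [integral_finsetSum]
    exact fun a _ => ((egN t ht).mul (((egr a t ht).sub (egr a 0 h0)).pow 2)).integrable
  rw [e2]
  have e3 : ∀ a, ∃ D, KF (act A0) (fun s w => N s w * r a s w ^ 2) D
      (fun s w => N s w * ∑ e ∈ A0, Dd e a s w ^ 2) := fun a => Ob.kf_sq A0 l (ob a) hx
  choose Da hDa using e3
  have e4 := KF.sum Finset.univ (fun a _ => hDa a)
  have e5 := KF.sub_le e4 le_rfl ht.1 ht.2 (M := 4 * g t + 6 * B) (by
    intro s hs
    refine le_trans (le_of_eq ?_) (c3 s hs)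
    simp only [hg]
    congr 1
    funext w
    rw [← Finset.mul_sum, Finset.sum_comm])
  have i0 : ∀ s ∈ Set.Icc (0 : ℝ) 1, ∫ w, ∑ a, N s w * r a s w ^ 2 ∂(gI (ι ⊕ ι)) =
      ∑ a, ∫ w, N s w * r a s w ^ 2 ∂(gI (ι ⊕ ι)) := by
    intro s hs
    rw [integral_finsetSum]
    exact fun a _ => ((egN s hs).mul ((egr a s hs).pow 2)).integrable
  rw [i0 t ht, i0 0 h0, ← Finset.sum_sub_distrib, sub_zero] at e5
  refine le_trans (le_of_eq ?_) e5
  refine Finset.sum_congr rfl fun a _ => ?_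
  exact Ob.incr A0 l (ob a) hx ht

variable {n : ℕ}

/-- **Touches of a row** (L-d). -/
theorem touch_row (k x : ℝ) (b0 : Fin n) (l : Lvl (Pair n)) (hx : 0 ≤ x) {t : ℝ}
    (ht : t ∈ Set.Icc (0 : ℝ) 1) {B : ℝ}
    (hB : ∀ s ∈ Set.Icc (0 : ℝ) t, ∫ w, Nm k x b0 l s w *
      ((∑ i, ∑ j, Cm k x b0 l i j s w ^ 2) * ∑ j, Cm k x b0 l j b0 s w ^ 2)
        ∂(gI (Pair n ⊕ Pair n)) ≤ B) :
    ∫ w, Nm k x b0 l t w * ∑ i, ∑ j, (Cm k x b0 l i j t w - Cm k x b0 l i j 0 w) ^ 2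
          ∂(gI (Pair n ⊕ Pair n)) ≤
      t * (4 * ∫ w, Nm k x b0 l t w * ∑ e ∈ row b0, ∑ i, ∑ j,
        Dl k SkS x (row b0) l (av k SkS (pr i j)) (av' k SkS x (pr i j)) e t w ^ 2
          ∂(gI (Pair n ⊕ Pair n)) + 6 * k ^ 2 * x ^ 2 * B) := by
  have h0 : (0 : ℝ) ∈ Set.Icc (0 : ℝ) 1 := ⟨le_rfl, zero_le_one⟩
  have ob : ∀ h : (Fin n → ℤˣ) → ℝ, Ob k SkS x (av k SkS h) (av' k SkS x h) :=
    fun h => ob_av k SkS x h
  have key := touch_gen (k := k) (S := SkS) (x := x) (row b0) l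
    (fun a : Fin n × Fin n => pr a.1 a.2) hx ht (B := k ^ 2 * x ^ 2 * B) (by
      intro s hs
      have hs1 : s ∈ Set.Icc (0 : ℝ) 1 := ⟨hs.1, hs.2.trans ht.2⟩
      have h1 := mul_le_mul_of_nonneg_left (hB s hs) (show (0 : ℝ) ≤ k ^ 2 * x ^ 2 by positivity)
      refine le_trans ?_ h1
      rw [← integral_const_mul]
      have egC : ∀ i j, EG (Cm k x b0 l i j s) := fun i j => eg_rl _ l (ob (pr i j)) hx hs1
      have egN : EG (Nm k x b0 l s) := eg_N _ l hs1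
      have th_eq : ∀ e ∈ row b0, ∀ w, th k SkS x (row b0) l e s w =
          k * x * Cm k x b0 l (oth b0 e) b0 s w := by
        intro e he w
        unfold th Cm
        have : one' k SkS x e = fun u => (k * x) * av k SkS (pr (oth b0 e) b0) u := by
          funext u
          unfold one'
          rw [SkS_oth he, pr_comm]
        rw [this, rl_const_mul]
      have pw : ∀ w, ∑ e ∈ row b0, ∑ a : Fin n × Fin n,
          (rl k SkS x (row b0) l (av k SkS (pr a.1 a.2)) s w * th k SkS x (row b0) l e s w) ^ 2 =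
          k ^ 2 * x ^ 2 * ((∑ i, ∑ j, Cm k x b0 l i j s w ^ 2) *
            ∑ e ∈ row b0, Cm k x b0 l (oth b0 e) b0 s w ^ 2) := by
        intro w
        rw [Finset.mul_sum, Finset.mul_sum]
        refine Finset.sum_congr rfl fun e he => ?_
        rw [Fintype.sum_prod_type, th_eq e he w, Finset.sum_mul, Finset.mul_sum]
        refine Finset.sum_congr rfl fun i _ => ?_
        rw [Finset.sum_mul, Finset.mul_sum]
        refine Finset.sum_congr rfl fun j _ => ?_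
        unfold Cm rS
        ring
      have pw2 : ∀ w, ∑ e ∈ row b0, Cm k x b0 l (oth b0 e) b0 s w ^ 2 ≤
          ∑ j, Cm k x b0 l j b0 s w ^ 2 := by
        intro w
        rw [sum_row b0 fun j => Cm k x b0 l j b0 s w ^ 2]
        exact Finset.sum_le_sum_of_subset_of_nonneg (Finset.subset_univ _)
          fun i _ _ => sq_nonneg _
      simp only [pw]
      have eS : EG fun w => ∑ i, ∑ j, Cm k x b0 l i j s w ^ 2 :=
        EG.sum _ fun i _ => EG.sum _ fun j _ => (egC i j).pow 2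
      have eR : EG fun w => ∑ e ∈ row b0, Cm k x b0 l (oth b0 e) b0 s w ^ 2 :=
        EG.sum _ fun i _ => (egC _ _).pow 2
      have eU : EG fun w => ∑ j, Cm k x b0 l j b0 s w ^ 2 := EG.sum _ fun i _ => (egC _ _).pow 2
      refine integral_mono (egN.mul ((eS.mul eR).const_mul _)).integrable
        ((egN.mul (eS.mul eU)).const_mul _).integrable fun w => ?_
      simp only
      have hNp : 0 ≤ Nm k x b0 l s w := (N1_pos k SkS x (row b0) l s w).le
      have hS : 0 ≤ ∑ i, ∑ j, Cm k x b0 l i j s w ^ 2 := by positivity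
      have := mul_le_mul_of_nonneg_left (pw2 w) (mul_nonneg (mul_nonneg
        (show (0 : ℝ) ≤ k ^ 2 * x ^ 2 by positivity) hNp) hS)
      calc _ = k ^ 2 * x ^ 2 * Nm k x b0 l s w * (∑ i, ∑ j, Cm k x b0 l i j s w ^ 2) *
            ∑ e ∈ row b0, Cm k x b0 l (oth b0 e) b0 s w ^ 2 := by
              unfold Nm
              ring
        _ ≤ _ := this
        _ = _ := by ring)
  simp only [Fintype.sum_prod_type] at key
  refine le_trans key (le_of_eq ?_)
  unfold Nm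
  ring

end Vale.Agent.P146.H332
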