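import Vale.Agent.P146.H332.CDef

/-!
Plan R1, block C: calculus of the conditional expectations as functions of the position.
-/

open MeasureTheory ProbabilityTheory

namespace Vale.Agent.P146.R1C

open Vale.Agent.P157.Lv Vale.Agent.P146.H425 Vale.Agent.P146.H325 Vale.Agent.P146.H332
  Vale.Agent.P146.H712 Vale.Agent.P146.H816 Vale.Agent.P146.R1 Matrix

set_option linter.unusedSectionVars false

section gen

variable {ι : Type} [Fintype ι] [DecidableEq ι]

/-- Differentiation under Gaussian smoothing. -/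
lemma PD_PP {H H' : (ι → ℝ) → ℝ} {e : ι} (hd : PD e H H') (hg : EG H) (hg' : EG H')
    (c : ι → ℝ) : PD e (PP c H) (PP c H') := by
  intro y x
  obtain ⟨C, a, hC, ha, h1⟩ := hg'.bdd
  have hc := bK_nonneg c
  refine (hasDerivAt_integral_of_dominated_loc_of_deriv_le
    (F := fun t (z : ι → ℝ) => H (fun j => Function.update y e t j + c j * z j))
    (F' := fun t (z : ι → ℝ) => H' (fun j => Function.update y e t j + c j * z j))
    (bound := fun z => C * Real.exp (a * (‖y‖ + |x| + 1)) * Real.exp (a * bK c * ‖z‖))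
    (Metric.ball_mem_nhds x one_pos) ?_ ?_ ?_ ?_ ?_ ?_).2
  · exact Filter.Eventually.of_forall fun t =>
      (EG.integrable_aff hg (Function.update y e t) c).aestronglyMeasurable
  · exact EG.integrable_aff hg (Function.update y e x) c
  · exact (EG.integrable_aff hg' (Function.update y e x) c).aestronglyMeasurable
  · refine Filter.Eventually.of_forall fun z t ht => ?_
    rw [Metric.mem_ball, Real.dist_eq] at ht
    have h2 : ‖fun j => Function.update y e t j + c j * z j‖ ≤ (‖y‖ + |x| + 1) + bK c * ‖z‖ := by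
      refine (norm_aff_le (Function.update y e t) c z (le_bK c)).trans ?_
      have h3 := norm_update_le y e t
      have h4 : |t| ≤ |x| + 1 := by
        have := abs_add_le (t - x) x
        rw [sub_add_cancel] at this
        linarith
      linarith
    rw [Real.norm_eq_abs]
    calc |H' (fun j => Function.update y e t j + c j * z j)|
        ≤ C * Real.exp (a * ‖fun j => Function.update y e t j + c j * z j‖) := h1 _
      _ ≤ C * Real.exp (a * ((‖y‖ + |x| + 1) + bK c * ‖z‖)) := by gcongr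
      _ = C * Real.exp (a * (‖y‖ + |x| + 1)) * Real.exp (a * bK c * ‖z‖) := by
          rw [mul_assoc, ← Real.exp_add]
          congr 2
          ring
  · exact (integrable_exp_norm _).const_mul _
  · refine Filter.Eventually.of_forall fun z t _ => ?_
    have e1 : ∀ t, (fun j => Function.update y e t j + c j * z j) =
        Function.update (fun j => y j + c j * z j) e (t + c e * z e) := by
      intro t
      funext j
      by_cases hj : j = e
      · subst hj; simp
      · simp [hj]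
    simp only [e1]
    have h3 := hd (fun j => y j + c j * z j) (t + c e * z e)
    have h4 : HasDerivAt (fun t : ℝ => t + c e * z e) 1 t := (hasDerivAt_id t).add_const _
    exact (h3.comp t h4).congr_deriv (mul_one _)

variable {X : Type} [Fintype X] [Nonempty X] {k : ℝ} {S : ι → X → ℝ} {x : ℝ}

/-- The gradient of a conditional expectation at a position. -/
lemma pd_RR {F : (ι → ℝ) → ℝ} {F' : ι → (ι → ℝ) → ℝ} (hF : Ob k S x F F') (c : ι → ℝ) (e : ι) :
    PD e (RR k S x c F) (fun v => RR k S x c (F' e) v -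
      RR k S x c F v * RR k S x c (one' k S x e) v) := by
  obtain ⟨F2, h2⟩ := hF.ex
  obtain ⟨O2, o2⟩ := (ob_one k S x).ex
  have h3 := PD_PP (h2.pd0 e) h2.eg (h2.eg1 e) c
  have h4 := PD_PP (o2.pd0 e) o2.eg (o2.eg1 e) c
  have hne : ∀ v, PP c (fun u => Zx k S x u * 1) v ≠ 0 := fun v => (DD_pos k S x c v).ne'
  refine (h3.div h4 hne).congr fun v => ?_
  have hn := hne v
  show _ = RR k S x c (F' e) v - RR k S x c F v * RR k S x c (one' k S x e) v
  unfold RR DD
  field_simp

lemma eg_RR {F : (ι → ℝ) → ℝ} {F' : ι → (ι → ℝ) → ℝ} (hF : Ob k S x F F') (hx : 0 ≤ x) (t : ℝ) :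
    EG (RR k S x (fun _ => √(1 - t)) F) := eg_rf (t := t) hF hx

/-- The gradient of the logarithm of the density. -/
lemma pd_logDD (c : ι → ℝ) (e : ι) : PD e (fun v => Real.log (DD k S x c v))
    (RR k S x c (one' k S x e)) := by
  obtain ⟨O2, o2⟩ := (ob_one k S x).ex
  have h4 := PD_PP (o2.pd0 e) o2.eg (o2.eg1 e) c
  have hne : ∀ v, PP c (fun u => Zx k S x u * 1) v ≠ 0 := fun v => (DD_pos k S x c v).ne'
  exact (h4.log hne).congr fun v => rfl

end gen

variable {n : ℕ} {k x s : ℝ}

/-- **The derivative of `AA`.** -/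
lemma pd_AA (e : Pair n) (i j : Fin n) :
    PD e (fun z => AA k x s z i j) (fun z => DC k x s e z i j) :=
  pd_RR (ob_av k SkS x (pr i j)) (cf s) e

lemma eg_DC (hx : 0 ≤ x) (e : Pair n) (i j : Fin n) : EG fun z => DC k x s e z i j :=
  eg_Df hx s e i j

/-! ### the row levels -/

/-- the coordinates which give the position `z` -/
noncomputable def wz (b : Fin n) (s : ℝ) (z : Pair n → ℝ) : Pair n ⊕ Pair n → ℝ :=
  Sum.elim (fun e => if e ∈ row b then z e / √s else z e) 0

lemma u_wz (hs : 0 < s) (b : Fin n) (z : Pair n → ℝ) :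
    u (row b) (Lid (Pair n) s).a (Lid (Pair n) s).b s (wz b s z) = z := by
  have h1 : √s ≠ 0 := (Real.sqrt_pos.2 hs).ne'
  funext e
  by_cases he : e ∈ row b
  · simp only [u, wz, he, if_true, Sum.elim_inl]
    field_simp
  · simp [u, wz, he, Lid]

lemma nz_Lid (b : Fin n) : nz (row b) (Lid (Pair n) s).c s = cf s := by
  funext e
  by_cases he : e ∈ row b <;> simp [nz, Lid, cf]

/-- **Bridge**: row levels and positions. -/
lemma rl_pos (hs : 0 < s) (b : Fin n) (z : Pair n → ℝ) (F : (Pair n → ℝ) → ℝ) :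
    rl k SkS x (row b) (Lid (Pair n) s) F s (wz b s z) = RR k SkS x (cf s) F z := by
  rw [rl_eq, u_wz hs, nz_Lid]

lemma MC_pos (hs : 0 < s) (b : Fin n) (z : Pair n → ℝ) :
    MC k x b (Lid (Pair n) s) s (wz b s z) = AA k x s z := by
  funext i j
  exact rl_pos hs b z _

lemma MH_pos (hs : 0 < s) (b : Fin n) (z : Pair n → ℝ) :
    MH k x b (Lid (Pair n) s) s (wz b s z) = HH k x s b z := by
  funext i j
  show Hm k x b (Lid (Pair n) s) i j s (wz b s z) = _
  unfold Hm Cm Em rS
  simp only [rl_pos hs]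
  rfl

lemma DC_pos (hs : 0 < s) (b : Fin n) (z : Pair n → ℝ) (e : Pair n) (i j : Fin n) :
    Dl k SkS x (row b) (Lid (Pair n) s) (av k SkS (pr i j)) (av' k SkS x (pr i j)) e s
      (wz b s z) = DC k x s e z i j := by
  unfold Dl th
  simp only [rl_pos hs]
  rfl

lemma AA_self (z : Pair n → ℝ) (i : Fin n) : AA k x s z i i = 1 := by
  show RR k SkS x (cf s) (av k SkS (pr i i)) z = 1
  have e : av k SkS (pr i i) = fun _ => 1 := by
    funext u
    exact av_pr_self i u
  rw [e]
  exact div_self (DD_pos k SkS x (cf s) z).ne'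

lemma AA_comm (z : Pair n → ℝ) (i j : Fin n) : AA k x s z i j = AA k x s z j i := by
  show RR k SkS x (cf s) (av k SkS (pr i j)) z = RR k SkS x (cf s) (av k SkS (pr j i)) z
  rw [pr_comm]

lemma AA_T (z : Pair n → ℝ) : (AA k x s z)ᵀ = AA k x s z := by
  ext i j
  exact AA_comm z j i

lemma DC_comm (e : Pair n) (z : Pair n → ℝ) (i j : Fin n) :
    DC k x s e z i j = DC k x s e z j i := by
  unfold DC
  rw [pr_comm]

lemma HH_comm (b : Fin n) (z : Pair n → ℝ) (i j : Fin n) :
    HH k x s b z i j = HH k x s b z j i := by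
  unfold HH
  rw [AA_comm z i j]
  have e : (fun u : Pair n → ℝ => av k SkS (pr i b) u * av k SkS (pr j b) u) =
      fun u => av k SkS (pr j b) u * av k SkS (pr i b) u := by
    funext u; ring
  rw [e]
  ring

lemma HH_T (b : Fin n) (z : Pair n → ℝ) : (HH k x s b z)ᵀ = HH k x s b z := by
  ext i j
  exact HH_comm b z j i

/-- the derivative of the column in its row -/
lemma DC_row (hs : 0 < s) {b : Fin n} {e : Pair n} (he : e ∈ row b) (z : Pair n → ℝ)
    (i : Fin n) : DC k x s e z i b = k * HH k x s b z i (oth b e) := by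
  rw [← DC_pos hs b z e i b, Dl_row he, ← MH_pos hs b z]
  rfl

lemma HH_row (hs : 0 < s) (b : Fin n) (z : Pair n → ℝ) (i : Fin n) : HH k x s b z i b = 0 := by
  rw [← MH_pos hs b z]
  exact Hm_row i

/-- `0 ≤ HH` -/
lemma qf_HH_nonneg (hs : 0 < s) (hx : 0 ≤ x) (hx1 : x ≤ 1) (b : Fin n) (z : Pair n → ℝ)
    (v : Fin n → ℝ) : 0 ≤ qf (fun i j => HH k x s b z i j) v := by
  rw [← MH_pos hs b z]
  exact qf_Hm_nonneg hx hx1 v

/-- `HH ≤ C` -/
lemma qf_HH_le (hs : 0 < s) (hx : 0 ≤ x) (hx1 : x ≤ 1) (b : Fin n) (z : Pair n → ℝ)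
    (v : Fin n → ℝ) : qf (fun i j => HH k x s b z i j) v ≤ qf (fun i j => AA k x s z i j) v := by
  rw [← MH_pos hs b z, ← MC_pos hs b z]
  exact qf_Hm_le hx hx1 v

lemma fr_HH_le (hs : 0 < s) (hx : 0 ≤ x) (hx1 : x ≤ 1) (b : Fin n) (z : Pair n → ℝ) :
    fr (HH k x s b z) ≤ fr (AA k x s z) := by
  rw [← MH_pos hs b z, ← MC_pos hs b z]
  exact fr_MH_le hx hx1

/-- `|U|⁴ ≤ |C|²` -/
lemma vn_col_le (hs : 0 < s) (b : Fin n) (z : Pair n → ℝ) :
    vn (H816.col (AA k x s z) b) ^ 2 ≤ fr (AA k x s z) := by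
  have h := vn_VU_le (k := k) (x := x) (b := b) (l := Lid (Pair n) s) (s := s) (w := wz b s z)
  rw [MC_pos hs] at h
  have e : VU k x b (Lid (Pair n) s) s (wz b s z) = H816.col (AA k x s z) b := by
    funext i
    exact congrFun (congrFun (MC_pos hs b z) i) b
  rwa [e] at h

/-- **Row gradients.** -/
lemma row_grad (hs : 0 < s) (hx : 0 ≤ x) (hx1 : x ≤ 1) (b : Fin n) (z : Pair n → ℝ) :
    ∑ e ∈ row b, ∑ i, DC k x s e z i b ^ 2 ≤ k ^ 2 * fr (AA k x s z) := by
  have h1 : ∑ e ∈ row b, ∑ i, DC k x s e z i b ^ 2 = k ^ 2 * fr (HH k x s b z) := by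
    have e1 : ∀ e ∈ row b, ∑ i, DC k x s e z i b ^ 2 =
        k ^ 2 * ∑ i, HH k x s b z i (oth b e) ^ 2 := by
      intro e he
      rw [Finset.mul_sum]
      refine Finset.sum_congr rfl fun i _ => ?_
      rw [DC_row hs he]
      ring
    rw [Finset.sum_congr rfl e1, ← Finset.mul_sum]
    congr 1
    rw [sum_row_all b (G := fun j => ∑ i, HH k x s b z i j ^ 2) (by
      refine Finset.sum_eq_zero fun i _ => ?_
      rw [HH_row hs]; ring)]
    unfold fr
    exact Finset.sum_comm
  rw [h1]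
  exact mul_le_mul_of_nonneg_left (fr_HH_le hs hx hx1 b z) (sq_nonneg k)

/-- the rates of all pairs of rows -/
lemma rate_pairs (z : Pair n → ℝ) :
    ∑ b, ∑ b', ∑ e ∈ row b', ∑ i, DC k x s e z i b ^ 2 = 2 * ∑ e, fr (DC k x s e z) := by
  rw [← sum_rows fun e => fr (DC k x s e z), Finset.sum_comm]
  refine Finset.sum_congr rfl fun b' _ => ?_
  rw [Finset.sum_comm]
  refine Finset.sum_congr rfl fun e _ => ?_
  unfold fr
  exact Finset.sum_comm

/-! ### all couplings -/

lemma nz_univ (l : Lvl (Pair n)) : nz Finset.univ l.c s = cf s := by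
  funext e
  simp [nz, cf]

lemma rl_univ (hs : 0 < s) (l : Lvl (Pair n)) (z : Pair n → ℝ) (F : (Pair n → ℝ) → ℝ) :
    rl k SkS x Finset.univ l F s (Sum.elim (fun e => z e / √s) 0) = RR k SkS x (cf s) F z := by
  have h1 : √s ≠ 0 := (Real.sqrt_pos.2 hs).ne'
  rw [rl_eq, nz_univ]
  congr 1
  funext e
  simp only [u, Finset.mem_univ, if_true, Sum.elim_inl]
  field_simp

/-- the 4-tensor -/
noncomputable def T4 (k x s : ℝ) (z : Pair n → ℝ) (i j p q : Fin n) : ℝ :=
  RR k SkS x (cf s) (av k SkS fun σ => pr i j σ * pr p q σ) z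

/-- **(6)**, the covariance of the overlaps at a position -/
theorem kov_pos (hs : 0 < s) (hx : 0 ≤ x) (hx1 : x ≤ 1) (z : Pair n → ℝ) :
    k ^ 2 * x ^ 2 / 2 * ∑ i, ∑ j, ∑ p, ∑ q,
      (T4 k x s z i j p q - AA k x s z i j * AA k x s z p q) ^ 2 ≤
    ∑ e : Pair n, fr (DC k x s e z) := by
  have h := kov_pairs k x (Lid (Pair n) s) s (Sum.elim (fun e => z e / √s) 0) hx hx1
  unfold Dl th at h
  simp only [rl_univ hs] at h
  exact h

/-- **(6)**, rank one at a position -/
theorem swap_pos (hs : 0 < s) (z : Pair n → ℝ) :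
    fr (AA k x s z) ^ 2 - fr (AA k x s z * AA k x s z) ≤ 2 * ∑ i, ∑ j, ∑ p, ∑ q,
      (T4 k x s z i j p q - AA k x s z i j * AA k x s z p q) ^ 2 := by
  have h := swap_pairs k x (Lid (Pair n) s) s (Sum.elim (fun e => z e / √s) 0)
  simp only [rl_univ hs] at h
  unfold fr
  simp only [mul_apply]
  exact h

/-! ### the value function of the model -/

lemma exp_lz (u : Pair n → ℝ) : Real.exp (x * lz k SkS u) = Zx k (SkS (n := n)) x u := rfl

lemma uu_lz (z : Pair n → ℝ) :
    uu x s (lz k SkS) z = 1 / x * Real.log (DD k (SkS (n := n)) x (cf s) z) := by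
  unfold uu W DD PP
  congr 2
  refine integral_congr_ae (Filter.Eventually.of_forall fun g => ?_)
  simp only [mul_one]
  exact exp_lz _

/-- **The gradient of the value function** is `k C`. -/
lemma pd_uu (hx : x ≠ 0) (e : Pair n) :
    PD e (uu x s (lz k SkS)) (fun z => k * AA k x s z e.1.1 e.1.2) := by
  have h1 := (pd_logDD (k := k) (S := SkS (n := n)) (x := x) (cf s) e).const_mul (1 / x)
  have e1 : uu x s (lz k SkS) = fun z => 1 / x * Real.log (DD k (SkS (n := n)) x (cf s) z) :=
    funext uu_lz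
  rw [e1]
  refine h1.congr fun z => ?_
  have e2 : one' k (SkS (n := n)) x e = fun u => (k * x) * av k SkS (pr e.1.1 e.1.2) u := rfl
  have e3 : RR k SkS x (cf s) (one' k (SkS (n := n)) x e) z =
      (k * x) * AA k x s z e.1.1 e.1.2 := by
    rw [e2]
    show PP (cf s) (fun u => Zx k SkS x u * ((k * x) * av k SkS (pr e.1.1 e.1.2) u)) z /
      DD k SkS x (cf s) z = (k * x) * (PP (cf s) (fun u => Zx k SkS x u *
        av k SkS (pr e.1.1 e.1.2) u) z / DD k SkS x (cf s) z)
    rw [← mul_div_assoc]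
    congr 1
    unfold PP
    rw [← integral_const_mul]
    refine integral_congr_ae (Filter.Eventually.of_forall fun g => ?_)
    simp only
    ring
  rw [e3]
  field_simp

lemma eg_AA' (i j : Fin n) : EG fun z => AA k x s z i j := eg_AA s i j

lemma AA_oth {b : Fin n} {e : Pair n} (he : e ∈ row b) (z : Pair n → ℝ) :
    AA k x s z e.1.1 e.1.2 = AA k x s z (oth b e) b := by
  rw [mem_row] at he
  unfold oth
  split_ifs with h1
  · rw [h1]; exact AA_comm z _ _
  · rw [he.resolve_left h1]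

/-- the row of the gradient of the value function -/
lemma sum_row_AA (b : Fin n) (z : Pair n → ℝ) :
    ∑ e ∈ row b, (k * AA k x s z e.1.1 e.1.2) ^ 2 = k ^ 2 * (vn (H816.col (AA k x s z) b) - 1) := by
  have e1 : ∀ e ∈ row b, (k * AA k x s z e.1.1 e.1.2) ^ 2 =
      k ^ 2 * (fun j => AA k x s z j b ^ 2 - if j = b then 1 else 0) (oth b e) := by
    intro e he
    have h1 : oth b e ≠ b := oth_ne he
    rw [AA_oth he]
    simp only [h1, if_false]
    ring
  rw [Finset.sum_congr rfl e1, ← Finset.mul_sum, sum_row_all b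
    (G := fun j => AA k x s z j b ^ 2 - if j = b then 1 else 0) (by simp [AA_self])]
  congr 1
  rw [Finset.sum_sub_distrib]
  simp [vn, H816.col]

end Vale.Agent.P146.R1C
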