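import Vale.Agent.P146.H332.ErR
import Vale.Agent.P146.H712.BtS

/-!
Plan R1, block C: the error of the fixed bulk inequality (FB) for a pair of sites, and its sum over
the pairs.
-/

open MeasureTheory ProbabilityTheory

namespace Vale.Agent.P146.R1S

open Vale.Agent.P157.Lv Vale.Agent.P146.H425 Vale.Agent.P146.H325 Vale.Agent.P146.H332
  Vale.Agent.P146.H712 Vale.Agent.P146.R1 Vale.Agent.P146.R1C Vale.Agent.P146.H633 Matrix

set_option linter.unusedSectionVars false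

section gen

variable {n : ℕ} {k x : ℝ} (S : CS n k x)

/-- **The error of one pair.** `Y` = the size `A * NN`, `t⁻⁸` = the relative size of `Th`. -/
noncomputable def ErS (q : Par) (g c t Y : ℝ) (b b' : Fin n) (w : K4 (Pair n) → ℝ) : ℝ :=
  Er.err k g c t Y (12 * (n : ℝ) ^ 8)
    (Th q.s1 (row b ∪ row b') (S.A q.s1) (KV S q.s1) (P2 q w))
    (AvP q.s1 (row b ∪ row b') (KV S q.s1) (P2 q w) +
      AvP q.s2 (row b ∪ row b') (KV S q.s2) (P3 q w))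
    (AvP q.s1 (row b ∪ row b') (chi Y (S.A q.s1)) (P2 q w) +
      AvP q.s2 (row b ∪ row b') (chi Y (S.A q.s2)) (P3 q w))

lemma err_lin (k g c t Y M Θ K X : ℝ) : Er.err k g c t Y M Θ K X =
    (9 * g * k ^ 4 * (t⁻¹ * Y ^ 2) + 660 * c * k ^ 8 * (t⁻¹ * Y ^ 3)) +
      ((9 * g * k ^ 4 * t + 660 * c * k ^ 8 * t ^ 7 * Y) * Θ +
        (660 * c * k ^ 8 * Y * K + (18 * k ^ 4 * M ^ 2 + 660 * c * k ^ 8 * t ^ 7 * M ^ 2) * X)) := by
  unfold Er.err Er.Wn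
  ring

lemma eg_ErS (q : Par) (g c t Y : ℝ) (b b' : Fin n) : EG (ErS S q g c t Y b b') := by
  have hC : ∀ s i j, EG fun z => S.A s z i j := fun s i j => tA_eg S s i j
  have h1 : EG fun w => Th q.s1 (row b ∪ row b') (S.A q.s1) (KV S q.s1) (P2 q w) :=
    eg_P2 (eg_ThS S q.s1 _)
  have h2 : EG fun w => AvP q.s1 (row b ∪ row b') (KV S q.s1) (P2 q w) :=
    eg_P2 (eg_AvP (eg_KV S q.s1) q.s1 _)
  have h3 : EG fun w => AvP q.s2 (row b ∪ row b') (KV S q.s2) (P3 q w) :=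
    eg_P3 (eg_AvP (eg_KV S q.s2) q.s2 _)
  have h4 : EG fun w => AvP q.s1 (row b ∪ row b') (chi Y (S.A q.s1)) (P2 q w) :=
    eg_P2 (eg_AvP (eg_chi (hC q.s1) Y) q.s1 _)
  have h5 : EG fun w => AvP q.s2 (row b ∪ row b') (chi Y (S.A q.s2)) (P3 q w) :=
    eg_P3 (eg_AvP (eg_chi (hC q.s2) Y) q.s2 _)
  have e : ErS S q g c t Y b b' = fun w => _ := funext fun w => err_lin _ _ _ _ _ _ _ _ _
  rw [e]
  exact (EG.const _).add ((h1.const_mul _).add (((h2.add h3).const_mul _).add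
    ((h4.add h5).const_mul _)))

lemma ErS_nonneg (q : Par) {g c t Y : ℝ} (hg : 0 ≤ g) (hc : 0 ≤ c) (ht : 1 ≤ t) (hY : 0 ≤ Y)
    (b b' : Fin n) (w : K4 (Pair n) → ℝ) : 0 ≤ ErS S q g c t Y b b' w :=
  Er.err_nonneg hg hc ht hY (Th_nonneg (fun z => KV_nonneg S _ z) _)
    (add_nonneg (AvP_nonneg (fun z => KV_nonneg S _ z) _)
      (AvP_nonneg (fun z => KV_nonneg S _ z) _))
    (add_nonneg (AvP_nonneg (fun z => chi_nonneg _ z) _) (AvP_nonneg (fun z => chi_nonneg _ z) _))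

/-- the average of `fr`, with the indicator of large values -/
lemma Av_fr_le (s : ℝ) (R : Finset (Pair n)) {Y : ℝ} (hY : 0 ≤ Y) (z : Pair n → ℝ) :
    AvP s R (fun z => fr (S.A s z)) z ≤ Y + (n : ℝ) ^ 2 * AvP s R (chi Y (S.A s)) z := by
  have hC : ∀ i j, EG fun z => S.A s z i j := fun i j => tA_eg S s i j
  have h := AvP_mono (s := s) (R := R) (eg_frC hC) ((EG.const Y).add
    ((eg_chi hC Y).const_mul ((n : ℝ) ^ 2))) (fun z => by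
      unfold chi
      split_ifs with h1
      · rw [mul_one]
        have h2 := tfr_le S s z
        linarith
      · linarith [not_lt.1 h1]) z
  rwa [AvP_add (EG.const Y) ((eg_chi hC Y).const_mul _), AvP_const, AvP_const_mul] at h

lemma Av_frsq_le (s : ℝ) (R : Finset (Pair n)) {Y : ℝ} (z : Pair n → ℝ) :
    AvP s R (fun z => fr (S.A s z) ^ 2) z ≤ Y ^ 2 + (n : ℝ) ^ 4 * AvP s R (chi Y (S.A s)) z := by
  have hC : ∀ i j, EG fun z => S.A s z i j := fun i j => tA_eg S s i j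
  have h := AvP_mono (s := s) (R := R) ((eg_frC hC).pow 2) ((EG.const (Y ^ 2)).add
    ((eg_chi hC Y).const_mul ((n : ℝ) ^ 4))) (fun z => by
      have h2 := tfr_le S s z
      have h0 : (0 : ℝ) ≤ fr (S.A s z) := frn _
      unfold chi
      split_ifs with h1
      · rw [mul_one]
        have h3 := pow_le_pow_left₀ h0 h2 2
        have h4 : ((n : ℝ) ^ 2) ^ 2 = (n : ℝ) ^ 4 := by ring
        rw [h4] at h3
        have h5 : 0 ≤ Y ^ 2 := sq_nonneg Y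
        linarith
      · have := pow_le_pow_left₀ h0 (not_lt.1 h1) 2
        linarith) z
  rwa [AvP_add (EG.const _) ((eg_chi hC Y).const_mul _), AvP_const, AvP_const_mul] at h

lemma Av_fr_le' (s : ℝ) (R : Finset (Pair n)) (z : Pair n → ℝ) :
    AvP s R (fun z => fr (S.A s z)) z ≤ (n : ℝ) ^ 2 := by
  have hC : ∀ i j, EG fun z => S.A s z i j := fun i j => tA_eg S s i j
  have h := AvP_mono (s := s) (R := R) (eg_frC hC) (EG.const ((n : ℝ) ^ 2)) (tfr_le S s) z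
  rwa [AvP_const] at h

lemma Av_frsq_le' (s : ℝ) (R : Finset (Pair n)) (z : Pair n → ℝ) :
    AvP s R (fun z => fr (S.A s z) ^ 2) z ≤ (n : ℝ) ^ 4 := by
  have hC : ∀ i j, EG fun z => S.A s z i j := fun i j => tA_eg S s i j
  have h := AvP_mono (s := s) (R := R) ((eg_frC hC).pow 2) (EG.const ((n : ℝ) ^ 4)) (fun z => by
      have h2 := tfr_le S s z
      have h0 : (0 : ℝ) ≤ fr (S.A s z) := frn _
      have h3 := pow_le_pow_left₀ h0 h2 2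
      have h4 : ((n : ℝ) ^ 2) ^ 2 = (n : ℝ) ^ 4 := by ring
      rwa [h4] at h3) z
  rwa [AvP_const] at h

lemma Av_KV_le (s : ℝ) (R : Finset (Pair n)) (z : Pair n → ℝ) :
    AvP s R (KV S s) z ≤ 4 * (n : ℝ) ^ 4 := by
  have h := AvP_mono (s := s) (R := R) (eg_KV S s) (EG.const (4 * (n : ℝ) ^ 4)) (KV_le S s) z
  rwa [AvP_const] at h

/-- **The pointwise bound of the errors** by `ErS`. -/
theorem er_point (hk : 0 < k) (hn : 1 ≤ (n : ℝ)) (q : Par) {g c t Y ε0 ε1 α0 α1 δ0 δ1 : ℝ}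
    (hg : 0 ≤ g) (hg1 : g ≤ 1) (ht : 1 ≤ t) (hc : 0 ≤ c) (hY : 1 ≤ Y) (hYn : Y ≤ (n : ℝ) ^ 4)
    (b b' : Fin n) (w : K4 (Pair n) → ℝ) (he0 : 0 ≤ ε0) (ha0 : 0 ≤ α0) (hd0 : 0 ≤ δ0)
    (hea : ε0 ^ 2 ≤ k ^ 2 * (9 * √(Th q.s1 (row b ∪ row b') (S.A q.s1) (KV S q.s1) (P2 q w))))
    (heb : ε0 ^ 2 ≤ k ^ 2 * AvP q.s1 (row b ∪ row b') (fun z => fr (S.A q.s1 z)) (P2 q w))
    (haF : α0 ^ 2 ≤ k ^ 2 * AvP q.s1 (row b ∪ row b') (fun z => fr (S.A q.s1 z)) (P2 q w))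
    (hdF : δ0 ^ 2 ≤ k ^ 2 * AvP q.s2 (row b ∪ row b') (fun z => fr (S.A q.s2 z)) (P3 q w))
    (he1 : ε1 ^ 2 ≤ k ^ 6 * (c * (36 * t ^ 6 *
      Th q.s1 (row b ∪ row b') (S.A q.s1) (KV S q.s1) (P2 q w) + 6 * (t⁻¹) ^ 2 *
        (AvP q.s1 (row b ∪ row b') (fun z => fr (S.A q.s1 z) ^ 2) (P2 q w) +
          AvP q.s1 (row b ∪ row b') (KV S q.s1) (P2 q w)))))
    (ha1 : α1 ^ 2 ≤ k ^ 6 * (c * (2 *
        (AvP q.s1 (row b ∪ row b') (fun z => fr (S.A q.s1 z) ^ 2) (P2 q w) +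
          AvP q.s1 (row b ∪ row b') (KV S q.s1) (P2 q w)))))
    (hd1 : δ1 ^ 2 ≤ k ^ 6 * (c * (2 *
        (AvP q.s2 (row b ∪ row b') (fun z => fr (S.A q.s2 z) ^ 2) (P3 q w) +
          AvP q.s2 (row b ∪ row b') (KV S q.s2) (P3 q w))))) :
    2 * g * ((ε0 ^ 2 + ε1 ^ 2) * δ0 ^ 2) + 6 * ((ε0 * δ1 + ε1 * δ0) * (α0 * δ1 + α1 * δ0)) ≤
      ErS S q g c t Y b b' w := by
  set R := row b ∪ row b' with hR
  set M : ℝ := 12 * (n : ℝ) ^ 8 with hM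
  have hC : ∀ s i j, EG fun z => S.A s z i j := fun s i j => tA_eg S s i j
  have n2 : (n : ℝ) ^ 2 ≤ (n : ℝ) ^ 8 := pow_le_pow_right₀ hn (by norm_num)
  have n4 : (n : ℝ) ^ 4 ≤ (n : ℝ) ^ 8 := pow_le_pow_right₀ hn (by norm_num)
  have n8 : 1 ≤ (n : ℝ) ^ 8 := one_le_pow₀ hn
  have n0 : 0 ≤ (n : ℝ) ^ 2 := by positivity
  have hY0 : 0 ≤ Y := by linarith
  have x1 : 0 ≤ AvP q.s1 R (chi Y (S.A q.s1)) (P2 q w) := AvP_nonneg (fun z => chi_nonneg _ z) _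
  have x2 : 0 ≤ AvP q.s2 R (chi Y (S.A q.s2)) (P3 q w) := AvP_nonneg (fun z => chi_nonneg _ z) _
  have k1 : 0 ≤ AvP q.s1 R (KV S q.s1) (P2 q w) := AvP_nonneg (fun z => KV_nonneg S _ z) _
  have k2 : 0 ≤ AvP q.s2 R (KV S q.s2) (P3 q w) := AvP_nonneg (fun z => KV_nonneg S _ z) _
  have f1 := Av_fr_le S q.s1 R hY0 (P2 q w)
  have f2 := Av_fr_le S q.s2 R hY0 (P3 q w)
  have g1 := Av_frsq_le S q.s1 R (Y := Y) (P2 q w)
  have g2 := Av_frsq_le S q.s2 R (Y := Y) (P3 q w)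
  have hM2 : (n : ℝ) ^ 2 ≤ M := by rw [hM]; linarith
  have hM4 : (n : ℝ) ^ 4 ≤ M := by rw [hM]; linarith
  set X1 := AvP q.s1 R (chi Y (S.A q.s1)) (P2 q w) with hX1
  set X2 := AvP q.s2 R (chi Y (S.A q.s2)) (P3 q w) with hX2
  have a1 : (n : ℝ) ^ 2 * X1 ≤ M * (X1 + X2) := by
    refine mul_le_mul hM2 (by linarith) x1 (by positivity)
  have a2 : (n : ℝ) ^ 2 * X2 ≤ M * (X1 + X2) := by
    refine mul_le_mul hM2 (by linarith) x2 (by positivity)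
  have a3 : (n : ℝ) ^ 4 * X1 ≤ M * (X1 + X2) := by
    refine mul_le_mul hM4 (by linarith) x1 (by positivity)
  have a4 : (n : ℝ) ^ 4 * X2 ≤ M * (X1 + X2) := by
    refine mul_le_mul hM4 (by linarith) x2 (by positivity)
  have y2 : Y ^ 2 ≤ M := by
    have h1 := pow_le_pow_left₀ hY0 hYn 2
    have h2 : ((n : ℝ) ^ 4) ^ 2 = (n : ℝ) ^ 8 := by ring
    rw [h2] at h1
    rw [hM]
    linarith
  have q1 := Av_frsq_le' S q.s1 R (P2 q w)
  have q2 := Av_frsq_le' S q.s2 R (P3 q w)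
  have p1 := Av_fr_le' S q.s1 R (P2 q w)
  have p2 := Av_fr_le' S q.s2 R (P3 q w)
  have c1 := Av_KV_le S q.s1 R (P2 q w)
  have c2 := Av_KV_le S q.s2 R (P3 q w)
  have hM1 : 1 ≤ M := by linarith
  have t1 : Th q.s1 R (S.A q.s1) (KV S q.s1) (P2 q w) ≤ M :=
    (Th_le S q.s1 R (P2 q w)).trans (by linarith)
  have u1 : AvP q.s1 R (KV S q.s1) (P2 q w) + AvP q.s2 R (KV S q.s2) (P3 q w) ≤ M := by linarith
  have key := Er.fb_real (M := M) (X := X1 + X2) hk hg hg1 ht hc (by linarith : 0 < Y) y2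
    (hYn.trans hM4) hM1 (add_nonneg x1 x2) (Th_nonneg (fun z => KV_nonneg S _ z) _)
    t1 he0 ha0 hd0 hea heb haF hdF
    (f1.trans (by linarith)) (p1.trans hM2) (f2.trans (by linarith)) (p2.trans hM2)
    (AvP_nonneg (fun z => sq_nonneg _) _) (g1.trans (by linarith)) (q1.trans hM4)
    (AvP_nonneg (fun z => sq_nonneg _) _) (g2.trans (by linarith)) (q2.trans hM4) k1 k2
    u1 he1 ha1 hd1
  exact key

end gen

/-! ### the numbers of the sum -/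

lemma er_num {n k β g c t A N u SΘ SK SX : ℝ} (hn : 2 ≤ n) (hk4 : k ^ 4 * n ^ 2 = β ^ 4)
    (hk8 : k ^ 8 * n ^ 4 = β ^ 8) (hg : 0 ≤ g) (hgN : g ≤ N / n ^ 2) (hc : 0 ≤ c) (ht : 1 ≤ t)
    (htn : t ≤ n) (hu : 0 ≤ u) (ht8 : t ^ 8 * u ≤ 1) (hA : 1 ≤ A) (hN : 1 ≤ N)
    (hΘ : SΘ ≤ 16 * A ^ 2 * n ^ 2 * N ^ 2 * u) (hK : SK ≤ 32 * A ^ 2 * n ^ 2 * N ^ 2 * u)
    (hX : SX ≤ 6 * n ^ 2 * (n ^ 200)⁻¹) :
    n ^ 2 * (9 * g * k ^ 4 * (t⁻¹ * (A * N) ^ 2) + 660 * c * k ^ 8 * (t⁻¹ * (A * N) ^ 3)) +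
      ((9 * g * k ^ 4 * t + 660 * c * k ^ 8 * t ^ 7 * (A * N)) * SΘ +
        (660 * c * k ^ 8 * (A * N) * SK + (18 * k ^ 4 * (12 * n ^ 8) ^ 2 +
          660 * c * k ^ 8 * t ^ 7 * (12 * n ^ 8) ^ 2) * SX)) ≤
      (200 * β ^ 4 + 40000 * c * β ^ 8) * (A ^ 3 * (N / n ^ 2) * N ^ 2 * t⁻¹) := by
  have ht0 : 0 < t := by linarith
  have hn0 : 0 < n := by linarith
  have hN0 : 0 < N := by linarith
  have hA0 : 0 < A := by linarith
  have hi : t⁻¹ ≤ 1 := inv_le_one_of_one_le₀ ht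
  have hi0 : 0 < t⁻¹ := inv_pos.2 ht0
  have hβ4 : 0 ≤ β ^ 4 := by positivity
  have hβ8 : 0 ≤ β ^ 8 := by positivity
  set Z := A ^ 3 * (N / n ^ 2) * N ^ 2 * t⁻¹ with hZ
  have hZ0 : 0 ≤ Z := by positivity
  -- powers of `t`
  have u7 : t ^ 7 * u ≤ t⁻¹ := by
    have h1 : t ^ 7 * u = t ^ 8 * u * t⁻¹ := by field_simp
    rw [h1]
    calc t ^ 8 * u * t⁻¹ ≤ 1 * t⁻¹ := mul_le_mul_of_nonneg_right ht8 hi0.le
      _ = t⁻¹ := one_mul _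
  have u1 : t * u ≤ t⁻¹ := by
    refine le_trans ?_ u7
    exact mul_le_mul_of_nonneg_right (le_self_pow₀ ht (by norm_num)) hu
  have u0 : u ≤ t⁻¹ := by
    refine le_trans ?_ u7
    exact le_mul_of_one_le_left hu (one_le_pow₀ ht)
  have gZ : g * (A ^ 2 * N ^ 2 * t⁻¹) ≤ Z := by
    have h1 : g * (A ^ 2 * N ^ 2 * t⁻¹) ≤ N / n ^ 2 * (A ^ 2 * N ^ 2 * t⁻¹) :=
      mul_le_mul_of_nonneg_right hgN (by positivity)
    have h2 : A ^ 2 ≤ A ^ 3 := pow_le_pow_right₀ hA (by norm_num)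
    have h3 := mul_le_mul_of_nonneg_right h2
      (by positivity : 0 ≤ N / n ^ 2 * N ^ 2 * t⁻¹)
    rw [hZ]
    calc g * (A ^ 2 * N ^ 2 * t⁻¹) ≤ N / n ^ 2 * (A ^ 2 * N ^ 2 * t⁻¹) := h1
      _ = A ^ 2 * (N / n ^ 2 * N ^ 2 * t⁻¹) := by ring
      _ ≤ A ^ 3 * (N / n ^ 2 * N ^ 2 * t⁻¹) := h3
      _ = _ := by ring
  have k8 : k ^ 8 * n ^ 2 * (A ^ 3 * N ^ 3 * t⁻¹) = β ^ 8 * Z := by
    rw [← hk8, hZ]
    field_simp
  -- the pieces
  have pa : n ^ 2 * (9 * g * k ^ 4 * (t⁻¹ * (A * N) ^ 2)) ≤ 9 * β ^ 4 * Z := by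
    have h1 := mul_le_mul_of_nonneg_left gZ (by positivity : 0 ≤ 9 * β ^ 4)
    calc n ^ 2 * (9 * g * k ^ 4 * (t⁻¹ * (A * N) ^ 2)) =
          9 * (k ^ 4 * n ^ 2) * (g * (A ^ 2 * N ^ 2 * t⁻¹)) := by ring
      _ = 9 * β ^ 4 * (g * (A ^ 2 * N ^ 2 * t⁻¹)) := by rw [hk4]
      _ ≤ _ := h1
  have pb : n ^ 2 * (660 * c * k ^ 8 * (t⁻¹ * (A * N) ^ 3)) = 660 * c * (β ^ 8 * Z) := by
    rw [← k8]; ring
  have pc : 9 * g * k ^ 4 * t * SΘ ≤ 144 * β ^ 4 * Z := by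
    calc 9 * g * k ^ 4 * t * SΘ ≤ 9 * g * k ^ 4 * t * (16 * A ^ 2 * n ^ 2 * N ^ 2 * u) :=
          mul_le_mul_of_nonneg_left hΘ (by positivity)
      _ = 144 * (k ^ 4 * n ^ 2) * (g * A ^ 2 * N ^ 2) * (t * u) := by ring
      _ ≤ 144 * (k ^ 4 * n ^ 2) * (g * A ^ 2 * N ^ 2) * t⁻¹ :=
          mul_le_mul_of_nonneg_left u1 (by positivity)
      _ = 144 * β ^ 4 * (g * (A ^ 2 * N ^ 2 * t⁻¹)) := by rw [hk4]; ring
      _ ≤ 144 * β ^ 4 * Z := mul_le_mul_of_nonneg_left gZ (by positivity)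
  have pd : 660 * c * k ^ 8 * t ^ 7 * (A * N) * SΘ ≤ 10560 * c * (β ^ 8 * Z) := by
    calc 660 * c * k ^ 8 * t ^ 7 * (A * N) * SΘ ≤
          660 * c * k ^ 8 * t ^ 7 * (A * N) * (16 * A ^ 2 * n ^ 2 * N ^ 2 * u) :=
          mul_le_mul_of_nonneg_left hΘ (by positivity)
      _ = 10560 * c * (k ^ 8 * n ^ 2 * (A ^ 3 * N ^ 3)) * (t ^ 7 * u) := by ring
      _ ≤ 10560 * c * (k ^ 8 * n ^ 2 * (A ^ 3 * N ^ 3)) * t⁻¹ :=
          mul_le_mul_of_nonneg_left u7 (by positivity)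
      _ = 10560 * c * (k ^ 8 * n ^ 2 * (A ^ 3 * N ^ 3 * t⁻¹)) := by ring
      _ = _ := by rw [k8]
  have pe : 660 * c * k ^ 8 * (A * N) * SK ≤ 21120 * c * (β ^ 8 * Z) := by
    calc 660 * c * k ^ 8 * (A * N) * SK ≤
          660 * c * k ^ 8 * (A * N) * (32 * A ^ 2 * n ^ 2 * N ^ 2 * u) :=
          mul_le_mul_of_nonneg_left hK (by positivity)
      _ = 21120 * c * (k ^ 8 * n ^ 2 * (A ^ 3 * N ^ 3)) * u := by ring
      _ ≤ 21120 * c * (k ^ 8 * n ^ 2 * (A ^ 3 * N ^ 3)) * t⁻¹ :=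
          mul_le_mul_of_nonneg_left u0 (by positivity)
      _ = 21120 * c * (k ^ 8 * n ^ 2 * (A ^ 3 * N ^ 3 * t⁻¹)) := by ring
      _ = _ := by rw [k8]
  -- the tails
  have zlow : (n ^ 3)⁻¹ ≤ Z := by
    have h1 : (1 : ℝ) ≤ A ^ 3 := one_le_pow₀ hA
    have h2 : (1 : ℝ) ≤ N ^ 3 := one_le_pow₀ hN
    have h3 : n⁻¹ ≤ t⁻¹ := inv_anti₀ ht0 htn
    have e1 : Z = A ^ 3 * N ^ 3 * ((n ^ 2)⁻¹ * t⁻¹) := by rw [hZ]; ring
    have e2 : (n ^ 3)⁻¹ = 1 * ((n ^ 2)⁻¹ * n⁻¹) := by field_simp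
    rw [e1, e2]
    refine mul_le_mul ?_ (mul_le_mul_of_nonneg_left h3 (by positivity)) (by positivity)
      (by positivity)
    calc (1 : ℝ) = 1 * 1 := (one_mul 1).symm
      _ ≤ A ^ 3 * N ^ 3 := mul_le_mul h1 h2 zero_le_one (by positivity)
  have big : ∀ m : ℕ, 20 ≤ m → (1000000 : ℝ) ≤ n ^ m := by
    intro m hm
    calc (1000000 : ℝ) ≤ 2 ^ 20 := by norm_num
      _ ≤ n ^ 20 := pow_le_pow_left₀ (by norm_num) hn 20
      _ ≤ n ^ m := pow_le_pow_right₀ (by linarith) hm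
  have pf : 18 * k ^ 4 * (12 * n ^ 8) ^ 2 * SX ≤ β ^ 4 * Z := by
    calc 18 * k ^ 4 * (12 * n ^ 8) ^ 2 * SX ≤
          18 * k ^ 4 * (12 * n ^ 8) ^ 2 * (6 * n ^ 2 * (n ^ 200)⁻¹) :=
          mul_le_mul_of_nonneg_left hX (by positivity)
      _ = (k ^ 4 * n ^ 2) * (15552 * (n ^ 181)⁻¹) * (n ^ 3)⁻¹ := by
          field_simp
          ring
      _ ≤ (k ^ 4 * n ^ 2) * 1 * (n ^ 3)⁻¹ := by
          refine mul_le_mul_of_nonneg_right (mul_le_mul_of_nonneg_left ?_ (by positivity))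
            (by positivity)
          rw [← div_eq_mul_inv, div_le_one (by positivity)]
          have := big 181 (by norm_num)
          linarith
      _ = β ^ 4 * (n ^ 3)⁻¹ := by rw [hk4]; ring
      _ ≤ _ := mul_le_mul_of_nonneg_left zlow hβ4
  have pg : 660 * c * k ^ 8 * t ^ 7 * (12 * n ^ 8) ^ 2 * SX ≤ c * (β ^ 8 * Z) := by
    have h7 : t ^ 7 ≤ n ^ 7 := pow_le_pow_left₀ ht0.le htn 7
    calc 660 * c * k ^ 8 * t ^ 7 * (12 * n ^ 8) ^ 2 * SX ≤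
          660 * c * k ^ 8 * t ^ 7 * (12 * n ^ 8) ^ 2 * (6 * n ^ 2 * (n ^ 200)⁻¹) :=
          mul_le_mul_of_nonneg_left hX (by positivity)
      _ = t ^ 7 * (660 * c * k ^ 8 * (12 * n ^ 8) ^ 2 * (6 * n ^ 2 * (n ^ 200)⁻¹)) := by ring
      _ ≤ n ^ 7 * (660 * c * k ^ 8 * (12 * n ^ 8) ^ 2 * (6 * n ^ 2 * (n ^ 200)⁻¹)) :=
          mul_le_mul_of_nonneg_right h7 (by positivity)
      _ = c * (k ^ 8 * n ^ 4) * (570240 * (n ^ 176)⁻¹) * (n ^ 3)⁻¹ := by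
          field_simp
          ring
      _ ≤ c * (k ^ 8 * n ^ 4) * 1 * (n ^ 3)⁻¹ := by
          refine mul_le_mul_of_nonneg_right (mul_le_mul_of_nonneg_left ?_ (by positivity))
            (by positivity)
          rw [← div_eq_mul_inv, div_le_one (by positivity)]
          have := big 176 (by norm_num)
          linarith
      _ = c * β ^ 8 * (n ^ 3)⁻¹ := by rw [hk8]; ring
      _ ≤ c * β ^ 8 * Z := mul_le_mul_of_nonneg_left zlow (by positivity)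
      _ = _ := by ring
  have hb : 0 ≤ c * (β ^ 8 * Z) := by positivity
  have ha : 0 ≤ β ^ 4 * Z := by positivity
  have e1 : n ^ 2 * (9 * g * k ^ 4 * (t⁻¹ * (A * N) ^ 2) + 660 * c * k ^ 8 * (t⁻¹ * (A * N) ^ 3)) +
      ((9 * g * k ^ 4 * t + 660 * c * k ^ 8 * t ^ 7 * (A * N)) * SΘ +
        (660 * c * k ^ 8 * (A * N) * SK + (18 * k ^ 4 * (12 * n ^ 8) ^ 2 +
          660 * c * k ^ 8 * t ^ 7 * (12 * n ^ 8) ^ 2) * SX)) =
      n ^ 2 * (9 * g * k ^ 4 * (t⁻¹ * (A * N) ^ 2)) +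
      n ^ 2 * (660 * c * k ^ 8 * (t⁻¹ * (A * N) ^ 3)) + 9 * g * k ^ 4 * t * SΘ +
      660 * c * k ^ 8 * t ^ 7 * (A * N) * SΘ + 660 * c * k ^ 8 * (A * N) * SK +
      18 * k ^ 4 * (12 * n ^ 8) ^ 2 * SX + 660 * c * k ^ 8 * t ^ 7 * (12 * n ^ 8) ^ 2 * SX := by
    ring
  have e2 : (200 * β ^ 4 + 40000 * c * β ^ 8) * Z = 200 * (β ^ 4 * Z) + 40000 * (c * (β ^ 8 * Z)) := by
    ring
  rw [e1, e2, pb]
  linarith

/-! ### the sum over the pairs -/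

section fo

variable {n : ℕ} {β A δ T ρ : ℝ} {q : Par}

/-- **The sum of the errors of (FB).** -/
theorem er_sum (S : CS n (kk n β) q.x) (h : Fo n β A δ T ρ q S.F S.A S.DA)
    (hL : Law2 n ((n : ℝ) ^ 200)⁻¹ q S.F) (hKR : ∀ s z, rt S.DA s z ≤ (n : ℝ) ^ 20)
    {g c t : ℝ} (hg : 0 ≤ g) (hgN : g ≤ R1C.NN n β ρ / (n : ℝ) ^ 2) (hc : 0 ≤ c) (ht : 1 ≤ t)
    (ht8 : t ^ 8 * (1 / (q.x ^ 2 * ρ * T) + 1 / (n * T)) ≤ 1) :
    ∑ b : Fin n, ∑ b' ∈ Finset.univ.erase b,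
        En q S.F (ErS S q g c t (A * R1C.NN n β ρ) b b') ≤
      (200 * β ^ 4 + 40000 * c * β ^ 8) *
        (A ^ 3 * (R1C.NN n β ρ / (n : ℝ) ^ 2) * R1C.NN n β ρ ^ 2 * t⁻¹) := by
  have hcc := S.c11
  have hx := S.x0
  have hn2 : (2 : ℝ) ≤ n := h.n0
  have hn0 : (0 : ℝ) < n := by linarith
  have hnn : 0 < n := by exact_mod_cast hn0
  have hA1 := h.A1
  have hT := h.Tp
  have hT1 := h.T1
  have hρ1 := h.ρ1
  have hβ := h.β0
  have hxT : 0 < q.x ^ 2 * ρ * T := by positivity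
  have hN1 : 1 ≤ R1C.NN n β ρ := by
    unfold R1C.NN
    rw [le_div_iff₀ (by positivity)]
    have h8 := h.βn
    nlinarith
  set N := R1C.NN n β ρ with hN
  have hN0 : 0 < N := by linarith
  set Y := A * N with hYd
  have hY0 : 0 ≤ Y := by positivity
  have hY : A * R1C.NN n β ρ = Y := rfl
  set u := 1 / (q.x ^ 2 * ρ * T) + 1 / (n * T) with hu
  have hu0 : 0 ≤ u := by positivity
  -- `t ≤ n`
  have htn : t ≤ n := by
    have h1 : t ^ 8 * (1 / (n * T)) ≤ 1 := by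
      refine le_trans (mul_le_mul_of_nonneg_left ?_ (by positivity)) ht8
      rw [hu]
      have : 0 ≤ 1 / (q.x ^ 2 * ρ * T) := by positivity
      linarith
    have h2 : t ^ 8 ≤ n * T := by
      rw [mul_one_div, div_le_one (by positivity)] at h1
      exact h1
    calc t ≤ t ^ 8 := le_self_pow₀ ht (by norm_num)
      _ ≤ n * T := h2
      _ ≤ n * 1 := mul_le_mul_of_nonneg_left hT1 hn0.le
      _ = n := mul_one _
  have hC : ∀ s i j, EG fun z => S.A s z i j := fun s i j => tA_eg S s i j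
  set R : Fin n → Fin n → Finset (Pair n) := fun b b' => row b ∪ row b' with hR
  -- one pair
  set c0 := 9 * g * kk n β ^ 4 * (t⁻¹ * Y ^ 2) + 660 * c * kk n β ^ 8 * (t⁻¹ * Y ^ 3) with hc0
  set c1 := 9 * g * kk n β ^ 4 * t + 660 * c * kk n β ^ 8 * t ^ 7 * Y with hc1
  set c2 := 660 * c * kk n β ^ 8 * Y with hc2
  set c3 := 18 * kk n β ^ 4 * (12 * (n : ℝ) ^ 8) ^ 2 +
    660 * c * kk n β ^ 8 * t ^ 7 * (12 * (n : ℝ) ^ 8) ^ 2 with hc3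
  have c1n : 0 ≤ c1 := by positivity
  have c2n : 0 ≤ c2 := by positivity
  have c3n : 0 ≤ c3 := by positivity
  set θ1 : Fin n → Fin n → ℝ := fun b b' => En q S.F fun w =>
    Th q.s1 (row b ∪ row b') (S.A q.s1) (KV S q.s1) (P2 q w) with hθ1
  set θ2 : Fin n → Fin n → ℝ := fun b b' => En q S.F fun w =>
    Th q.s2 (row b ∪ row b') (S.A q.s2) (KV S q.s2) (P3 q w) with hθ2
  have one : ∀ b b' : Fin n, En q S.F (ErS S q g c t Y b b') ≤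
      c0 + (c1 * θ1 b b' + (c2 * (θ1 b b' + θ2 b b') + c3 * (6 * ((n : ℝ) ^ 200)⁻¹))) := by
    intro b b'
    have h1 : EG fun w => Th q.s1 (row b ∪ row b') (S.A q.s1) (KV S q.s1) (P2 q w) :=
      eg_P2 (eg_ThS S q.s1 _)
    have h1' : EG fun w => Th q.s2 (row b ∪ row b') (S.A q.s2) (KV S q.s2) (P3 q w) :=
      eg_P3 (eg_ThS S q.s2 _)
    have h2 : EG fun w => AvP q.s1 (row b ∪ row b') (KV S q.s1) (P2 q w) :=
      eg_P2 (eg_AvP (eg_KV S q.s1) q.s1 _)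
    have h3 : EG fun w => AvP q.s2 (row b ∪ row b') (KV S q.s2) (P3 q w) :=
      eg_P3 (eg_AvP (eg_KV S q.s2) q.s2 _)
    have h4 : EG fun w => AvP q.s1 (row b ∪ row b') (chi Y (S.A q.s1)) (P2 q w) :=
      eg_P2 (eg_AvP (eg_chi (hC q.s1) Y) q.s1 _)
    have h5 : EG fun w => AvP q.s2 (row b ∪ row b') (chi Y (S.A q.s2)) (P3 q w) :=
      eg_P3 (eg_AvP (eg_chi (hC q.s2) Y) q.s2 _)
    have e : ErS S q g c t Y b b' = fun w => c0 +
        (c1 * Th q.s1 (row b ∪ row b') (S.A q.s1) (KV S q.s1) (P2 q w) +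
        (c2 * (AvP q.s1 (row b ∪ row b') (KV S q.s1) (P2 q w) +
          AvP q.s2 (row b ∪ row b') (KV S q.s2) (P3 q w)) +
        c3 * (AvP q.s1 (row b ∪ row b') (chi Y (S.A q.s1)) (P2 q w) +
          AvP q.s2 (row b ∪ row b') (chi Y (S.A q.s2)) (P3 q w)))) :=
      funext fun w => err_lin _ _ _ _ _ _ _ _ _
    rw [e, En_add hcc hx (EG.const _) ((h1.const_mul _).add (((h2.add h3).const_mul _).add
      ((h4.add h5).const_mul _))), En_add hcc hx (h1.const_mul _)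
      (((h2.add h3).const_mul _).add ((h4.add h5).const_mul _)),
      En_add hcc hx ((h2.add h3).const_mul _) ((h4.add h5).const_mul _), En_const hcc hx,
      En_const_mul, En_const_mul, En_const_mul, En_add hcc hx h2 h3, En_add hcc hx h4 h5]
    have k1 : En q S.F (fun w => AvP q.s1 (row b ∪ row b') (KV S q.s1) (P2 q w)) ≤ θ1 b b' :=
      En_mono hcc hx h2 h1 fun w => avK_le_Th _
    have k2 : En q S.F (fun w => AvP q.s2 (row b ∪ row b') (KV S q.s2) (P3 q w)) ≤ θ2 b b' :=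
      En_mono hcc hx h3 h1' fun w => avK_le_Th _
    have hδ : δ ≤ ((n : ℝ) ^ 200)⁻¹ := by
      rw [← one_div, le_div_iff₀ (by positivity)]
      linarith [h.δn]
    have x1 : En q S.F (fun w => AvP q.s1 (row b ∪ row b') (chi Y (S.A q.s1)) (P2 q w)) ≤
        3 * ((n : ℝ) ^ 200)⁻¹ := by
      have e1 : (fun w => AvP q.s1 (row b ∪ row b') (chi Y (S.A q.s1)) (P2 q w)) =
          Av (lf (row b ∪ row b')) fun w => chi Y (S.A q.s1) (P2 q w) :=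
        funext fun w => (Av_lf_P2 h.ok (eg_chi (hC q.s1) Y) _ w).symm
      rw [e1]
      have := hL.nlow hcc hx b b' (f := fun w => chi Y (S.A q.s1) (P2 q w)) (K := 1)
        (eg_P2 (eg_chi (hC q.s1) Y)) (fun w => chi_nonneg _ _) (fun w => chi_le _ _)
      have h6 : En q S.F (fun w => chi Y (S.A q.s1) (P2 q w)) ≤ δ := h.up2
      linarith
    have x2 : En q S.F (fun w => AvP q.s2 (row b ∪ row b') (chi Y (S.A q.s2)) (P3 q w)) ≤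
        3 * ((n : ℝ) ^ 200)⁻¹ := by
      have e1 : (fun w => AvP q.s2 (row b ∪ row b') (chi Y (S.A q.s2)) (P3 q w)) =
          Av (lf (row b ∪ row b')) fun w => chi Y (S.A q.s2) (P3 q w) :=
        funext fun w => (Av_lf_P3 h.ok (eg_chi (hC q.s2) Y) _ w).symm
      rw [e1]
      have := hL.nlow hcc hx b b' (f := fun w => chi Y (S.A q.s2) (P3 q w)) (K := 1)
        (eg_P3 (eg_chi (hC q.s2) Y)) (fun w => chi_nonneg _ _) (fun w => chi_le _ _)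
      have h6 : En q S.F (fun w => chi Y (S.A q.s2) (P3 q w)) ≤ δ := h.up3
      linarith
    have m2 := mul_le_mul_of_nonneg_left (add_le_add k1 k2) c2n
    have m3 := mul_le_mul_of_nonneg_left (add_le_add x1 x2) c3n
    have e3 : c3 * (3 * ((n : ℝ) ^ 200)⁻¹ + 3 * ((n : ℝ) ^ 200)⁻¹) =
        c3 * (6 * ((n : ℝ) ^ 200)⁻¹) := by ring
    rw [e3] at m3
    linarith
  -- the sums
  have s1 := bt3_two S h hL hKR
  have s2 := bt3_three S h hL hKR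
  have hB : (n : ℝ) ^ 2 * N ^ 2 * (3 * A / (q.x ^ 2 * ρ * T) + 16 * A ^ 2 / (n * T)) ≤
      16 * A ^ 2 * (n : ℝ) ^ 2 * N ^ 2 * u := by
    have h1 : 3 * A / (q.x ^ 2 * ρ * T) ≤ 16 * A ^ 2 * (1 / (q.x ^ 2 * ρ * T)) := by
      rw [mul_one_div]
      refine div_le_div_of_nonneg_right ?_ hxT.le
      nlinarith
    have h2 : 16 * A ^ 2 / (n * T) = 16 * A ^ 2 * (1 / (n * T)) := by ring
    have h3 := mul_le_mul_of_nonneg_left (add_le_add h1 h2.le)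
      (by positivity : (0 : ℝ) ≤ (n : ℝ) ^ 2 * N ^ 2)
    refine h3.trans (le_of_eq ?_)
    rw [hu]
    ring
  have S1 : ∑ b : Fin n, ∑ b' ∈ Finset.univ.erase b, θ1 b b' ≤
      16 * A ^ 2 * (n : ℝ) ^ 2 * N ^ 2 * u := s1.trans hB
  have S2 : ∑ b : Fin n, ∑ b' ∈ Finset.univ.erase b, θ2 b b' ≤
      16 * A ^ 2 * (n : ℝ) ^ 2 * N ^ 2 * u := s2.trans hB
  have hk2 : kk n β ^ 2 * n = β ^ 2 := kk_sq hnn β
  have hk4 : kk n β ^ 4 * (n : ℝ) ^ 2 = β ^ 4 := by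
    have : kk n β ^ 4 * (n : ℝ) ^ 2 = (kk n β ^ 2 * n) ^ 2 := by ring
    rw [this, hk2]; ring
  have hk8 : kk n β ^ 8 * (n : ℝ) ^ 4 = β ^ 8 := by
    have : kk n β ^ 8 * (n : ℝ) ^ 4 = (kk n β ^ 2 * n) ^ 4 := by ring
    rw [this, hk2]; ring
  have c0n : 0 ≤ c0 := by positivity
  have q0 : ∑ b : Fin n, ∑ _b' ∈ Finset.univ.erase b, c0 ≤ (n : ℝ) ^ 2 * c0 :=
    sum_pairs_const c0 c0n
  have q3 : ∑ b : Fin n, ∑ _b' ∈ Finset.univ.erase b, (6 * ((n : ℝ) ^ 200)⁻¹) ≤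
      (n : ℝ) ^ 2 * (6 * ((n : ℝ) ^ 200)⁻¹) := sum_pairs_const _ (by positivity)
  have total : ∑ b : Fin n, ∑ b' ∈ Finset.univ.erase b, En q S.F (ErS S q g c t Y b b') ≤
      (n : ℝ) ^ 2 * c0 + (c1 * (∑ b : Fin n, ∑ b' ∈ Finset.univ.erase b, θ1 b b') +
        (c2 * (∑ b : Fin n, ∑ b' ∈ Finset.univ.erase b, (θ1 b b' + θ2 b b')) +
          c3 * (∑ b : Fin n, ∑ _b' ∈ Finset.univ.erase b, (6 * ((n : ℝ) ^ 200)⁻¹)))) := by
    have h1 : ∑ b : Fin n, ∑ b' ∈ Finset.univ.erase b, En q S.F (ErS S q g c t Y b b') ≤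
        ∑ b : Fin n, ∑ b' ∈ Finset.univ.erase b, (c0 + (c1 * θ1 b b' +
          (c2 * (θ1 b b' + θ2 b b') + c3 * (6 * ((n : ℝ) ^ 200)⁻¹)))) :=
      Finset.sum_le_sum fun b _ => Finset.sum_le_sum fun b' _ => one b b'
    have e : ∑ b : Fin n, ∑ b' ∈ Finset.univ.erase b, (c0 + (c1 * θ1 b b' +
          (c2 * (θ1 b b' + θ2 b b') + c3 * (6 * ((n : ℝ) ^ 200)⁻¹)))) =
        (∑ b : Fin n, ∑ _b' ∈ Finset.univ.erase b, c0) +
        (c1 * (∑ b : Fin n, ∑ b' ∈ Finset.univ.erase b, θ1 b b') +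
        (c2 * (∑ b : Fin n, ∑ b' ∈ Finset.univ.erase b, (θ1 b b' + θ2 b b')) +
          c3 * (∑ b : Fin n, ∑ _b' ∈ Finset.univ.erase b, (6 * ((n : ℝ) ^ 200)⁻¹)))) := by
      simp only [Finset.mul_sum, ← Finset.sum_add_distrib]
    rw [e] at h1
    linarith
  have hnum := er_num (n := n) (k := kk n β) (β := β) (g := g) (c := c) (t := t) (A := A) (N := N)
    (u := u) (SΘ := ∑ b : Fin n, ∑ b' ∈ Finset.univ.erase b, θ1 b b')
    (SK := ∑ b : Fin n, ∑ b' ∈ Finset.univ.erase b, (θ1 b b' + θ2 b b'))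
    (SX := ∑ b : Fin n, ∑ _b' ∈ Finset.univ.erase b, (6 * ((n : ℝ) ^ 200)⁻¹))
    hn2 hk4 hk8 hg hgN hc ht htn hu0 ht8 hA1 hN1 S1
    (by simp only [Finset.sum_add_distrib]; linarith) (q3.trans (le_of_eq (by ring)))
  exact total.trans hnum

end fo

end Vale.Agent.P146.R1S
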