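import Vale.Agent.P146.H325.Eqs
import Vale.Agent.P146.H332.R2G

/-!
The touches and the moments in the full representation `II`.
-/

open MeasureTheory ProbabilityTheory

namespace Vale.Agent.P146.H332

open Vale.Agent.P157.Lv Vale.Agent.P146.H425 Vale.Agent.P146.H325 Matrix

set_option linter.unusedSectionVars false

variable {n : ℕ} {k x : ℝ} {b : Fin n} {t1 t2 : ℝ}

lemma L1_325 : L1 n t1 = H325.L1 n t1 := rfl

lemma L2_325 : L2 n t1 t2 = H325.L2 n t1 t2 := rfl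

/-- the total mass of a row -/
lemma int_mass {A0 : Finset (Pair n)} {l : Lvl (Pair n)} {t : ℝ} (h : At A0 l t t)
    (ht : t ∈ Set.Icc (0 : ℝ) 1) (hx : 0 ≤ x) {s : ℝ} (hs : 0 ≤ s) (hst : s ≤ t) :
    ∫ w, Nl k SkS x A0 l (fun _ => 1) s w ∂(gI (Pair n ⊕ Pair n)) = Z0 n k x := by
  have h1 := KF.const_of_zero ((ob_one k (SkS (n := n)) x).kfN A0 l) hs hst ht.2
  rw [← h1]
  have h2 := int_MA (k := k) h ht.1 hx l (Φ := fun _ => 1) (EG.const 1)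
  simp only [mul_one] at h2
  rw [h2]
  exact int_Nl k SkS x l t ht

lemma young4 {ρ f v : ℝ} (hρ : 0 < ρ) (hf : 0 ≤ f) (h : v ^ 2 ≤ f) :
    f * v ≤ ρ * f ^ 2 + 1 / ρ ^ 3 := by
  by_cases h1 : v ≤ ρ * f
  · have h2 : f * v ≤ f * (ρ * f) := mul_le_mul_of_nonneg_left h1 hf
    have h3 : 0 ≤ 1 / ρ ^ 3 := by positivity
    nlinarith
  · push Not at h1
    have hv0 : 0 < v := lt_of_le_of_lt (by positivity) h1
    have h2 : ρ * v < 1 := by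
      have h3 : ρ * v ^ 2 < v := lt_of_le_of_lt (mul_le_mul_of_nonneg_left h hρ.le) h1
      have h4 : (ρ * v) * v < 1 * v := by nlinarith
      exact lt_of_mul_lt_mul_right h4 hv0.le
    have h5 : ρ ^ 3 * (f * v) ≤ 1 := by
      have h6 : (ρ * (ρ * f)) * (ρ * v) ≤ 1 * 1 := by
        refine mul_le_mul ?_ h2.le (by positivity) zero_le_one
        have h7 : ρ * (ρ * f) ≤ ρ * v := mul_le_mul_of_nonneg_left h1.le hρ.le
        linarith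
      nlinarith
    have h8 : f * v ≤ 1 / ρ ^ 3 := by
      rw [le_div_iff₀ (by positivity)]
      linarith
    have h9 : 0 ≤ ρ * f ^ 2 := by positivity
    linarith

lemma eg_MC (hx : 0 ≤ x) (l : Lvl (Pair n)) {s : ℝ} (hs : s ∈ Set.Icc (0 : ℝ) 1) (i j : Fin n) :
    EG fun w => MC k x b l s w i j := eg_rl (row b) l (ob_av k SkS x (pr i j)) hx hs

/-- **The touches of one row.** -/
theorem touch_one {l : Lvl (Pair n)} {t : ℝ} (h : At (row b) l t t)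
    (ht : t ∈ Set.Icc (0 : ℝ) 1) (hx : 0 ≤ x) (hn : 0 < n) (l' : Lvl (Pair n)) {ρ : ℝ}
    (hρ : 0 < ρ) :
    ∫ w, H325.Nm k x b l t w * fr (MC k x b l t w - M0 k x b l w) ∂(gI (Pair n ⊕ Pair n)) ≤
      4 * (∫ w, H325.Nm k x b l t w * ∑ e ∈ row b, ∑ i, ∑ j, Dl k SkS x (row b) l
        (av k SkS (pr i j)) (av' k SkS x (pr i j)) e t w ^ 2 ∂(gI (Pair n ⊕ Pair n))) +
      6 * k ^ 2 * x ^ 2 * (ρ * ((n : ℝ) ^ 4 * Z0 n k x * Mg k x l' t) + Z0 n k x / ρ ^ 3) := by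
  set B : ℝ := ρ * ((n : ℝ) ^ 4 * Z0 n k x * Mg k x l' t) + Z0 n k x / ρ ^ 3 with hB
  have hZ := Z0p (n := n) k x
  have hM := Mg_nonneg (k := k) (x := x) l' t
  have hB0 : 0 ≤ B := by positivity
  have key := touch_row k x b l hx ht (B := B) (by
    intro s hs
    have hs1 : s ∈ Set.Icc (0 : ℝ) 1 := ⟨hs.1, hs.2.trans ht.2⟩
    have eN : EG (H325.Nm k x b l s) := eg_N (row b) l hs1
    have eF : EG fun w => fr (MC k x b l s w) := eg_fr (eg_MC hx l hs1)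
    have eV : EG fun w => ∑ j, Cm k x b l j b s w ^ 2 :=
      EG.sum _ fun j _ => (eg_MC hx l hs1 j b).pow 2
    have h1 : ∫ w, H325.Nm k x b l s w *
        ((∑ i, ∑ j, Cm k x b l i j s w ^ 2) * ∑ j, Cm k x b l j b s w ^ 2)
          ∂(gI (Pair n ⊕ Pair n)) ≤
        ∫ w, (ρ * (H325.Nm k x b l s w * fr (MC k x b l s w) ^ 2) +
          1 / ρ ^ 3 * H325.Nm k x b l s w) ∂(gI (Pair n ⊕ Pair n)) := by
      refine integral_mono (eN.mul (eF.mul eV)).integrable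
        (((eN.mul (eF.pow 2)).const_mul ρ).add (eN.const_mul _)).integrable fun w => ?_
      have hNp : 0 ≤ H325.Nm k x b l s w := (N1_pos k SkS x (row b) l s w).le
      have h2 := young4 hρ (fr_nonneg (MC k x b l s w))
        (v := vn (VU k x b l s w)) vn_VU_le
      have h3 := mul_le_mul_of_nonneg_left h2 hNp
      calc _ = H325.Nm k x b l s w * (fr (MC k x b l s w) * vn (VU k x b l s w)) := rfl
        _ ≤ _ := h3
        _ = _ := by ring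
    refine h1.trans ?_
    rw [integral_add ((eN.mul (eF.pow 2)).const_mul ρ).integrable (eN.const_mul _).integrable,
      integral_const_mul, integral_const_mul]
    have h4 := (mono_row (k := k) hx l b hs.1 hs.2 ht.2).trans
      (le_of_eq (int_fr_sq h ht hx hn l'))
    have h5 : ∫ w, H325.Nm k x b l s w ∂(gI (Pair n ⊕ Pair n)) = Z0 n k x :=
      int_mass h ht hx hs.1 hs.2
    rw [h5, hB]
    have h6 := mul_le_mul_of_nonneg_left h4 hρ.le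
    have h7 : 1 / ρ ^ 3 * Z0 n k x = Z0 n k x / ρ ^ 3 := by ring
    rw [h7]
    exact add_le_add h6 le_rfl)
  set R : ℝ := ∫ w, H325.Nm k x b l t w * ∑ e ∈ row b, ∑ i, ∑ j, Dl k SkS x (row b) l
        (av k SkS (pr i j)) (av' k SkS x (pr i j)) e t w ^ 2 ∂(gI (Pair n ⊕ Pair n)) with hR
  have hR0 : 0 ≤ R := integral_nonneg fun w => mul_nonneg (N1_pos k SkS x (row b) l t w).le
    (Finset.sum_nonneg fun _ _ => Finset.sum_nonneg fun _ _ =>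
      Finset.sum_nonneg fun _ _ => sq_nonneg _)
  have h8 : 0 ≤ 4 * R + 6 * k ^ 2 * x ^ 2 * B := by positivity
  have h9 : t * (4 * R + 6 * k ^ 2 * x ^ 2 * B) ≤ 4 * R + 6 * k ^ 2 * x ^ 2 * B := by
    nlinarith [mul_le_mul_of_nonneg_right ht.2 h8]
  exact key.trans h9

/-- **The touches, summed over the rows.** -/
theorem touch_sum {l : Lvl (Pair n)} {t : ℝ} (h : ∀ b : Fin n, At (row b) l t t)
    (ht : t ∈ Set.Icc (0 : ℝ) 1) (hx : 0 ≤ x) (hn : 0 < n) (l' : Lvl (Pair n)) {ρ : ℝ}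
    (hρ : 0 < ρ) :
    ∑ b, ∫ w, H325.Nm k x b l t w * fr (MC k x b l t w - M0 k x b l w)
        ∂(gI (Pair n ⊕ Pair n)) ≤
      8 * (n : ℝ) ^ 2 * Z0 n k x * Rg1 k x l' t +
      6 * k ^ 2 * x ^ 2 * n *
        (ρ * ((n : ℝ) ^ 4 * Z0 n k x * Mg k x l' t) + Z0 n k x / ρ ^ 3) := by
  refine (Finset.sum_le_sum fun b _ => touch_one (k := k) (h b) ht hx hn l' hρ).trans ?_
  rw [Finset.sum_add_distrib, ← Finset.mul_sum, int_rate h ht hx hn l', Finset.sum_const,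
    Finset.card_univ, Fintype.card_fin, nsmul_eq_mul]
  refine le_of_eq ?_
  ring

/-! ### the full representation -/

/-- functions of the lower position in the full representation -/
lemma II_low (h0 : 0 ≤ t1) (h1 : t1 ≤ t2) (h2 : t2 ≤ 1) {G : (Pair n → ℝ) → ℝ} (hG : EG G) :
    II k x t1 t2 (fun w => G (v1 t1 w)) =
      ∫ w, ND k x t1 (v1 t1 w) * G (v1 t1 w) ∂(gI (Pair n ⊕ Pair n)) := by
  have h := start3_full (k := k) (x := x) h0 h1 h2 (φ := fun w => G (v1 t1 w))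
    (eg_v1 hG t1) (fun e w t => by rw [v1_inr])
  unfold II
  simp only [mul_comm (ND k x _ _)]
  exact h

/-- functions of the upper position in the full representation -/
lemma II_up (h0 : 0 ≤ t1) (h1 : t1 ≤ t2) (h2 : t2 ≤ 1) {G : (Pair n → ℝ) → ℝ} (hG : EG G)
    (b : Fin n) :
    II k x t1 t2 (fun w => G (v2 t1 t2 w)) =
      ∫ w, ND k x t2 (u (row b) (H325.L2 n t1 t2).a (H325.L2 n t1 t2).b t2 w) *
        G (u (row b) (H325.L2 n t1 t2).a (H325.L2 n t1 t2).b t2 w)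
          ∂(gI (Pair n ⊕ Pair n)) :=
  start2_one h0 h1 h2 ((eg_ND t2).mul hG) b

lemma eg_frA (t : ℝ) : EG fun v : Pair n → ℝ => fr (AA k x t v) := eg_frM (eg_AA t)

lemma eg_frB (t : ℝ) : EG fun v : Pair n → ℝ => fr (BB k x b t v) := eg_frM (eg_BB t)

lemma eg_frAB (t : ℝ) : EG fun v : Pair n → ℝ => fr (AA k x t v - BB k x b t v) :=
  eg_frM (eg_subM (eg_AA t) (eg_BB t))

lemma eg_frAA (t : ℝ) : EG fun v : Pair n → ℝ => fr (AA k x t v * AA k x t v) :=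
  eg_frM (eg_mulM (eg_AA t) (eg_AA t))

lemma II_touch1 (h0 : 0 ≤ t1) (h1 : t1 ≤ t2) (h2 : t2 ≤ 1) (b : Fin n) :
    II k x t1 t2 (fun w => fr (AA k x t1 (v1 t1 w) - BB k x b t1 (v1 t1 w))) =
      ∫ w, H325.Nm k x b (L1 n t1) t1 w *
        fr (MC k x b (L1 n t1) t1 w - M0 k x b (L1 n t1) w) ∂(gI (Pair n ⊕ Pair n)) := by
  rw [II_low h0 h1 h2 (G := fun v => fr (AA k x t1 v - BB k x b t1 v)) (eg_frAB t1)]
  congr 1
  funext w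
  rw [L1_325, MC_L1, H325.Nm_L1, M0_L1]

lemma II_touch2 (h0 : 0 ≤ t1) (h1 : t1 ≤ t2) (h2 : t2 ≤ 1) (b : Fin n) :
    II k x t1 t2 (fun w => fr (AA k x t2 (v2 t1 t2 w) - BB k x b t2 (v2 t1 t2 w))) =
      ∫ w, H325.Nm k x b (L2 n t1 t2) t2 w *
        fr (MC k x b (L2 n t1 t2) t2 w - M0 k x b (L2 n t1 t2) w) ∂(gI (Pair n ⊕ Pair n)) := by
  rw [II_up h0 h1 h2 (G := fun v => fr (AA k x t2 v - BB k x b t2 v)) (eg_frAB t2) b]
  congr 1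
  funext w
  rw [L2_325, MC_L2, H325.Nm_L2, M0_L2' t1 t2 t2 w]

/-- **(X5) (a)**, `i = 1` -/
theorem touchII_1 (h0 : 0 ≤ t1) (h1 : t1 ≤ t2) (h2 : t2 ≤ 1) (hx : 0 ≤ x) (hn : 0 < n)
    (l' : Lvl (Pair n)) {ρ : ℝ} (hρ : 0 < ρ) :
    ∑ b : Fin n, II k x t1 t2 (fun w => fr (AA k x t1 (v1 t1 w) - BB k x b t1 (v1 t1 w))) ≤
      8 * (n : ℝ) ^ 2 * Z0 n k x * Rg1 k x l' t1 +
      6 * k ^ 2 * x ^ 2 * n *
        (ρ * ((n : ℝ) ^ 4 * Z0 n k x * Mg k x l' t1) + Z0 n k x / ρ ^ 3) := by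
  simp only [II_touch1 (k := k) (x := x) h0 h1 h2]
  exact touch_sum (fun b => at_L1 h0 (row b)) ⟨h0, h1.trans h2⟩ hx hn l' hρ

/-- **(X5) (a)**, `i = 2` -/
theorem touchII_2 (h0 : 0 ≤ t1) (h1 : t1 ≤ t2) (h2 : t2 ≤ 1) (hx : 0 ≤ x) (hn : 0 < n)
    (l' : Lvl (Pair n)) {ρ : ℝ} (hρ : 0 < ρ) :
    ∑ b : Fin n, II k x t1 t2 (fun w => fr (AA k x t2 (v2 t1 t2 w) - BB k x b t2 (v2 t1 t2 w))) ≤
      8 * (n : ℝ) ^ 2 * Z0 n k x * Rg1 k x l' t2 +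
      6 * k ^ 2 * x ^ 2 * n *
        (ρ * ((n : ℝ) ^ 4 * Z0 n k x * Mg k x l' t2) + Z0 n k x / ρ ^ 3) := by
  simp only [II_touch2 (k := k) (x := x) h0 h1 h2]
  exact touch_sum (fun b => at_L2 h0 h1 (row b)) ⟨h0.trans h1, h2⟩ hx hn l' hρ

/-- **(X5) (b)**, the fourth moment, `i = 1` -/
theorem II_A1 (h0 : 0 ≤ t1) (h1 : t1 ≤ t2) (h2 : t2 ≤ 1) (hx : 0 ≤ x) (hn : 0 < n)
    (l' : Lvl (Pair n)) :
    II (n := n) k x t1 t2 (fun w => fr (AA k x t1 (v1 t1 w)) ^ 2) =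
      (n : ℝ) ^ 4 * Z0 n k x * Mg k x l' t1 := by
  rw [II_low h0 h1 h2 (G := fun v => fr (AA k x t1 v) ^ 2) ((eg_frA t1).pow 2),
    ← (int_L1 (k := k) h0 (h1.trans h2) hx hn l' ⟨0, hn⟩).1]
  congr 1
  funext w
  rw [L1_325, MC_L1, H325.Nm_L1]

/-- **(X5) (b)**, the fourth moment, `i = 2` -/
theorem II_A2 (h0 : 0 ≤ t1) (h1 : t1 ≤ t2) (h2 : t2 ≤ 1) (hx : 0 ≤ x) (hn : 0 < n)
    (l' : Lvl (Pair n)) :
    II (n := n) k x t1 t2 (fun w => fr (AA k x t2 (v2 t1 t2 w)) ^ 2) =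
      (n : ℝ) ^ 4 * Z0 n k x * Mg k x l' t2 := by
  rw [II_up h0 h1 h2 (G := fun v => fr (AA k x t2 v) ^ 2) ((eg_frA t2).pow 2) ⟨0, hn⟩,
    ← (int_L2 (k := k) h0 h1 h2 hx hn l' ⟨0, hn⟩).1]
  congr 1
  funext w
  rw [L2_325, MC_L2, H325.Nm_L2]

/-- **(X5) (b)**, the second moment, `i = 1` -/
theorem II_R1 (h0 : 0 ≤ t1) (h1 : t1 ≤ t2) (h2 : t2 ≤ 1) (hx : 0 ≤ x) (hn : 0 < n)
    (l' : Lvl (Pair n)) :
    II (n := n) k x t1 t2 (fun w => fr (AA k x t1 (v1 t1 w))) =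
      (n : ℝ) ^ 2 * Z0 n k x * Rg k x l' t1 := by
  rw [II_low h0 h1 h2 (G := fun v => fr (AA k x t1 v)) (eg_frA t1),
    ← (int_L1 (k := k) h0 (h1.trans h2) hx hn l' ⟨0, hn⟩).2]
  congr 1
  funext w
  rw [L1_325, MC_L1, H325.Nm_L1]

/-- **(X5) (b)**, the second moment, `i = 2` -/
theorem II_R2 (h0 : 0 ≤ t1) (h1 : t1 ≤ t2) (h2 : t2 ≤ 1) (hx : 0 ≤ x) (hn : 0 < n)
    (l' : Lvl (Pair n)) :
    II (n := n) k x t1 t2 (fun w => fr (AA k x t2 (v2 t1 t2 w))) =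
      (n : ℝ) ^ 2 * Z0 n k x * Rg k x l' t2 := by
  rw [II_up h0 h1 h2 (G := fun v => fr (AA k x t2 v)) (eg_frA t2) ⟨0, hn⟩,
    ← (int_L2 (k := k) h0 h1 h2 hx hn l' ⟨0, hn⟩).2]
  congr 1
  funext w
  rw [L2_325, MC_L2, H325.Nm_L2]

/-- **(X5) (b)**, the bulk, `i = 1` -/
theorem II_B1 (h0 : 0 ≤ t1) (h1 : t1 ≤ t2) (h2 : t2 ≤ 1) (hx : 0 ≤ x) (hn : 0 < n)
    (l' : Lvl (Pair n)) (b : Fin n) :
    II (n := n) k x t1 t2 (fun w => fr (BB k x b t1 (v1 t1 w)) ^ 2) ≤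
      (n : ℝ) ^ 4 * Z0 n k x * Mg k x l' t1 := by
  have ht : t1 ∈ Set.Icc (0 : ℝ) 1 := ⟨h0, h1.trans h2⟩
  rw [II_low h0 h1 h2 (G := fun v => fr (BB k x b t1 v) ^ 2) ((eg_frB t1).pow 2)]
  have e : ∫ w, ND k x t1 (v1 t1 w) * fr (BB k x b t1 (v1 t1 w)) ^ 2
      ∂(gI (Pair n ⊕ Pair n)) = ∫ w, H325.Nm k x b (L1 n t1) t1 w *
        fr (MC k x b (L1 n t1) 0 w) ^ 2 ∂(gI (Pair n ⊕ Pair n)) := by
    congr 1
    funext w
    have e1 : MC k x b (L1 n t1) 0 w = BB k x b t1 (v1 t1 w) := M0_L1 t1 w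
    rw [e1, L1_325, H325.Nm_L1]
  rw [e, dens_weight hx _ _ b ht]
  exact (mono_row hx _ b le_rfl h0 ht.2).trans (le_of_eq (int_L1 h0 ht.2 hx hn l' b).1)

/-- **(X5) (b)**, the bulk, `i = 2` -/
theorem II_B2 (h0 : 0 ≤ t1) (h1 : t1 ≤ t2) (h2 : t2 ≤ 1) (hx : 0 ≤ x) (hn : 0 < n)
    (l' : Lvl (Pair n)) (b : Fin n) :
    II (n := n) k x t1 t2 (fun w => fr (BB k x b t2 (v2 t1 t2 w)) ^ 2) ≤
      (n : ℝ) ^ 4 * Z0 n k x * Mg k x l' t2 := by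
  have ht : t2 ∈ Set.Icc (0 : ℝ) 1 := ⟨h0.trans h1, h2⟩
  rw [II_up h0 h1 h2 (G := fun v => fr (BB k x b t2 v) ^ 2) ((eg_frB t2).pow 2) b]
  refine le_trans (le_of_eq ?_) (row0_L2_le h0 h1 h2 hx hn l' b ht)
  congr 1
  funext w
  have e1 : MC k x b (L2 n t1 t2) 0 w =
      BB k x b t2 (u (row b) (H325.L2 n t1 t2).a (H325.L2 n t1 t2).b t2 w) :=
    M0_L2' t1 t2 t2 w
  rw [e1, L2_325, H325.Nm_L2]

/-- **(X5) (b)**, rank one, `i = 1` -/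
theorem II_rank1 (h0 : 0 ≤ t1) (h1 : t1 ≤ t2) (h2 : t2 ≤ 1) (hk : k ≠ 0) (hx : 0 < x)
    (hx1 : x ≤ 1) (hn : 0 < n) (l' : Lvl (Pair n)) :
    II (n := n) k x t1 t2 (fun w => fr (AA k x t1 (v1 t1 w)) ^ 2 -
        fr (AA k x t1 (v1 t1 w) * AA k x t1 (v1 t1 w))) ≤
      (n : ℝ) ^ 4 * Z0 n k x * (4 / (k ^ 2 * x ^ 2 * (n : ℝ) ^ 2) * Rg1 k x l' t1) := by
  rw [II_low h0 h1 h2 (G := fun v => fr (AA k x t1 v) ^ 2 - fr (AA k x t1 v * AA k x t1 v))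
    (((eg_frA t1).pow 2).sub (eg_frAA t1))]
  refine le_trans (le_of_eq ?_) (int_rank_one (at_L1 h0 (row (⟨0, hn⟩ : Fin n)))
    ⟨h0, h1.trans h2⟩ hk hx hx1 hn l')
  congr 1
  funext w
  have e1 : MA k x (row (⟨0, hn⟩ : Fin n)) (L1 n t1) t1 w = AA k x t1 (v1 t1 w) := MC_L1 t1 w
  have e2 : Nl k SkS x (row (⟨0, hn⟩ : Fin n)) (L1 n t1) (fun _ => 1) t1 w =
      ND k x t1 (v1 t1 w) := H325.Nm_L1 t1 w
  rw [e1, e2]

/-- **(X5) (b)**, rank one, `i = 2` -/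
theorem II_rank2 (h0 : 0 ≤ t1) (h1 : t1 ≤ t2) (h2 : t2 ≤ 1) (hk : k ≠ 0) (hx : 0 < x)
    (hx1 : x ≤ 1) (hn : 0 < n) (l' : Lvl (Pair n)) :
    II (n := n) k x t1 t2 (fun w => fr (AA k x t2 (v2 t1 t2 w)) ^ 2 -
        fr (AA k x t2 (v2 t1 t2 w) * AA k x t2 (v2 t1 t2 w))) ≤
      (n : ℝ) ^ 4 * Z0 n k x * (4 / (k ^ 2 * x ^ 2 * (n : ℝ) ^ 2) * Rg1 k x l' t2) := by
  rw [II_up h0 h1 h2 (G := fun v => fr (AA k x t2 v) ^ 2 - fr (AA k x t2 v * AA k x t2 v))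
    (((eg_frA t2).pow 2).sub (eg_frAA t2)) ⟨0, hn⟩]
  refine le_trans (le_of_eq ?_) (int_rank_one (at_L2 h0 h1 (row (⟨0, hn⟩ : Fin n)))
    ⟨h0.trans h1, h2⟩ hk hx hx1 hn l')
  congr 1
  funext w
  have e1 : MA k x (row (⟨0, hn⟩ : Fin n)) (L2 n t1 t2) t2 w =
      AA k x t2 (u (row (⟨0, hn⟩ : Fin n)) (H325.L2 n t1 t2).a (H325.L2 n t1 t2).b t2 w) :=
    MC_L2 t1 t2 w
  have e2 : Nl k SkS x (row (⟨0, hn⟩ : Fin n)) (L2 n t1 t2) (fun _ => 1) t2 w =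
      ND k x t2 (u (row (⟨0, hn⟩ : Fin n)) (H325.L2 n t1 t2).a (H325.L2 n t1 t2).b t2 w) :=
    H325.Nm_L2 t1 t2 w
  rw [e1, e2]

end Vale.Agent.P146.H332
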