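import Vale.Agent.P146.H332.CPos
import Vale.Agent.P146.H785.Hes

/-!
Plan R1, block C: flips of a row, total derivatives and continuity at positions.
-/

open MeasureTheory ProbabilityTheory

namespace Vale.Agent.P146.R1C

open Vale.Agent.P157.Lv Vale.Agent.P146.H425 Vale.Agent.P146.H325 Vale.Agent.P146.H332
  Vale.Agent.P146.H712 Vale.Agent.P146.R1 Matrix

set_option linter.unusedSectionVars false

section gen

variable {ι : Type} [Fintype ι] [DecidableEq ι] {X : Type} [Fintype X] [Nonempty X]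
  {k : ℝ} {S : ι → X → ℝ} {x : ℝ}

lemma PP_eq (t : ℝ) (F : (ι → ℝ) → ℝ) (y : ι → ℝ) :
    PP (fun _ => t) F y = ∫ z, F (y + t • z) ∂(gI ι) := rfl

/-- The total derivative of a conditional expectation at a position. -/
lemma fd_RR {F : (ι → ℝ) → ℝ} {F' : ι → (ι → ℝ) → ℝ} (hF : Ob k S x F F') (t : ℝ) (y : ι → ℝ) :
    HasFDerivAt (RR k S x (fun _ => t) F) (H785.lf fun e => RR k S x (fun _ => t) (F' e) y -
      RR k S x (fun _ => t) F y * RR k S x (fun _ => t) (one' k S x e) y) y := by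
  obtain ⟨F2, h2⟩ := hF.ex
  obtain ⟨O2, o2⟩ := (ob_one k S x).ex
  have h3 := H785.fd_gauss h2.eg h2.eg1 (fun y => h2.fd y) t y
  have h4 := H785.fd_gauss o2.eg o2.eg1 (fun y => o2.fd y) t y
  have hne : (∫ z, Zx k S x (y + t • z) * 1 ∂(gI ι)) ≠ 0 :=
    (DD_pos k S x (fun _ => t) y).ne'
  have hinv := (hasDerivAt_inv hne).comp_hasFDerivAt y h4
  have h5 := h3.mul hinv
  have e0 : RR k S x (fun _ => t) F = fun y => (∫ z, Zx k S x (y + t • z) * F (y + t • z) ∂(gI ι)) *
      (Inv.inv ∘ fun y => ∫ z, Zx k S x (y + t • z) * 1 ∂(gI ι)) y := by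
    funext y
    show (∫ z, Zx k S x (y + t • z) * F (y + t • z) ∂(gI ι)) /
      (∫ z, Zx k S x (y + t • z) * 1 ∂(gI ι)) = _
    rw [div_eq_mul_inv]
    rfl
  have e1 : ∀ e, RR k S x (fun _ => t) (F' e) y = (∫ z, Zx k S x (y + t • z) *
      F' e (y + t • z) ∂(gI ι)) / ∫ z, Zx k S x (y + t • z) * 1 ∂(gI ι) := fun e => rfl
  have e2 : ∀ e, RR k S x (fun _ => t) (one' k S x e) y = (∫ z, Zx k S x (y + t • z) *
      one' k S x e (y + t • z) ∂(gI ι)) / ∫ z, Zx k S x (y + t • z) * 1 ∂(gI ι) := fun e => rfl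
  have e3 : RR k S x (fun _ => t) F y = (∫ z, Zx k S x (y + t • z) *
      F (y + t • z) ∂(gI ι)) / ∫ z, Zx k S x (y + t • z) * 1 ∂(gI ι) := rfl
  simp only [e1, e2, e3]
  rw [e0]
  refine h5.congr_fderiv ?_
  ext w
  simp only [_root_.add_apply, _root_.smul_apply, H785.lf_apply, smul_eq_mul, Finset.mul_sum,
    ← Finset.sum_add_distrib, Function.comp_apply]
  refine Finset.sum_congr rfl fun f _ => ?_
  set Z := ∫ z, Zx k S x (y + t • z) * 1 ∂(gI ι) with hZd
  field_simp
  ring

lemma cont_RR {F : (ι → ℝ) → ℝ} {F' : ι → (ι → ℝ) → ℝ} (hF : Ob k S x F F') (t : ℝ) :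
    Continuous (RR k S x (fun _ => t) F) :=
  continuous_iff_continuousAt.2 fun y => (fd_RR hF t y).continuousAt

end gen

variable {n : ℕ} {k x s : ℝ}

/-- the flip of the couplings of the site `b` -/
noncomputable def fl (b : Fin n) (z : Pair n → ℝ) : Pair n → ℝ := fun e => sg b e * z e

lemma fl_fl (b : Fin n) (z : Pair n → ℝ) : fl b (fl b z) = z := by
  funext e
  have h := sg_sq b e
  simp only [fl]
  rw [← mul_assoc, ← _root_.sq, h, one_mul]

lemma fl_not {b : Fin n} {e : Pair n} (he : e ∉ row b) (z : Pair n → ℝ) : fl b z e = z e := by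
  simp [fl, sg, he]

lemma fl_row {b : Fin n} {e : Pair n} (he : e ∈ row b) (z : Pair n → ℝ) : fl b z e = -z e := by
  simp [fl, sg, he]

lemma int_fl (b : Fin n) {F : (Pair n → ℝ) → ℝ} (hF : Measurable F) :
    ∫ g, F (fl b g) ∂(gI (Pair n)) = ∫ g, F g ∂(gI (Pair n)) := int_flip (sg_sq b) hF

lemma PP_fl (b : Fin n) {F : (Pair n → ℝ) → ℝ} (hF : Measurable F) (t : ℝ) (z : Pair n → ℝ) :
    PP (fun _ => t) F (fl b z) = PP (fun _ => t) (fun u => F (fl b u)) z := by
  unfold PP
  have h := int_fl b (F := fun g => F (fun e => fl b z e + t * g e))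
    (hF.comp (by fun_prop))
  rw [← h]
  refine integral_congr_ae (Filter.Eventually.of_forall fun g => ?_)
  simp only
  congr 1
  funext e
  simp only [fl]
  ring

lemma RR_fl (b : Fin n) {F : (Pair n → ℝ) → ℝ} (hF : EG F) (t : ℝ) (z : Pair n → ℝ) :
    RR k SkS x (fun _ => t) F (fl b z) = RR k SkS x (fun _ => t) (fun u => F (fl b u)) z := by
  unfold RR DD
  rw [PP_fl b (ebd (k := k) (S := SkS (n := n)) (x := x) hF).meas,
    PP_fl b (ob_one k SkS x).eg.meas]
  have e1 : ∀ u : Pair n → ℝ, Zx k SkS x (fl b u) = Zx k SkS x u := fun u => Zx_flp b u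
  simp only [e1]

lemma RR_neg (t : ℝ) (F : (Pair n → ℝ) → ℝ) (z : Pair n → ℝ) :
    RR k (SkS (n := n)) x (fun _ => t) (fun u => -F u) z = -RR k SkS x (fun _ => t) F z := by
  unfold RR
  rw [← neg_div]
  congr 1
  unfold PP
  rw [← integral_neg]
  refine integral_congr_ae (Filter.Eventually.of_forall fun g => ?_)
  simp only
  ring

lemma av_fl_row {b p : Fin n} (hp : p ≠ b) (u : Pair n → ℝ) :
    av k SkS (pr p b) (fl b u) = -av k SkS (pr p b) u := av_flp b hp u

/-- pairs of other sites do not see the flip -/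
lemma av_fl_ne {b p q : Fin n} (hp : p ≠ b) (hq : q ≠ b) (y : Pair n → ℝ) :
    av k SkS (pr p q) (fl b y) = av k SkS (pr p q) y := by
  unfold av
  have e0 : Zp k (SkS (n := n)) (fl b y) = Zp k SkS y := Zp_flp b y
  rw [e0]
  congr 1
  rw [← Equiv.sum_comp (flpE b) fun σ => ez k SkS y σ * pr p q σ]
  refine Finset.sum_congr rfl fun σ _ => ?_
  have e1 : ez k SkS (fl b y) σ = ez k SkS y (flp b σ) := ez_flp b y σ
  rw [e1]
  show ez k SkS y (flp b σ) * pr p q σ = ez k SkS y (flp b σ) * pr p q (flp b σ)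
  unfold pr
  rw [sp_flp_ne hp, sp_flp_ne hq]

/-- **Flips.** -/
lemma AA_fl_row {b p : Fin n} (hp : p ≠ b) (z : Pair n → ℝ) :
    AA k x s (fl b z) p b = -AA k x s z p b := by
  show RR k SkS x (fun _ => √(1 - s)) (av k SkS (pr p b)) (fl b z) =
    -RR k SkS x (fun _ => √(1 - s)) (av k SkS (pr p b)) z
  rw [RR_fl b (eg_av k SkS _)]
  simp only [av_fl_row hp]
  exact RR_neg _ _ _

lemma AA_fl_ne {b p q : Fin n} (hp : p ≠ b) (hq : q ≠ b) (z : Pair n → ℝ) :
    AA k x s (fl b z) p q = AA k x s z p q := by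
  show RR k SkS x (fun _ => √(1 - s)) (av k SkS (pr p q)) (fl b z) =
    RR k SkS x (fun _ => √(1 - s)) (av k SkS (pr p q)) z
  rw [RR_fl b (eg_av k SkS _)]
  simp only [av_fl_ne hp hq]

lemma HH_fl {b p q : Fin n} (hp : p ≠ b) (hq : q ≠ b) (z : Pair n → ℝ) :
    HH k x s b (fl b z) p q = HH k x s b z p q := by
  unfold HH
  rw [AA_fl_ne hp hq, AA_fl_row hp, AA_fl_row hq]
  have e : RR k SkS x (cf s) (fun u => av k SkS (pr p b) u * av k SkS (pr q b) u) (fl b z) =
      RR k SkS x (cf s) (fun u => av k SkS (pr p b) u * av k SkS (pr q b) u) z := by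
    have h := RR_fl (k := k) (x := x) b ((eg_av k SkS (pr p b)).mul (eg_av k SkS (pr q b)))
      (√(1 - s)) z
    refine h.trans ?_
    simp only [av_fl_row hp, av_fl_row hq, neg_mul_neg]
    rfl
  rw [e]
  ring

/-! ### continuity, total derivatives -/

lemma fd_AA (i j : Fin n) (z : Pair n → ℝ) :
    HasFDerivAt (fun z => AA k x s z i j) (H785.lf fun e => DC k x s e z i j) z :=
  fd_RR (ob_av k SkS x (pr i j)) (√(1 - s)) z

lemma cont_AA (i j : Fin n) : Continuous fun z : Pair n → ℝ => AA k x s z i j :=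
  cont_RR (ob_av k SkS x (pr i j)) (√(1 - s))

lemma cont_HH (b i j : Fin n) : Continuous fun z : Pair n → ℝ => HH k x s b z i j := by
  obtain ⟨F', hF⟩ := ob_avav k (SkS (n := n)) x (pr i b) (pr j b)
  unfold HH
  exact ((cont_AA i j).sub ((cont_RR hF (√(1 - s))).const_mul (1 - x))).sub
    (((cont_AA i b).mul (cont_AA j b)).const_mul x)

lemma abs_RR_avav (b i j : Fin n) (z : Pair n → ℝ) :
    |RR k (SkS (n := n)) x (cf s) (fun u => av k SkS (pr i b) u * av k SkS (pr j b) u) z| ≤ 1 := by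
  refine abs_RR_le k SkS x ((eg_av k SkS _).mul (eg_av k SkS _)) (fun u => ?_) _ _
  rw [abs_mul]
  have h1 := abs_av_pr (k := k) i b u
  have h2 := abs_av_pr (k := k) j b u
  nlinarith [abs_nonneg (av k SkS (pr i b) u), abs_nonneg (av k SkS (pr j b) u)]

lemma abs_HH (hx : 0 ≤ x) (hx1 : x ≤ 1) (b i j : Fin n) (z : Pair n → ℝ) :
    |HH k x s b z i j| ≤ 2 := by
  have h1 := abs_le.1 (abs_AA (k := k) (x := x) s z i j)
  have h2 := abs_le.1 (abs_RR_avav (k := k) (x := x) (s := s) b i j z)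
  have h3 := abs_le.1 (abs_AA (k := k) (x := x) s z i b)
  have h4 := abs_le.1 (abs_AA (k := k) (x := x) s z j b)
  have h5 : |AA k x s z i b * AA k x s z j b| ≤ 1 := by
    rw [abs_mul]
    exact mul_le_one₀ (abs_AA s z i b) (abs_nonneg _) (abs_AA s z j b)
  have h6 := abs_le.1 h5
  unfold HH
  rw [abs_le]
  constructor <;> nlinarith

lemma eg_HH (hx : 0 ≤ x) (hx1 : x ≤ 1) (b i j : Fin n) :
    EG fun z : Pair n → ℝ => HH k x s b z i j :=
  EG.of_bdd (cont_HH b i j).measurable fun z => abs_HH hx hx1 b i j z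

/-! ### the clean columns -/

lemma sw_fl (b b' : Fin n) (z g : Pair n → ℝ) :
    sw (row b') (fl b z) (fl b g) = fl b (sw (row b') z g) := by
  funext e
  by_cases he : e ∈ row b' <;> simp [sw, fl, he]

lemma smul_fl (b : Fin n) (c : ℝ) (g : Pair n → ℝ) : c • fl b g = fl b (c • g) := by
  funext e
  simp only [Pi.smul_apply, smul_eq_mul, fl]
  ring

lemma meas_swp (R : Finset (Pair n)) (z : Pair n → ℝ) (c : ℝ) :
    Measurable fun g : Pair n → ℝ => sw R z (c • g) := by
  refine measurable_pi_lambda _ fun e => ?_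
  unfold sw
  split_ifs
  · exact (measurable_pi_apply e : Measurable fun g : Pair n → ℝ => g e).const_mul c
  · exact measurable_const

/-- Averages of flipped functions. -/
lemma AvP_fl (b b' : Fin n) {f : (Pair n → ℝ) → ℝ} (hf : Measurable f) (z : Pair n → ℝ) :
    AvP s (row b') f (fl b z) = AvP s (row b') (fun z => f (fl b z)) z := by
  unfold AvP
  have h := int_fl b (F := fun g => f (sw (row b') (fl b z) (√s • g)))
    (hf.comp (meas_swp _ _ _))
  rw [← h]
  refine integral_congr_ae (Filter.Eventually.of_forall fun g => ?_)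
  simp only
  rw [smul_fl, sw_fl]

lemma cl_self (b b' : Fin n) (z : Pair n → ℝ) : cl k x s b b' z b = 1 := by
  unfold cl AvP
  simp only [AA_self]
  simp

/-- the clean column of `b` vanishes at `b'` -/
lemma cl_other {b b' : Fin n} (h : b ≠ b') (z : Pair n → ℝ) : cl k x s b b' z b' = 0 := by
  have hm : Measurable fun z : Pair n → ℝ => AA k x s z b' b := (cont_AA b' b).measurable
  have h1 : cl k x s b b' (fl b' z) b' = -cl k x s b b' z b' := by
    unfold cl
    rw [AvP_fl b' b' hm]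
    unfold AvP
    rw [← integral_neg]
    refine integral_congr_ae (Filter.Eventually.of_forall fun g => ?_)
    simp only
    rw [AA_comm, AA_fl_row h, AA_comm]
  have h2 : cl k x s b b' (fl b' z) b' = cl k x s b b' z b' := by
    unfold cl AvP
    refine integral_congr_ae (Filter.Eventually.of_forall fun g => ?_)
    have e1 : sw (row b') (fl b' z) (√s • g) = sw (row b') z (√s • g) := by
      funext e
      by_cases he : e ∈ row b'
      · simp [sw, he]
      · simp [sw, he, fl_not he]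
    simp only [e1]
  linarith

/-- the clean column is odd in its row -/
lemma cl_odd {b b' i : Fin n} (hi : i ≠ b) (z : Pair n → ℝ) :
    cl k x s b b' (fl b z) i = -cl k x s b b' z i := by
  have hm : Measurable fun z : Pair n → ℝ => AA k x s z i b := (cont_AA i b).measurable
  unfold cl
  rw [AvP_fl b b' hm]
  unfold AvP
  rw [← integral_neg]
  refine integral_congr_ae (Filter.Eventually.of_forall fun g => ?_)
  simp only
  rw [AA_fl_row hi]

lemma abs_AvP_le {s : ℝ} {R : Finset (Pair n)} {f : (Pair n → ℝ) → ℝ} {C : ℝ}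
    (hf : ∀ z, |f z| ≤ C) (z : Pair n → ℝ) : |AvP s R f z| ≤ C := by
  unfold AvP
  rw [← Real.norm_eq_abs]
  have h := norm_integral_le_of_norm_le_const (μ := gI (Pair n)) (C := C)
    (f := fun g => f (sw R z (√s • g)))
    (Filter.Eventually.of_forall fun g => by rw [Real.norm_eq_abs]; exact hf _)
  simpa using h

lemma abs_cl (b b' : Fin n) (z : Pair n → ℝ) (i : Fin n) : |cl k x s b b' z i| ≤ 1 :=
  abs_AvP_le (fun z => abs_AA s z i b) z

end Vale.Agent.P146.R1C
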