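import Vale.Agent.P146.H332.RowD
import Vale.Agent.P146.H816.Clean
import Vale.Agent.P146.H712.RowQ

/-!
Plan R1, block C: the clean column of a site as an odd gradient field of its row, at a fixed bulk.
Everything is stated for a triple `A, DA, H` (matrix of conditional expectations, its derivatives,
row gradients) at one time; the SK instance is at the end.
-/

open MeasureTheory ProbabilityTheory

namespace Vale.Agent.P146.R1C

open Vale.Agent.P157.Lv Vale.Agent.P146.H425 Vale.Agent.P146.H325 Vale.Agent.P146.H332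
  Vale.Agent.P146.H712 Vale.Agent.P146.R1 Vale.Agent.P146.H816 Matrix

set_option linter.unusedSectionVars false

variable {n : ℕ} {k s : ℝ} {A : (Pair n → ℝ) → Matrix (Fin n) (Fin n) ℝ}
  {DA : Pair n → (Pair n → ℝ) → Matrix (Fin n) (Fin n) ℝ}
  {H : Fin n → (Pair n → ℝ) → Matrix (Fin n) (Fin n) ℝ}

/-- What the row model needs at one time. -/
structure RowIn (k : ℝ) (A : (Pair n → ℝ) → Matrix (Fin n) (Fin n) ℝ)
    (DA : Pair n → (Pair n → ℝ) → Matrix (Fin n) (Fin n) ℝ)
    (H : Fin n → (Pair n → ℝ) → Matrix (Fin n) (Fin n) ℝ) : Prop where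
  egA : ∀ i j, EG fun z => A z i j
  egD : ∀ e i j, EG fun z => DA e z i j
  egH : ∀ b i j, EG fun z => H b z i j
  fdA : ∀ i j z, HasFDerivAt (fun z => A z i j) (H785.lf fun e => DA e z i j) z
  cH : ∀ b i j, Continuous fun z => H b z i j
  rowD : ∀ b : Fin n, ∀ e ∈ H325.row b, ∀ z i, DA e z i b = k * H b z i (oth b e)
  symH : ∀ b z i j, H b z i j = H b z j i
  flA : ∀ b i z, i ≠ b → A (fl b z) i b = -A z i b

/-- the clean column on the bulk sites, at a position -/
noncomputable def clz (A : (Pair n → ℝ) → Matrix (Fin n) (Fin n) ℝ) (s : ℝ) (b b' : Fin n)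
    (z : Pair n → ℝ) (i : Fin n) : ℝ :=
  if i = b ∨ i = b' then 0 else AvP s (row b') (fun z => A z i b) z

/-- its gradient in the row of `b` -/
noncomputable def hlz (k : ℝ) (H : Fin n → (Pair n → ℝ) → Matrix (Fin n) (Fin n) ℝ) (s : ℝ)
    (b b' : Fin n) (z : Pair n → ℝ) (i j : Fin n) : ℝ :=
  if (i = b ∨ i = b') ∨ j = b ∨ j = b' then 0 else k * AvP s (row b') (fun z => H b z i j) z

/-- the clean column as a function of the row of `b`, the rest of `z` is the bulk -/
noncomputable def gr (A : (Pair n → ℝ) → Matrix (Fin n) (Fin n) ℝ) (s : ℝ) (b b' : Fin n)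
    (z : Pair n → ℝ) (i : Fin n) (v : Fin n → ℝ) : ℝ := clz A s b b' (put b v z) i

/-- the Jacobian of `gr` -/
noncomputable def kr (k : ℝ) (H : Fin n → (Pair n → ℝ) → Matrix (Fin n) (Fin n) ℝ) (s : ℝ)
    (b b' : Fin n) (z : Pair n → ℝ) (i j : Fin n) (v : Fin n → ℝ) : ℝ :=
  hlz k H s b b' (put b v z) i j

lemma eg_clz (hA : ∀ i j, EG fun z => A z i j) (s : ℝ) (b b' i : Fin n) :
    EG fun z => clz A s b b' z i := by
  unfold clz
  by_cases h : i = b ∨ i = b'
  · simp only [if_pos h]; exact EG.const 0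
  · simp only [if_neg h]; exact eg_AvP (hA i b) s _

lemma eg_hlz (hH : ∀ b i j, EG fun z => H b z i j) (k s : ℝ) (b b' i j : Fin n) :
    EG fun z => hlz k H s b b' z i j := by
  unfold hlz
  by_cases h : (i = b ∨ i = b') ∨ j = b ∨ j = b'
  · simp only [if_pos h]; exact EG.const 0
  · simp only [if_neg h]; exact (eg_AvP (hH b i j) s _).const_mul k

lemma ind_clz (s : ℝ) (b b' i : Fin n) : Ind (row b') fun z => clz A s b b' z i := by
  unfold clz
  by_cases h : i = b ∨ i = b'
  · simp only [if_pos h]; intro z w; rfl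
  · simp only [if_neg h]; exact ind_AvP s _ _

lemma ind_hlz (s : ℝ) (b b' i j : Fin n) : Ind (row b') fun z => hlz k H s b b' z i j := by
  unfold hlz
  by_cases h : (i = b ∨ i = b') ∨ j = b ∨ j = b'
  · simp only [if_pos h]; intro z w; rfl
  · simp only [if_neg h]
    intro z w
    simp only
    rw [ind_AvP s (row b') (fun z => H b z i j) z w]

lemma cont_hlz (h : RowIn k A DA H) (s : ℝ) (b b' i j : Fin n) :
    Continuous fun z => hlz k H s b b' z i j := by
  unfold hlz
  by_cases h1 : (i = b ∨ i = b') ∨ j = b ∨ j = b'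
  · simp only [if_pos h1]; exact continuous_const
  · simp only [if_neg h1]; exact (cont_AvP' (h.egH b i j) (h.cH b i j) s _).const_mul k

/-- the total derivative of the clean column along its row -/
lemma fd_gr (h : RowIn k A DA H) {b b' : Fin n} (s : ℝ) (z : Pair n → ℝ) (i : Fin n)
    (v : Fin n → ℝ) (hb : b ≠ b') :
    HasFDerivAt (gr A s b b' z i) (H785.lf fun j => kr k H s b b' z i j v) v := by
  by_cases h1 : i = b ∨ i = b'
  · have e1 : gr A s b b' z i = fun _ => 0 := by
      funext v; unfold gr clz; rw [if_pos h1]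
    have e2 : (H785.lf fun j => kr k H s b b' z i j v) = 0 := by
      ext w
      rw [H785.lf_apply]
      unfold kr hlz
      simp [h1]
    rw [e1, e2]
    exact hasFDerivAt_const _ _
  · have e1 : gr A s b b' z i = fun v => AvP s (row b') (fun z => A z i b) (put b v z) := by
      funext v; unfold gr clz; rw [if_neg h1]
    rw [e1]
    have h2 := fun y => fd_AvP (h.egA i b) (fun e => h.egD e i b) (fun z => h.fdA i b z) s
      (row b') y
    refine fd_row h2 (K := fun j z => hlz k H s b b' z i j) (fun z => ?_) (fun e he z => ?_) z v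
    · unfold hlz
      simp
    · unfold hlz
      have h3 : oth b e ≠ b := oth_ne he
      by_cases h4 : e ∈ row b'
      · have h5 : oth b e = b' := by
          rw [mem_row] at he h4
          unfold oth
          split_ifs with h6
          · rcases h4 with h4 | h4
            · exact absurd (h6.symm.trans h4) hb
            · exact h4
          · rcases he with he | he
            · exact absurd he h6
            · rcases h4 with h4 | h4
              · exact h4
              · exact absurd (he.symm.trans h4) hb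
        simp [h4, h5]
      · have h5 : oth b e ≠ b' := by
          intro h6
          apply h4
          rw [mem_row] at he ⊢
          unfold oth at h6
          split_ifs at h6 with h7
          · exact Or.inr h6
          · exact Or.inl h6
        rw [if_neg h4, if_neg (by tauto), ← AvP_const_mul]
        congr 1
        funext u
        exact h.rowD b e he u i

/-- **The clean column is an odd gradient field of its row.** -/
theorem ogf_row (h : RowIn k A DA H) {b b' : Fin n} (hb : b ≠ b') (s : ℝ) (z : Pair n → ℝ) :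
    OGF (gr A s b b' z) (kr k H s b b' z) where
  fd i v := fd_gr h s z i v hb
  eg i := eg_put (eg_clz h.egA s b b' i) b z
  egH i j := eg_put (eg_hlz h.egH k s b b' i j) b z
  cH i j := (cont_hlz h s b b' i j).comp (cont_put b z)
  sym i j v := by
    unfold kr hlz
    have e : (fun z => H b z i j) = fun z => H b z j i := funext fun z => h.symH b z i j
    rw [e]
    congr 1
    exact propext or_comm
  odd i v := by
    unfold gr
    rw [put_neg]
    unfold clz
    by_cases h1 : i = b ∨ i = b'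
    · simp [h1]
    rw [if_neg h1, if_neg h1, AvP_fl b b' (h.egA i b).meas]
    unfold AvP
    rw [← integral_neg]
    refine integral_congr_ae (Filter.Eventually.of_forall fun g => ?_)
    exact h.flA b i _ fun h2 => h1 (Or.inl h2)

/-- `a` at the scale `√s` -/
theorem ogf_a (h : RowIn k A DA H) {b b' : Fin n} (hb : b ≠ b') (s : ℝ) (z : Pair n → ℝ) (c : ℝ) :
    OGF (fun i y => gr A s b b' z i (c • y)) fun i j y => c * kr k H s b b' z i j (c • y) := by
  have h1 := (ogf_row h hb s z).avg c 0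
  have e1 : (fun i => av2 c 0 (gr A s b b' z i)) = fun i y => gr A s b b' z i (c • y) := by
    funext i y; exact av2_zero _ _ _
  have e2 : (fun i j y => c * av2 c 0 (kr k H s b b' z i j) y) =
      fun i j y => c * kr k H s b b' z i j (c • y) := by
    funext i j y; rw [av2_zero]
  rwa [e1, e2] at h1

/-! ### averages over the row -/

/-- functions of the row model and averages over the row `b` -/
lemma int_row (b : Fin n) {f : (Pair n → ℝ) → ℝ} (hf : EG f) (s : ℝ) (z : Pair n → ℝ) :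
    ∫ y : Fin n → ℝ, f (put b (√s • y) z) ∂(gI (Fin n)) = AvP s (row b) f z :=
  (AvP_row hf s b z).symm

/-- two Gaussian steps in the row are one -/
lemma int_av2 {G : (Fin n → ℝ) → ℝ} (hG : EG G) {s1 s2 : ℝ} (h0 : 0 ≤ s1) (h1 : s1 ≤ s2) :
    ∫ y, av2 (√s1) (√(s2 - s1)) G y ∂(gI (Fin n)) = ∫ y, G (√s2 • y) ∂(gI (Fin n)) := by
  have h := gI_rot hG (a := √s1) (b := √(s2 - s1)) (c := √s2) (by
    rw [Real.sq_sqrt h0, Real.sq_sqrt (by linarith), Real.sq_sqrt (by linarith)]; ring) 0
  simp only [zero_add] at h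
  exact h

/-- the mean of the Jacobian, times `c` (bulk indices) -/
lemma mean_kr (hH : ∀ b i j, EG fun z => H b z i j) {b b' i j : Fin n} (hi : i ≠ b)
    (hi' : i ≠ b') (hj : j ≠ b) (hj' : j ≠ b') (z : Pair n → ℝ) :
    ∫ y, kr k H s b b' z i j (√s • y) ∂(gI (Fin n)) =
      k * AvP s (row b ∪ row b') (fun z => H b z i j) z := by
  have h1 := int_row b (eg_hlz hH k s b b' i j) s z
  unfold kr
  rw [h1]
  unfold hlz
  rw [show (fun z => if (i = b ∨ i = b') ∨ j = b ∨ j = b' then (0 : ℝ) else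
    k * AvP s (row b') (fun z => H b z i j) z) = fun z =>
      k * AvP s (row b') (fun z => H b z i j) z from by
    funext z; rw [if_neg (by tauto)], AvP_const_mul, AvP_AvP (hH b i j)]

lemma mean_kr_zero {b b' i j : Fin n} (h : (i = b ∨ i = b') ∨ j = b ∨ j = b')
    (z : Pair n → ℝ) (v : Fin n → ℝ) : kr k H s b b' z i j v = 0 := by
  unfold kr hlz
  rw [if_pos h]

/-- one time: averages over both rows -/
lemma Av_a (hA : ∀ i j, EG fun z => A z i j) {b b' : Fin n} (i j : Fin n) (z : Pair n → ℝ) :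
    AvP s (row b ∪ row b') (fun z => clz A s b b' z i * clz A s b b' z j) z =
      ∫ y, gr A s b b' z i (√s • y) * gr A s b b' z j (√s • y) ∂(gI (Fin n)) := by
  rw [AvP_union_ind ((eg_clz hA s b b' i).mul (eg_clz hA s b b' j))
    ((ind_clz s b b' i).mul (ind_clz s b b' j))]
  exact AvP_row ((eg_clz hA s b b' i).mul (eg_clz hA s b b' j)) s b z

/-- **The dictionary, two times.** -/
theorem Av_ad {q : Par} (hq : q.Ok) {A1 A2 : (Pair n → ℝ) → Matrix (Fin n) (Fin n) ℝ}
    (h1 : ∀ i j, EG fun z => A1 z i j) (h2 : ∀ i j, EG fun z => A2 z i j) {b b' : Fin n}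
    (i j : Fin n) (w : K4 (Pair n) → ℝ) :
    Av (lf (row b ∪ row b'))
      (fun w => clz A1 q.s1 b b' (P2 q w) i * clz A2 q.s2 b b' (P3 q w) j) w =
      ∫ y, (∫ y', gr A1 q.s1 b b' (P2 q w) i (√q.s1 • y) *
        gr A2 q.s2 b b' (P3 q w) j (√q.s1 • y + √(q.s2 - q.s1) • y') ∂(gI (Fin n)))
          ∂(gI (Fin n)) := by
  have hi : Ind (lf (row b')) fun w : K4 (Pair n) → ℝ =>
      clz A1 q.s1 b b' (P2 q w) i * clz A2 q.s2 b b' (P3 q w) j := by
    intro w w'
    have e1 := ind_clz (A := A1) q.s1 b b' i (P2 q w) (P2 q w')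
    have e2 := ind_clz (A := A2) q.s2 b b' j (P3 q w) (P3 q w')
    simp only at e1 e2
    simp only [P2_sw, P3_sw]
    rw [e1, e2]
  rw [lf_union, Av_union_ind hi]
  exact Av_lf_P23_row hq (Φ := fun u v => clz A1 q.s1 b b' u i * clz A2 q.s2 b b' v j)
    (eg_prod (eg_clz h1 q.s1 b b' i) (eg_clz h2 q.s2 b b' j)) b w

/-- the second time -/
theorem Av_dd {q : Par} (hq : q.Ok) {A2 : (Pair n → ℝ) → Matrix (Fin n) (Fin n) ℝ}
    (h2 : ∀ i j, EG fun z => A2 z i j) {b b' : Fin n} (i j : Fin n) (w : K4 (Pair n) → ℝ) :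
    Av (lf (row b ∪ row b'))
      (fun w => clz A2 q.s2 b b' (P3 q w) i * clz A2 q.s2 b b' (P3 q w) j) w =
      ∫ y, (∫ y', gr A2 q.s2 b b' (P3 q w) i (√q.s1 • y + √(q.s2 - q.s1) • y') *
        gr A2 q.s2 b b' (P3 q w) j (√q.s1 • y + √(q.s2 - q.s1) • y') ∂(gI (Fin n)))
          ∂(gI (Fin n)) := by
  have hi : Ind (lf (row b')) fun w : K4 (Pair n) → ℝ =>
      clz A2 q.s2 b b' (P3 q w) i * clz A2 q.s2 b b' (P3 q w) j := by
    intro w w'
    have e1 := ind_clz (A := A2) q.s2 b b' i (P3 q w) (P3 q w')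
    have e2 := ind_clz (A := A2) q.s2 b b' j (P3 q w) (P3 q w')
    simp only at e1 e2
    simp only [P3_sw]
    rw [e1, e2]
  rw [lf_union, Av_union_ind hi]
  have he : EG fun w : Pair n ⊕ Pair n → ℝ => clz A2 q.s2 b b' (fun e => w (Sum.inr e)) i *
      clz A2 q.s2 b b' (fun e => w (Sum.inr e)) j := by
    have h3 := eg_prod (κ := Pair n) (EG.const (1 : ℝ))
      ((eg_clz h2 q.s2 b b' i).mul (eg_clz h2 q.s2 b b' j))
    simpa only [one_mul] using h3
  exact Av_lf_P23_row hq (Φ := fun _ v => clz A2 q.s2 b b' v i * clz A2 q.s2 b b' v j) he b w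

/-- the first time -/
theorem Av_aa {q : Par} (hq : q.Ok) {A1 : (Pair n → ℝ) → Matrix (Fin n) (Fin n) ℝ}
    (h1 : ∀ i j, EG fun z => A1 z i j) {b b' : Fin n} (i j : Fin n) (w : K4 (Pair n) → ℝ) :
    Av (lf (row b ∪ row b'))
      (fun w => clz A1 q.s1 b b' (P2 q w) i * clz A1 q.s1 b b' (P2 q w) j) w =
      ∫ y, gr A1 q.s1 b b' (P2 q w) i (√q.s1 • y) * gr A1 q.s1 b b' (P2 q w) j (√q.s1 • y)
        ∂(gI (Fin n)) := by
  rw [Av_lf_P2 hq (f := fun z => clz A1 q.s1 b b' z i * clz A1 q.s1 b b' z j)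
    ((eg_clz h1 q.s1 b b' i).mul (eg_clz h1 q.s1 b b' j)), Av_a h1]

/-! ### the SK instance -/

section sk

variable {x : ℝ}

theorem rowIn_sk (hs : 0 < s) (hx : 0 ≤ x) (hx1 : x ≤ 1) :
    RowIn (n := n) k (AA k x s) (DC k x s) (HH k x s) where
  egA i j := eg_AA s i j
  egD e i j := eg_DC hx e i j
  egH b i j := eg_HH hx hx1 b i j
  fdA i j z := fd_AA i j z
  cH b i j := cont_HH b i j
  rowD _ _ he z i := DC_row hs he z i
  symH b z i j := HH_comm b z i j
  flA _ _ z hi := AA_fl_row hi z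

lemma clz_sk (b b' i : Fin n) (z : Pair n → ℝ) : clz (AA k x s) s b b' z i = cl0 k x s b b' z i :=
  rfl

lemma Nd_row {q : Par} (hq : q.Ok) (b b' i j : Fin n) (w : K4 (Pair n) → ℝ) :
    Nd k q b b' w i j = ∫ y, (∫ y', gr (AA k q.x q.s1) q.s1 b b' (P2 q w) i (√q.s1 • y) *
        gr (AA k q.x q.s2) q.s2 b b' (P3 q w) j (√q.s1 • y + √(q.s2 - q.s1) • y')
          ∂(gI (Fin n))) ∂(gI (Fin n)) :=
  Av_ad hq (fun i j => eg_AA q.s1 i j) (fun i j => eg_AA q.s2 i j) i j w

lemma Sa_row {q : Par} (hq : q.Ok) (b b' i j : Fin n) (w : K4 (Pair n) → ℝ) :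
    Sa k q b b' w i j = ∫ y, gr (AA k q.x q.s1) q.s1 b b' (P2 q w) i (√q.s1 • y) *
      gr (AA k q.x q.s1) q.s1 b b' (P2 q w) j (√q.s1 • y) ∂(gI (Fin n)) :=
  Av_aa hq (fun i j => eg_AA q.s1 i j) i j w

lemma Sd_row {q : Par} (hq : q.Ok) (b b' i j : Fin n) (w : K4 (Pair n) → ℝ) :
    Sd k q b b' w i j =
      ∫ y, (∫ y', gr (AA k q.x q.s2) q.s2 b b' (P3 q w) i (√q.s1 • y + √(q.s2 - q.s1) • y') *
        gr (AA k q.x q.s2) q.s2 b b' (P3 q w) j (√q.s1 • y + √(q.s2 - q.s1) • y')
          ∂(gI (Fin n))) ∂(gI (Fin n)) :=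
  Av_dd hq (fun i j => eg_AA q.s2 i j) i j w

lemma MM_row (hx : 0 ≤ x) (hx1 : x ≤ 1) {b b' i j : Fin n} (hi : i ≠ b) (hi' : i ≠ b')
    (hj : j ≠ b) (hj' : j ≠ b') (z : Pair n → ℝ) :
    ∫ y, kr k (HH k x s) s b b' z i j (√s • y) ∂(gI (Fin n)) = MM k x s b b' z i j :=
  mean_kr (fun b i j => eg_HH hx hx1 b i j) hi hi' hj hj' z

lemma ee_row (b b' : Fin n) (z : Pair n → ℝ) :
    ee k x s b b' z = ∑ i, ∫ y, gr (AA k x s) s b b' z i (√s • y) ^ 2 ∂(gI (Fin n)) := by
  show AvP s (row b ∪ row b') (fun z => ∑ i, clz (AA k x s) s b b' z i ^ 2) z = _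
  rw [AvP_sum (R := row b ∪ row b') (s := s) Finset.univ
    (f := fun i z => clz (AA k x s) s b b' z i ^ 2)
    (fun i _ => (eg_clz (fun i j => eg_AA s i j) s b b' i).pow 2)]
  refine Finset.sum_congr rfl fun i _ => ?_
  have h := Av_a (A := AA k x s) (s := s) (fun i j => eg_AA s i j) (b := b) (b' := b') i i z
  simp only [← _root_.sq] at h
  exact h

end sk

end Vale.Agent.P146.R1C
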