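import Mathlib

/-!
Plan R1, block C: the products of the fixed bulk inequality (FB), real numbers only.
-/

namespace Vale.Agent.P146.H332.Er

/-- the error functional without the powers of `k` -/
noncomputable def Wn (t Y M Θ K X : ℝ) : ℝ := t ^ 7 * (Y * Θ) + Y * K + t⁻¹ * Y ^ 3 + t ^ 7 * (M ^ 2 * X)

section

variable {t Y M Θ K K1 K2 X F F1 F2 Q Q1 Q2 c e0 e1 a0 a1 d0 d1 g u : ℝ}

lemma Wn_nonneg (ht : 1 ≤ t) (hY : 0 ≤ Y) (hΘ : 0 ≤ Θ) (hK : 0 ≤ K) (hX : 0 ≤ X) :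
    0 ≤ Wn t Y M Θ K X := by
  have : 0 ≤ t := by linarith
  unfold Wn
  positivity

/-- a bounded factor times a quantity -/
lemma mul_F {L : ℝ} (hF : F ≤ Y + M * X) (hL0 : 0 ≤ L) (hL : L ≤ M) (hM : 0 ≤ M) (hX : 0 ≤ X) :
    L * F ≤ Y * L + M ^ 2 * X := by
  have h1 := mul_le_mul_of_nonneg_left hF hL0
  have h2 := mul_le_mul_of_nonneg_right hL (mul_nonneg hM hX)
  nlinarith

lemma mul_QF (hF : F ≤ Y + M * X) (hQ0 : 0 ≤ Q) (hQ : Q ≤ Y ^ 2 + M * X) (hQM : Q ≤ M)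
    (hM : 0 ≤ M) (hX : 0 ≤ X) (hY : 0 ≤ Y) (hYM : Y ≤ M) : Q * F ≤ Y ^ 3 + 2 * (M ^ 2 * X) := by
  have h1 := mul_F hF hQ0 hQM hM hX
  have h2 := mul_le_mul_of_nonneg_left hQ hY
  have h3 := mul_le_mul_of_nonneg_right hYM (mul_nonneg hM hX)
  nlinarith

/-- the second type of error times a bounded factor -/
lemma e1F (ht : 1 ≤ t) (hc : 0 ≤ c) (hF0 : 0 ≤ F) (hF : F ≤ Y + M * X) (hΘ0 : 0 ≤ Θ) (hΘ : Θ ≤ M)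
    (hQ0 : 0 ≤ Q) (hQ : Q ≤ Y ^ 2 + M * X) (hQM : Q ≤ M) (hK0 : 0 ≤ K1) (hKM : K1 ≤ M)
    (hKK : K1 ≤ K) (hM : 0 ≤ M) (hX : 0 ≤ X) (hY : 0 ≤ Y) (hYM : Y ≤ M)
    (he : e1 ^ 2 ≤ c * (36 * t ^ 6 * Θ + 6 * (t⁻¹) ^ 2 * (Q + K1))) :
    t * e1 ^ 2 * F ≤ 54 * c * Wn t Y M Θ K X := by
  have ht0 : 0 < t := by linarith
  have hi : t⁻¹ ≤ 1 := inv_le_one_of_one_le₀ ht
  have hi0 : 0 < t⁻¹ := inv_pos.2 ht0
  have h7 : 1 ≤ t ^ 7 := one_le_pow₀ ht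
  have h1 : t * e1 ^ 2 * F ≤ c * (36 * t ^ 7 * (Θ * F) + 6 * t⁻¹ * (Q * F) + 6 * t⁻¹ * (K1 * F)) := by
    have h2 := mul_le_mul_of_nonneg_left he (mul_nonneg ht0.le hF0)
    have e : t * F * (c * (36 * t ^ 6 * Θ + 6 * (t⁻¹) ^ 2 * (Q + K1))) =
        c * (36 * t ^ 7 * (Θ * F) + 6 * t⁻¹ * (Q * F) + 6 * t⁻¹ * (K1 * F)) := by
      field_simp
      ring
    rw [e] at h2
    linarith
  refine h1.trans ?_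
  rw [show 54 * c * Wn t Y M Θ K X = c * (54 * Wn t Y M Θ K X) by ring]
  refine mul_le_mul_of_nonneg_left ?_ hc
  have m1 := mul_F hF hΘ0 hΘ hM hX
  have m2 := mul_QF hF hQ0 hQ hQM hM hX hY hYM
  have m3 := mul_F hF hK0 hKM hM hX
  have hMX : 0 ≤ M ^ 2 * X := by positivity
  have m4 := mul_le_mul_of_nonneg_left m1 (by positivity : (0 : ℝ) ≤ 36 * t ^ 7)
  have m5 : 6 * t⁻¹ * (Q * F) ≤ 6 * (t⁻¹ * Y ^ 3) + 12 * (M ^ 2 * X) := by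
    have h2 := mul_le_mul_of_nonneg_left m2 (by positivity : (0 : ℝ) ≤ 6 * t⁻¹)
    have h3 := mul_le_mul_of_nonneg_right hi hMX
    nlinarith
  have m6 : 6 * t⁻¹ * (K1 * F) ≤ 6 * (Y * K) + 6 * (M ^ 2 * X) := by
    have h2 := mul_le_mul_of_nonneg_left m3 (by positivity : (0 : ℝ) ≤ 6 * t⁻¹)
    have h3 := mul_le_mul_of_nonneg_right hi hMX
    have h4 := mul_le_mul_of_nonneg_right hi (mul_nonneg hY hK0)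
    have h5 := mul_le_mul_of_nonneg_left hKK hY
    nlinarith
  have m7 := mul_le_mul_of_nonneg_right h7 hMX
  have n1 : 0 ≤ t ^ 7 * (Y * Θ) := by positivity
  have n2 : 0 ≤ Y * K := mul_nonneg hY (hK0.trans hKK)
  have n3 : 0 ≤ t⁻¹ * Y ^ 3 := by positivity
  unfold Wn
  nlinarith

/-- the first type times a bounded factor -/
lemma a1F (ht : 1 ≤ t) (hc : 0 ≤ c) (hF0 : 0 ≤ F) (hF : F ≤ Y + M * X) (hΘ0 : 0 ≤ Θ)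
    (hQ0 : 0 ≤ Q) (hQ : Q ≤ Y ^ 2 + M * X) (hQM : Q ≤ M) (hK0 : 0 ≤ K1) (hKM : K1 ≤ M)
    (hKK : K1 ≤ K) (hM : 0 ≤ M) (hX : 0 ≤ X) (hY : 0 ≤ Y) (hYM : Y ≤ M)
    (he : a1 ^ 2 ≤ c * (2 * (Q + K1))) : t⁻¹ * a1 ^ 2 * F ≤ 6 * c * Wn t Y M Θ K X := by
  have ht0 : 0 < t := by linarith
  have hi : t⁻¹ ≤ 1 := inv_le_one_of_one_le₀ ht
  have hi0 : 0 < t⁻¹ := inv_pos.2 ht0
  have h7 : 1 ≤ t ^ 7 := one_le_pow₀ ht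
  have h1 : t⁻¹ * a1 ^ 2 * F ≤ c * (2 * t⁻¹ * (Q * F) + 2 * t⁻¹ * (K1 * F)) := by
    have h2 := mul_le_mul_of_nonneg_left he (mul_nonneg hi0.le hF0)
    nlinarith
  refine h1.trans ?_
  rw [show 6 * c * Wn t Y M Θ K X = c * (6 * Wn t Y M Θ K X) by ring]
  refine mul_le_mul_of_nonneg_left ?_ hc
  have m2 := mul_QF hF hQ0 hQ hQM hM hX hY hYM
  have m3 := mul_F hF hK0 hKM hM hX
  have hMX : 0 ≤ M ^ 2 * X := by positivity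
  have m5 : 2 * t⁻¹ * (Q * F) ≤ 2 * (t⁻¹ * Y ^ 3) + 4 * (M ^ 2 * X) := by
    have h2 := mul_le_mul_of_nonneg_left m2 (by positivity : (0 : ℝ) ≤ 2 * t⁻¹)
    have h3 := mul_le_mul_of_nonneg_right hi hMX
    nlinarith
  have m6 : 2 * t⁻¹ * (K1 * F) ≤ 2 * (Y * K) + 2 * (M ^ 2 * X) := by
    have h2 := mul_le_mul_of_nonneg_left m3 (by positivity : (0 : ℝ) ≤ 2 * t⁻¹)
    have h3 := mul_le_mul_of_nonneg_right hi hMX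
    have h4 := mul_le_mul_of_nonneg_right hi (mul_nonneg hY hK0)
    have h5 := mul_le_mul_of_nonneg_left hKK hY
    nlinarith
  have m7 := mul_le_mul_of_nonneg_right h7 hMX
  have n1 : 0 ≤ t ^ 7 * (Y * Θ) := by positivity
  have n2 : 0 ≤ Y * K := mul_nonneg hY (hK0.trans hKK)
  have n3 : 0 ≤ t⁻¹ * Y ^ 3 := by positivity
  unfold Wn
  nlinarith

/-- `√Θ` against `Y` -/
lemma sqrt_Y {w : ℝ} (hw : 0 < w) (hY : 0 < Y) (hΘ0 : 0 ≤ Θ) :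
    √Θ ≤ 1 / 2 * (w * Y + Θ / (w * Y)) := by
  have h1 : 0 < w * Y := mul_pos hw hY
  have h2 : 0 ≤ (√(w * Y) - √Θ / √(w * Y)) ^ 2 := sq_nonneg _
  have h3 : √(w * Y) ≠ 0 := (Real.sqrt_pos.2 h1).ne'
  have h4 : (√(w * Y) - √Θ / √(w * Y)) ^ 2 = w * Y - 2 * √Θ + Θ / (w * Y) := by
    have e1 : √(w * Y) ^ 2 = w * Y := Real.sq_sqrt h1.le
    have e2 : √Θ ^ 2 = Θ := Real.sq_sqrt hΘ0
    rw [sub_sq, div_pow, e1, e2]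
    field_simp
  rw [h4] at h2
  linarith

/-- the mixed products: `e0 * f * L`, `f² ≤ F`, for `L ≤ κ (Y² + M X) + K'` -/
lemma e0L {f L κ : ℝ} (ht : 1 ≤ t) (hY : 0 < Y) (hYM : Y ^ 2 ≤ M) (hM : 1 ≤ M) (hX : 0 ≤ X)
    (hΘ0 : 0 ≤ Θ) (he0 : 0 ≤ e0) (hf : 0 ≤ f) (hea : e0 ^ 2 ≤ 9 * √Θ) (heb : e0 ^ 2 ≤ F)
    (hfF : f ^ 2 ≤ F) (hF : F ≤ Y + M * X) (hFM : F ≤ M) (hK0 : 0 ≤ K1) (hKM : K1 ≤ M)
    (hKK : K1 ≤ K) (hL : L ≤ κ * (Y ^ 2 + M * X) + K1) (hκ : 1 ≤ κ) :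
    e0 * f * L ≤ 8 * κ * Wn t Y M Θ K X := by
  have ht0 : 0 < t := by linarith
  have hi : t⁻¹ ≤ 1 := inv_le_one_of_one_le₀ ht
  have hi0 : 0 < t⁻¹ := inv_pos.2 ht0
  have h7 : 1 ≤ t ^ 7 := one_le_pow₀ ht
  have hM0 : 0 ≤ M := by linarith
  have hMX : 0 ≤ M ^ 2 * X := by positivity
  have hef : e0 * f ≤ F := by nlinarith [sq_nonneg (e0 - f)]
  have hef0 : 0 ≤ e0 * f := mul_nonneg he0 hf
  have n1 : 0 ≤ t ^ 7 * (Y * Θ) := by positivity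
  have n2 : 0 ≤ Y * K := mul_nonneg hY.le (hK0.trans hKK)
  have n3 : 0 ≤ t⁻¹ * Y ^ 3 := by positivity
  have n4 := mul_le_mul_of_nonneg_right h7 hMX
  -- the part with `K1`
  have p1 : e0 * f * K1 ≤ Y * K + M ^ 2 * X := by
    have h2 := mul_F hF hK0 hKM hM0 hX
    have h3 := mul_le_mul_of_nonneg_right hef hK0
    have h4 := mul_le_mul_of_nonneg_left hKK hY.le
    nlinarith
  -- the part with `M X`
  have p2 : e0 * f * (M * X) ≤ M ^ 2 * X := by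
    have h2 := mul_le_mul_of_nonneg_right (hef.trans hFM) (mul_nonneg hM0 hX)
    nlinarith
  -- the part with `Y²`
  have p3 : e0 * f * Y ^ 2 ≤ 5 / 2 * (t⁻¹ * Y ^ 3 + t ^ 7 * (Y * Θ)) + 1 / 2 * (t⁻¹ * Y ^ 3 +
      M ^ 2 * X) := by
    have h2 : e0 * f ≤ 1 / 2 * (t * e0 ^ 2 + t⁻¹ * f ^ 2) := by
      have h3 : 0 ≤ t⁻¹ * (t * e0 - f) ^ 2 := by positivity
      have h4 : t⁻¹ * (t * e0 - f) ^ 2 = t * e0 ^ 2 - 2 * (e0 * f) + t⁻¹ * f ^ 2 := by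
        field_simp
        ring
      rw [h4] at h3
      linarith
    have h5 := sqrt_Y (w := (t⁻¹) ^ 2) (by positivity) hY hΘ0
    have h6 : t * e0 ^ 2 * Y ^ 2 ≤ 9 / 2 * (t⁻¹ * Y ^ 3 + t ^ 3 * (Y * Θ)) := by
      have h8 : e0 ^ 2 ≤ 9 / 2 * ((t⁻¹) ^ 2 * Y + Θ / ((t⁻¹) ^ 2 * Y)) := by linarith
      have h9 := mul_le_mul_of_nonneg_left h8 (by positivity : (0 : ℝ) ≤ t * Y ^ 2)
      have e : t * Y ^ 2 * (9 / 2 * ((t⁻¹) ^ 2 * Y + Θ / ((t⁻¹) ^ 2 * Y))) =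
          9 / 2 * (t⁻¹ * Y ^ 3 + t ^ 3 * (Y * Θ)) := by
        field_simp
      rw [e] at h9
      linarith
    have h10 : t ^ 3 * (Y * Θ) ≤ t ^ 7 * (Y * Θ) :=
      mul_le_mul_of_nonneg_right (pow_le_pow_right₀ ht (by norm_num)) (by positivity)
    have h11 : t⁻¹ * f ^ 2 * Y ^ 2 ≤ t⁻¹ * Y ^ 3 + M ^ 2 * X := by
      have h12 : f ^ 2 * Y ^ 2 ≤ Y ^ 3 + M ^ 2 * X := by
        have h13 := mul_le_mul_of_nonneg_right (hfF.trans hF) (sq_nonneg Y)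
        have h14 := mul_le_mul_of_nonneg_left hYM (mul_nonneg hM0 hX)
        nlinarith
      have h15 := mul_le_mul_of_nonneg_left h12 hi0.le
      have h16 := mul_le_mul_of_nonneg_right hi hMX
      nlinarith
    have h17 := mul_le_mul_of_nonneg_right h2 (sq_nonneg Y)
    have h18 : 1 / 2 * (t * e0 ^ 2 + t⁻¹ * f ^ 2) * Y ^ 2 =
        1 / 2 * (t * e0 ^ 2 * Y ^ 2) + 1 / 2 * (t⁻¹ * f ^ 2 * Y ^ 2) := by ring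
    rw [h18] at h17
    linarith
  have q1 := mul_le_mul_of_nonneg_left hL hef0
  have q2 : e0 * f * (κ * (Y ^ 2 + M * X) + K1) = κ * (e0 * f * Y ^ 2) + κ * (e0 * f * (M * X)) +
      e0 * f * K1 := by ring
  rw [q2] at q1
  have hκ0 : 0 ≤ κ := by linarith
  have q3 := mul_le_mul_of_nonneg_left p3 hκ0
  have q4 := mul_le_mul_of_nonneg_left p2 hκ0
  have q5 : Y * K + M ^ 2 * X ≤ κ * (Y * K + M ^ 2 * X) :=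
    le_mul_of_one_le_left (by positivity) hκ
  have q6 : e0 * f * L ≤ κ * (3 * (t⁻¹ * Y ^ 3) + 5 / 2 * (t ^ 7 * (Y * Θ)) + Y * K +
      5 / 2 * (M ^ 2 * X)) := by linarith
  refine q6.trans ?_
  rw [show 8 * κ * Wn t Y M Θ K X = κ * (8 * Wn t Y M Θ K X) by ring]
  refine mul_le_mul_of_nonneg_left ?_ hκ0
  unfold Wn
  linarith

lemma mul_of_sq {a b F : ℝ} (ha : a ^ 2 ≤ F) (hb : b ^ 2 ≤ F) : a * b ≤ F := by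
  nlinarith [sq_nonneg (a - b)]

lemma mul_half (a b : ℝ) : a * b ≤ (a ^ 2 + b ^ 2) / 2 := by
  nlinarith [sq_nonneg (a - b)]

/-- the products, without the powers of `k` -/
theorem prod_n (ht : 1 ≤ t) (hc : 0 ≤ c) (hY : 0 < Y) (hYM : Y ^ 2 ≤ M) (hY1 : Y ≤ M) (hM : 1 ≤ M)
    (hX : 0 ≤ X) (hΘ0 : 0 ≤ Θ) (hΘM : Θ ≤ M)
    (he0 : 0 ≤ e0) (ha0 : 0 ≤ a0) (hd0 : 0 ≤ d0)
    (hea : e0 ^ 2 ≤ 9 * √Θ) (heb : e0 ^ 2 ≤ F1) (haF : a0 ^ 2 ≤ F1) (hdF : d0 ^ 2 ≤ F2)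
    (hF1 : F1 ≤ Y + M * X) (hF1M : F1 ≤ M) (hF2 : F2 ≤ Y + M * X) (hF2M : F2 ≤ M)
    (hQ10 : 0 ≤ Q1) (hQ1 : Q1 ≤ Y ^ 2 + M * X) (hQ1M : Q1 ≤ M)
    (hQ20 : 0 ≤ Q2) (hQ2 : Q2 ≤ Y ^ 2 + M * X) (hQ2M : Q2 ≤ M)
    (hK10 : 0 ≤ K1) (hK20 : 0 ≤ K2) (hKM : K1 + K2 ≤ M)
    (he1 : e1 ^ 2 ≤ c * (36 * t ^ 6 * Θ + 6 * (t⁻¹) ^ 2 * (Q1 + K1)))
    (ha1 : a1 ^ 2 ≤ c * (2 * (Q1 + K1))) (hd1 : d1 ^ 2 ≤ c * (2 * (Q2 + K2))) :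
    (e0 * d1 + e1 * d0) * (a0 * d1 + a1 * d0) ≤ 92 * c * Wn t Y M Θ (K1 + K2) X := by
  have ht0 : 0 < t := by linarith
  have hi0 : 0 < t⁻¹ := inv_pos.2 ht0
  have hM0 : 0 ≤ M := by linarith
  have hK1M : K1 ≤ M := by linarith
  have hK2M : K2 ≤ M := by linarith
  have hK1 : K1 ≤ K1 + K2 := by linarith
  have hK2 : K2 ≤ K1 + K2 := by linarith
  have hF10 : 0 ≤ F1 := (sq_nonneg _).trans haF
  have hF20 : 0 ≤ F2 := (sq_nonneg _).trans hdF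
  set W := Wn t Y M Θ (K1 + K2) X with hW
  -- T1
  have t1 := e0L (K := K1 + K2) (κ := 1) (L := Q2 + K2) ht hY hYM hM hX hΘ0 he0 ha0 hea heb haF
    hF1 hF1M hK20 hK2M hK2 (by linarith) le_rfl
  -- T2
  set F := max F1 F2 with hFd
  have hF : F ≤ Y + M * X := max_le hF1 hF2
  have hFM : F ≤ M := max_le hF1M hF2M
  have hF0 : 0 ≤ F := hF10.trans (le_max_left _ _)
  have t2 := e0L (K := K1 + K2) (κ := 2) (L := Q1 + K1 + (Q2 + K2)) (f := d0) ht hY hYM hM hX hΘ0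
    he0 hd0 hea (heb.trans (le_max_left F1 F2)) (hdF.trans (le_max_right F1 F2)) hF hFM
    (by linarith : 0 ≤ K1 + K2) hKM le_rfl (by linarith) (by norm_num)
  -- T3
  have t3 := e1F (K := K1 + K2) ht hc hF0 hF hΘ0 hΘM hQ10 hQ1 hQ1M hK10 hK1M hK1 hM0 hX hY.le hY1 he1
  have t3' := a1F (K := K1 + K2) (a1 := d1) ht hc hF0 hF hΘ0 hQ20 hQ2 hQ2M hK20 hK2M hK2 hM0 hX
    hY.le hY1 hd1
  have t4 := e1F (K := K1 + K2) ht hc hF20 hF2 hΘ0 hΘM hQ10 hQ1 hQ1M hK10 hK1M hK1 hM0 hX hY.le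
    hY1 he1
  have t4' := a1F (K := K1 + K2) ht hc hF20 hF2 hΘ0 hQ10 hQ1 hQ1M hK10 hK1M hK1 hM0 hX
    hY.le hY1 ha1
  have am : ∀ u v : ℝ, u * v ≤ 1 / 2 * (t * u ^ 2 + t⁻¹ * v ^ 2) := by
    intro u v
    have h3 : 0 ≤ t⁻¹ * (t * u - v) ^ 2 := by positivity
    have h4 : t⁻¹ * (t * u - v) ^ 2 = t * u ^ 2 - 2 * (u * v) + t⁻¹ * v ^ 2 := by
      field_simp
      ring
    rw [h4] at h3
    linarith
  have s1 : e0 * a0 * d1 ^ 2 ≤ 16 * c * W := by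
    have h1 := mul_le_mul_of_nonneg_left hd1 (mul_nonneg he0 ha0)
    have h2 := mul_le_mul_of_nonneg_left t1 (by positivity : (0 : ℝ) ≤ 2 * c)
    linarith
  have s2 : e0 * d0 * (a1 * d1) ≤ 16 * c * W := by
    have h0 := mul_half a1 d1
    have h1 : a1 * d1 ≤ c * (Q1 + K1 + (Q2 + K2)) := by linarith
    have h2 := mul_le_mul_of_nonneg_left h1 (mul_nonneg he0 hd0)
    have h3 := mul_le_mul_of_nonneg_left t2 hc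
    linarith
  have s3 : e1 * d1 * (d0 * a0) ≤ 30 * c * W := by
    have h1 : d0 * a0 ≤ F :=
      mul_of_sq (hdF.trans (le_max_right F1 F2)) (haF.trans (le_max_left F1 F2))
    have h4 : 0 ≤ 1 / 2 * (t * e1 ^ 2 + t⁻¹ * d1 ^ 2) := by positivity
    have h5 : e1 * d1 * (d0 * a0) ≤ 1 / 2 * (t * e1 ^ 2 + t⁻¹ * d1 ^ 2) * F :=
      (mul_le_mul_of_nonneg_right (am e1 d1) (mul_nonneg hd0 ha0)).trans
        (mul_le_mul_of_nonneg_left h1 h4)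
    have h6 : 1 / 2 * (t * e1 ^ 2 + t⁻¹ * d1 ^ 2) * F =
        1 / 2 * (t * e1 ^ 2 * F) + 1 / 2 * (t⁻¹ * d1 ^ 2 * F) := by ring
    rw [h6] at h5
    linarith
  have s4 : e1 * a1 * d0 ^ 2 ≤ 30 * c * W := by
    have h4 : 0 ≤ 1 / 2 * (t * e1 ^ 2 + t⁻¹ * a1 ^ 2) := by positivity
    have h5 : e1 * a1 * d0 ^ 2 ≤ 1 / 2 * (t * e1 ^ 2 + t⁻¹ * a1 ^ 2) * F2 :=
      (mul_le_mul_of_nonneg_right (am e1 a1) (sq_nonneg d0)).trans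
        (mul_le_mul_of_nonneg_left hdF h4)
    have h6 : 1 / 2 * (t * e1 ^ 2 + t⁻¹ * a1 ^ 2) * F2 =
        1 / 2 * (t * e1 ^ 2 * F2) + 1 / 2 * (t⁻¹ * a1 ^ 2 * F2) := by ring
    rw [h6] at h5
    linarith
  have e : (e0 * d1 + e1 * d0) * (a0 * d1 + a1 * d0) =
      e0 * a0 * d1 ^ 2 + e0 * d0 * (a1 * d1) + e1 * d1 * (d0 * a0) + e1 * a1 * d0 ^ 2 := by ring
  rw [e]
  linarith

/-- the first error term, without the powers of `k` -/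
theorem first_n (ht : 1 ≤ t) (hY : 0 < Y) (hM : 1 ≤ M) (hX : 0 ≤ X) (hΘ0 : 0 ≤ Θ) (hΘM : Θ ≤ M)
    (hea : e0 ^ 2 ≤ 9 * √Θ) (hdF : d0 ^ 2 ≤ F2) (hF2 : F2 ≤ Y + M * X) :
    e0 ^ 2 * d0 ^ 2 ≤ 9 / 2 * (t⁻¹ * Y ^ 2 + t * Θ) + 9 * (M ^ 2 * X) := by
  have ht0 : 0 < t := by linarith
  have hi0 : 0 < t⁻¹ := inv_pos.2 ht0
  have hM0 : 0 ≤ M := by linarith
  have h1 : e0 ^ 2 * d0 ^ 2 ≤ 9 * √Θ * (Y + M * X) :=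
    mul_le_mul hea (hdF.trans hF2) (sq_nonneg _) (by positivity)
  have h2 : √Θ ≤ M := by
    rw [Real.sqrt_le_left hM0]
    have h0 : M * 1 ≤ M * M := mul_le_mul_of_nonneg_left hM hM0
    have h7 : M ^ 2 = M * M := sq M
    linarith
  have h3 := sqrt_Y (w := t⁻¹) hi0 hY hΘ0
  have h4 := mul_le_mul_of_nonneg_right h3 hY.le
  have h5 : 1 / 2 * (t⁻¹ * Y + Θ / (t⁻¹ * Y)) * Y = 1 / 2 * (t⁻¹ * Y ^ 2 + t * Θ) := by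
    field_simp
  rw [h5] at h4
  have h6 := mul_le_mul_of_nonneg_right h2 (mul_nonneg hM0 hX)
  nlinarith

end

/-- The error of the fixed bulk inequality as a function of the smallness functionals. -/
noncomputable def err (k g c t Y M Θ K X : ℝ) : ℝ :=
  9 * g * k ^ 4 * (t⁻¹ * Y ^ 2 + t * Θ) + 18 * k ^ 4 * (M ^ 2 * X) + 660 * c * k ^ 8 *
    Wn t Y M Θ K X

lemma err_nonneg {k g c t Y M Θ K X : ℝ} (hg : 0 ≤ g) (hc : 0 ≤ c) (ht : 1 ≤ t) (hY : 0 ≤ Y)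
    (hΘ : 0 ≤ Θ) (hK : 0 ≤ K) (hX : 0 ≤ X) : 0 ≤ err k g c t Y M Θ K X := by
  have h1 := Wn_nonneg (M := M) ht hY hΘ hK hX
  have : 0 ≤ t := by linarith
  unfold err
  positivity

/-- **The error of the fixed bulk inequality.** -/
theorem fb_real {k g c t Y M Θ K1 K2 X F1 F2 Q1 Q2 ε0 ε1 α0 α1 δ0 δ1 : ℝ} (hk : 0 < k)
    (hg : 0 ≤ g) (hg1 : g ≤ 1) (ht : 1 ≤ t) (hc : 0 ≤ c) (hY : 0 < Y) (hYM : Y ^ 2 ≤ M)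
    (hY1 : Y ≤ M) (hM : 1 ≤ M) (hX : 0 ≤ X) (hΘ0 : 0 ≤ Θ) (hΘM : Θ ≤ M)
    (he0 : 0 ≤ ε0) (ha0 : 0 ≤ α0) (hd0 : 0 ≤ δ0)
    (hea : ε0 ^ 2 ≤ k ^ 2 * (9 * √Θ)) (heb : ε0 ^ 2 ≤ k ^ 2 * F1) (haF : α0 ^ 2 ≤ k ^ 2 * F1)
    (hdF : δ0 ^ 2 ≤ k ^ 2 * F2)
    (hF1 : F1 ≤ Y + M * X) (hF1M : F1 ≤ M) (hF2 : F2 ≤ Y + M * X) (hF2M : F2 ≤ M)
    (hQ10 : 0 ≤ Q1) (hQ1 : Q1 ≤ Y ^ 2 + M * X) (hQ1M : Q1 ≤ M)
    (hQ20 : 0 ≤ Q2) (hQ2 : Q2 ≤ Y ^ 2 + M * X) (hQ2M : Q2 ≤ M)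
    (hK10 : 0 ≤ K1) (hK20 : 0 ≤ K2) (hKM : K1 + K2 ≤ M)
    (he1 : ε1 ^ 2 ≤ k ^ 6 * (c * (36 * t ^ 6 * Θ + 6 * (t⁻¹) ^ 2 * (Q1 + K1))))
    (ha1 : α1 ^ 2 ≤ k ^ 6 * (c * (2 * (Q1 + K1))))
    (hd1 : δ1 ^ 2 ≤ k ^ 6 * (c * (2 * (Q2 + K2)))) :
    2 * g * ((ε0 ^ 2 + ε1 ^ 2) * δ0 ^ 2) + 6 * ((ε0 * δ1 + ε1 * δ0) * (α0 * δ1 + α1 * δ0)) ≤
      err k g c t Y M Θ (K1 + K2) X := by
  have hk2 : 0 < k ^ 2 := by positivity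
  have hk6 : 0 < k ^ 6 := by positivity
  have d2 : ∀ {u B : ℝ}, u ^ 2 ≤ k ^ 2 * B → (u / k) ^ 2 ≤ B := by
    intro u B h
    rw [div_pow, div_le_iff₀ hk2]
    linarith
  have d6 : ∀ {u B : ℝ}, u ^ 2 ≤ k ^ 6 * B → (u / k ^ 3) ^ 2 ≤ B := by
    intro u B h
    rw [div_pow, ← pow_mul, div_le_iff₀ hk6]
    linarith
  have p := prod_n (e0 := ε0 / k) (a0 := α0 / k) (d0 := δ0 / k) (e1 := ε1 / k ^ 3)
    (a1 := α1 / k ^ 3) (d1 := δ1 / k ^ 3) ht hc hY hYM hY1 hM hX hΘ0 hΘM (by positivity)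
    (by positivity) (by positivity) (d2 hea) (d2 heb) (d2 haF) (d2 hdF) hF1 hF1M hF2 hF2M hQ10
    hQ1 hQ1M hQ20 hQ2 hQ2M hK10 hK20 hKM (d6 he1) (d6 ha1) (d6 hd1)
  have f := first_n (e0 := ε0 / k) (d0 := δ0 / k) ht hY hM hX hΘ0 hΘM (d2 hea) (d2 hdF) hF2
  have hF20 : 0 ≤ F2 := (sq_nonneg _).trans (d2 hdF)
  have e1 := e1F (K := K1 + K2) (e1 := ε1 / k ^ 3) ht hc hF20 hF2 hΘ0 hΘM hQ10 hQ1 hQ1M hK10
    (by linarith) (by linarith) (by linarith) hX hY.le hY1 (d6 he1)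
  have hk4 : 0 ≤ k ^ 4 := by positivity
  have hk8 : 0 ≤ k ^ 8 := by positivity
  have g1 : (ε1 / k ^ 3) ^ 2 * (δ0 / k) ^ 2 ≤ 54 * c * Wn t Y M Θ (K1 + K2) X := by
    have h1 : (ε1 / k ^ 3) ^ 2 * (δ0 / k) ^ 2 ≤ (ε1 / k ^ 3) ^ 2 * F2 :=
      mul_le_mul_of_nonneg_left (d2 hdF) (sq_nonneg _)
    have h2 : (ε1 / k ^ 3) ^ 2 * F2 ≤ t * ((ε1 / k ^ 3) ^ 2 * F2) :=
      le_mul_of_one_le_left (by positivity) ht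
    linarith
  have p8 := mul_le_mul_of_nonneg_left p hk8
  have g8 := mul_le_mul_of_nonneg_left g1 hk8
  have f4 := mul_le_mul_of_nonneg_left f hk4
  have i1 : k ^ 8 * ((ε0 / k * (δ1 / k ^ 3) + ε1 / k ^ 3 * (δ0 / k)) *
      (α0 / k * (δ1 / k ^ 3) + α1 / k ^ 3 * (δ0 / k))) =
      (ε0 * δ1 + ε1 * δ0) * (α0 * δ1 + α1 * δ0) := by
    field_simp
  have i2 : k ^ 8 * ((ε1 / k ^ 3) ^ 2 * (δ0 / k) ^ 2) = ε1 ^ 2 * δ0 ^ 2 := by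
    field_simp
  have i3 : k ^ 4 * ((ε0 / k) ^ 2 * (δ0 / k) ^ 2) = ε0 ^ 2 * δ0 ^ 2 := by
    field_simp
  rw [i1] at p8
  rw [i2] at g8
  rw [i3] at f4
  have j1 : 2 * g * ((ε0 ^ 2 + ε1 ^ 2) * δ0 ^ 2) ≤
      2 * g * (k ^ 4 * (9 / 2 * (t⁻¹ * Y ^ 2 + t * Θ))) + 2 * (k ^ 4 * (9 * (M ^ 2 * X))) +
        2 * (k ^ 8 * (54 * c * Wn t Y M Θ (K1 + K2) X)) := by
    have hMX : 0 ≤ k ^ 4 * (9 * (M ^ 2 * X)) := by positivity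
    have hW : 0 ≤ k ^ 8 * (54 * c * Wn t Y M Θ (K1 + K2) X) := by
      have := Wn_nonneg (M := M) ht hY.le hΘ0 (by linarith : 0 ≤ K1 + K2) hX
      positivity
    have k1 := mul_le_mul_of_nonneg_left f4 hg
    have k2 := mul_le_mul_of_nonneg_left g8 hg
    have k3 := mul_le_mul_of_nonneg_right hg1 hMX
    have k4 := mul_le_mul_of_nonneg_right hg1 hW
    have k5 : g * (k ^ 4 * (9 / 2 * (t⁻¹ * Y ^ 2 + t * Θ) + 9 * (M ^ 2 * X))) =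
        g * (k ^ 4 * (9 / 2 * (t⁻¹ * Y ^ 2 + t * Θ))) + g * (k ^ 4 * (9 * (M ^ 2 * X))) := by ring
    rw [k5] at k1
    linarith
  unfold err
  linarith

end Vale.Agent.P146.H332.Er
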