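import Vale.Agent.P146.H332.Fe
import Vale.Agent.P146.H332.M0
import Vale.Agent.P146.H332.Touch

/-!
The global functionals: `Rg t = E_x |C_t|² / n²`, `Mg t = E_x |C_t|⁴ / n⁴`, with all couplings
active.
-/

open MeasureTheory ProbabilityTheory

namespace Vale.Agent.P146.H332

open Vale.Agent.P157.Lv Vale.Agent.P146.H425 Vale.Agent.P146.H325

set_option linter.unusedSectionVars false

section gen

variable {ι : Type} [Fintype ι] [DecidableEq ι] {X : Type} [Fintype X] [Nonempty X]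
variable (k : ℝ) (S : ι → X → ℝ) (x : ℝ) (A0 : Finset ι) (l : Lvl ι)

/-- the gradient of the density -/
noncomputable def DN : ι ⊕ ι → ℝ → (ι ⊕ ι → ℝ) → ℝ :=
  ext fun e => Nl k S x A0 l (one' k S x e)

lemma den_Nl (hx : 0 ≤ x) : Den (act A0) (Nl k S x A0 l fun _ => 1) (DN k S x A0 l) := by
  obtain ⟨c, d, hc, h⟩ := N1_lower k S x A0 hx l
  exact ⟨(ob_one k S x).kfN A0 l, c, d, hc, h⟩

variable {k S x} in
/-- conditional expectations are martingales -/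
lemma Ob.kx {F : (ι → ℝ) → ℝ} {F' : ι → (ι → ℝ) → ℝ} (hF : Ob k S x F F') (hx : 0 ≤ x) :
    KX (act A0) (Nl k S x A0 l fun _ => 1) (DN k S x A0 l) (rl k S x A0 l F)
      (ext fun e => Dl k S x A0 l F F' e) (fun _ _ => 0) := by
  refine (KX.ratio (den_Nl k S x A0 l hx) (hF.kfN A0 l)).congr (fun s w => ?_)
    (fun j hj s w => ?_) (fun s w => rfl)
  · unfold rl
    rw [div_eq_mul_inv]
  · obtain ⟨e, he, rfl⟩ := Finset.mem_map.1 hj
    have hN := (N1_pos k S x A0 l s w).ne'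
    simp only [DN, ext, Function.Embedding.inl_apply, Sum.elim_inl, Dl, th, rl]
    field_simp

variable {κ : Type} [Fintype κ] (h : κ → X → ℝ)

/-- the sum of the squares -/
noncomputable def QQ (s : ℝ) (w : ι ⊕ ι → ℝ) : ℝ := ∑ a, rl k S x A0 l (av k S (h a)) s w ^ 2

/-- the rate -/
noncomputable def QR (s : ℝ) (w : ι ⊕ ι → ℝ) : ℝ :=
  ∑ e ∈ A0, ∑ a, Dl k S x A0 l (av k S (h a)) (av' k S x (h a)) e s w ^ 2

lemma kx_QQ (hx : 0 ≤ x) : ∃ D, KX (act A0) (Nl k S x A0 l fun _ => 1) (DN k S x A0 l)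
    (QQ k S x A0 l h) D (QR k S x A0 l h) := by
  refine ⟨_, (KX.sum Finset.univ fun a _ => (Ob.kx A0 l (ob_av k S x (h a)) hx).sq).congr
    (fun s w => rfl) (fun e he s w => rfl) (fun s w => ?_)⟩
  unfold QR
  rw [Finset.sum_comm]
  refine Finset.sum_congr rfl fun a _ => ?_
  rw [Finset.sum_map]
  simp [ext]

lemma kx_QQ2 (hx : 0 ≤ x) : ∃ D L, KX (act A0) (Nl k S x A0 l fun _ => 1) (DN k S x A0 l)
    (fun s w => QQ k S x A0 l h s w ^ 2) D L ∧ ∀ s w, 0 ≤ L s w := by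
  obtain ⟨D, hD⟩ := kx_QQ k S x A0 l h hx
  refine ⟨_, _, hD.sq, fun s w => ?_⟩
  have h1 : 0 ≤ QQ k S x A0 l h s w := Finset.sum_nonneg fun _ _ => sq_nonneg _
  have h2 : 0 ≤ QR k S x A0 l h s w :=
    Finset.sum_nonneg fun _ _ => Finset.sum_nonneg fun _ _ => sq_nonneg _
  have h3 : 0 ≤ ∑ e ∈ act A0, D e s w ^ 2 := Finset.sum_nonneg fun _ _ => sq_nonneg _
  positivity

/-- the total mass -/
lemma int_Nl (s : ℝ) (hs : s ∈ Set.Icc (0 : ℝ) 1) :
    ∫ w, Nl k S x Finset.univ l (fun _ => 1) s w ∂(gI (ι ⊕ ι)) = ∫ z, Zx k S x z ∂(gI ι) := by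
  have h1 := (ob_one k S x).kfN Finset.univ l
  have h2 := KF.const_of_zero h1 hs.1 hs.2 le_rfl
  rw [← h2]
  have h3 : ∀ w : ι ⊕ ι → ℝ, Nl k S x Finset.univ l (fun _ => 1) 1 w =
      (fun y => Zx k S x y) (fun e => w (Sum.inl e)) := by
    intro w
    rw [Nl_univ]
    simp only [mul_one, Real.sqrt_one, one_smul, sub_self, Real.sqrt_zero, zero_smul, add_zero]
    simp
  simp only [h3]
  exact int_inl (eg_Zx k S x)

lemma Z0_pos : 0 < ∫ z, Zx k S x z ∂(gI ι) := by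
  rw [integral_pos_iff_support_of_nonneg (fun w => (Zx_pos k S x w).le)
    (eg_Zx k S x).integrable]
  have : (Function.support (Zx k S x)) = Set.univ :=
    Set.eq_univ_of_forall fun w => (Zx_pos k S x w).ne'
  rw [this, measure_univ]
  exact one_pos

/-- Jensen under the tilted law -/
lemma tilt_sq_le {Y : (ι ⊕ ι → ℝ) → ℝ} (hY : EG Y) {s : ℝ} (hs : s ∈ Set.Icc (0 : ℝ) 1) :
    ((∫ w, Nl k S x Finset.univ l (fun _ => 1) s w * Y w ∂(gI (ι ⊕ ι))) /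
        ∫ z, Zx k S x z ∂(gI ι)) ^ 2 ≤
      (∫ w, Nl k S x Finset.univ l (fun _ => 1) s w * Y w ^ 2 ∂(gI (ι ⊕ ι))) /
        ∫ z, Zx k S x z ∂(gI ι) := by
  set N := Nl k S x Finset.univ l (fun _ => 1) s with hN
  have hZ := Z0_pos k S x
  set Z0 := ∫ z, Zx k S x z ∂(gI ι) with hZ0
  have eN : EG N := eg_N Finset.univ l hs
  set A1 := ∫ w, N w * Y w ∂(gI (ι ⊕ ι)) with hA1
  set A2 := ∫ w, N w * Y w ^ 2 ∂(gI (ι ⊕ ι)) with hA2
  have h1 : 0 ≤ ∫ w, N w * (Y w - A1 / Z0) ^ 2 ∂(gI (ι ⊕ ι)) :=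
    integral_nonneg fun w => mul_nonneg (N1_pos k S x Finset.univ l s w).le (sq_nonneg _)
  have e1 : ∀ w, N w * (Y w - A1 / Z0) ^ 2 =
      N w * Y w ^ 2 - 2 * (A1 / Z0) * (N w * Y w) + (A1 / Z0) ^ 2 * N w := fun w => by ring
  simp only [e1] at h1
  have i1 : Integrable (fun w => N w * Y w ^ 2) (gI (ι ⊕ ι)) := (eN.mul (hY.pow 2)).integrable
  have i2 : Integrable (fun w => 2 * (A1 / Z0) * (N w * Y w)) (gI (ι ⊕ ι)) :=
    ((eN.mul hY).const_mul _).integrable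
  have i3 : Integrable (fun w => (A1 / Z0) ^ 2 * N w) (gI (ι ⊕ ι)) := (eN.const_mul _).integrable
  have i12 : Integrable (fun w => N w * Y w ^ 2 - 2 * (A1 / Z0) * (N w * Y w))
    (gI (ι ⊕ ι)) := i1.sub i2
  rw [integral_add i12 i3, integral_sub i1 i2, integral_const_mul, integral_const_mul,
    int_Nl k S x l s hs, ← hA1, ← hA2, ← hZ0] at h1
  have h2 : A2 - 2 * (A1 / Z0) * A1 + (A1 / Z0) ^ 2 * Z0 = A2 - A1 ^ 2 / Z0 := by
    field_simp
    ring
  rw [h2] at h1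
  rw [div_pow, div_le_div_iff₀ (by positivity) hZ]
  have h3 : A1 ^ 2 / Z0 ≤ A2 := by linarith
  rw [div_le_iff₀ hZ] at h3
  nlinarith

end gen

variable {n : ℕ} (k x : ℝ) (l : Lvl (Pair n))

/-- `|C|²` -/
noncomputable def Cg (t : ℝ) (w : Pair n ⊕ Pair n → ℝ) : ℝ :=
  ∑ i, ∑ j, rl k SkS x Finset.univ l (av k SkS (pr i j)) t w ^ 2

/-- the rate of `|C|²` -/
noncomputable def Cr (t : ℝ) (w : Pair n ⊕ Pair n → ℝ) : ℝ :=
  ∑ e : Pair n, ∑ i, ∑ j, Dl k SkS x Finset.univ l (av k SkS (pr i j))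
    (av' k SkS x (pr i j)) e t w ^ 2

/-- the total mass -/
noncomputable def Z0 (n : ℕ) (k x : ℝ) : ℝ := ∫ z, Zx k (SkS (n := n)) x z ∂(gI (Pair n))

/-- the tilted expectation at the time `t` -/
noncomputable def Et (t : ℝ) (Y : (Pair n ⊕ Pair n → ℝ) → ℝ) : ℝ :=
  (∫ w, Nl k SkS x Finset.univ l (fun _ => 1) t w * Y w ∂(gI (Pair n ⊕ Pair n))) / Z0 n k x

/-- `E_x |C_t|² / n²` -/
noncomputable def Rg (t : ℝ) : ℝ := Et k x l t (Cg k x l t) / (n : ℝ) ^ 2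

/-- the derivative of `Rg` -/
noncomputable def Rg1 (t : ℝ) : ℝ := Et k x l t (Cr k x l t) / (n : ℝ) ^ 2

/-- `E_x |C_t|⁴ / n⁴` -/
noncomputable def Mg (t : ℝ) : ℝ := Et k x l t (fun w => Cg k x l t w ^ 2) / (n : ℝ) ^ 4

lemma Cg_eq (t : ℝ) (w : Pair n ⊕ Pair n → ℝ) : Cg k x l t w =
    QQ k SkS x Finset.univ l (fun a : Fin n × Fin n => pr a.1 a.2) t w := by
  unfold Cg QQ
  rw [Fintype.sum_prod_type]

lemma Cr_eq (t : ℝ) (w : Pair n ⊕ Pair n → ℝ) : Cr k x l t w =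
    QR k SkS x Finset.univ l (fun a : Fin n × Fin n => pr a.1 a.2) t w := by
  unfold Cr QR
  simp only [Fintype.sum_prod_type]

lemma Z0p : 0 < Z0 n k x := Z0_pos k SkS x

lemma Cg_nonneg (t : ℝ) (w : Pair n ⊕ Pair n → ℝ) : 0 ≤ Cg k x l t w := by
  unfold Cg; positivity

lemma Cr_nonneg (t : ℝ) (w : Pair n ⊕ Pair n → ℝ) : 0 ≤ Cr k x l t w := by
  unfold Cr; positivity

lemma rl_pr_sq_le (A0 : Finset (Pair n)) (i j : Fin n) (t : ℝ) (w : Pair n ⊕ Pair n → ℝ) :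
    rl k SkS x A0 l (av k SkS (pr i j)) t w ^ 2 ≤ 1 := by
  rw [sq_le_one_iff_abs_le_one]
  exact abs_rl_le (eg_av k SkS _) fun u => abs_av_le k SkS (fun σ => (abs_pr i j σ).le) u

lemma Cg_le (t : ℝ) (w : Pair n ⊕ Pair n → ℝ) : Cg k x l t w ≤ (n : ℝ) ^ 2 := by
  unfold Cg
  calc _ ≤ ∑ _i : Fin n, ∑ _j : Fin n, (1 : ℝ) :=
        Finset.sum_le_sum fun i _ => Finset.sum_le_sum fun j _ => rl_pr_sq_le k x l _ i j t w
    _ = (n : ℝ) ^ 2 := by simp [sq]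

variable {k x}

lemma eg_Cg (hx : 0 ≤ x) {t : ℝ} (ht : t ∈ Set.Icc (0 : ℝ) 1) : EG (Cg k x l t) := by
  unfold Cg
  exact EG.sum _ fun i _ => EG.sum _ fun j _ =>
    (eg_rl Finset.univ l (ob_av k SkS x (pr i j)) hx ht).pow 2

lemma ge_Cr (hx : 0 ≤ x) : GE (Cr k x l) := by
  obtain ⟨D, hD⟩ := kx_QQ k SkS x Finset.univ l (fun a : Fin n × Fin n => pr a.1 a.2) hx
  exact (KX.gL (den_Nl k SkS x Finset.univ l hx) hD).congr fun s w => Cr_eq k x l s w

lemma eg_Cr (hx : 0 ≤ x) {t : ℝ} (ht : t ∈ Set.Icc (0 : ℝ) 1) : EG (Cr k x l t) :=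
  (ge_Cr l hx).eg ht

lemma Et_mono {t : ℝ} (ht : t ∈ Set.Icc (0 : ℝ) 1) {Y Y' : (Pair n ⊕ Pair n → ℝ) → ℝ}
    (hY : EG Y) (hY' : EG Y') (h : ∀ w, Y w ≤ Y' w) : Et k x l t Y ≤ Et k x l t Y' := by
  unfold Et
  refine div_le_div_of_nonneg_right ?_ (Z0p k x).le
  have eN : EG (Nl k SkS x Finset.univ l (fun _ => 1) t) := eg_N Finset.univ l ht
  refine integral_mono (eN.mul hY).integrable (eN.mul hY').integrable fun w => ?_
  exact mul_le_mul_of_nonneg_left (h w) (N1_pos k SkS x Finset.univ l t w).le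

lemma Et_const {t : ℝ} (ht : t ∈ Set.Icc (0 : ℝ) 1) (c : ℝ) :
    Et k x l t (fun _ => c) = c := by
  unfold Et
  rw [integral_mul_const, int_Nl k SkS x l t ht]
  exact mul_div_cancel_left₀ c (Z0p k x).ne'

lemma Et_nonneg {t : ℝ} {Y : (Pair n ⊕ Pair n → ℝ) → ℝ} (h : ∀ w, 0 ≤ Y w) :
    0 ≤ Et k x l t Y :=
  div_nonneg (integral_nonneg fun w =>
    mul_nonneg (N1_pos k SkS x Finset.univ l t w).le (h w)) (Z0p k x).le

lemma Et_const_mul (t c : ℝ) (Y : (Pair n ⊕ Pair n → ℝ) → ℝ) :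
    Et k x l t (fun w => c * Y w) = c * Et k x l t Y := by
  unfold Et
  rw [← mul_div_assoc, ← integral_const_mul]
  congr 2
  funext w
  ring

theorem Rg_nonneg (t : ℝ) : 0 ≤ Rg k x l t :=
  div_nonneg (Et_nonneg l fun w => Cg_nonneg k x l t w) (by positivity)

theorem Mg_nonneg (t : ℝ) : 0 ≤ Mg k x l t :=
  div_nonneg (Et_nonneg l fun w => sq_nonneg _) (by positivity)

theorem Rg1_nonneg (t : ℝ) : 0 ≤ Rg1 k x l t :=
  div_nonneg (Et_nonneg l fun w => Cr_nonneg k x l t w) (by positivity)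

theorem Rg_le_one (hx : 0 ≤ x) {t : ℝ} (ht : t ∈ Set.Icc (0 : ℝ) 1) : Rg k x l t ≤ 1 := by
  unfold Rg
  refine div_le_one_of_le₀ ?_ (by positivity)
  refine (Et_mono l ht (eg_Cg l hx ht) (EG.const _) fun w => Cg_le k x l t w).trans ?_
  rw [Et_const l ht]

theorem Mg_le_one (hx : 0 ≤ x) {t : ℝ} (ht : t ∈ Set.Icc (0 : ℝ) 1) : Mg k x l t ≤ 1 := by
  unfold Mg
  refine div_le_one_of_le₀ ?_ (by positivity)
  refine (Et_mono l ht ((eg_Cg l hx ht).pow 2) (EG.const ((n : ℝ) ^ 4)) fun w => ?_).trans ?_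
  · calc Cg k x l t w ^ 2 ≤ ((n : ℝ) ^ 2) ^ 2 :=
          pow_le_pow_left₀ (Cg_nonneg k x l t w) (Cg_le k x l t w) 2
      _ = (n : ℝ) ^ 4 := by ring
  · rw [Et_const l ht]

theorem Rg_sq_le (hx : 0 ≤ x) {t : ℝ} (ht : t ∈ Set.Icc (0 : ℝ) 1) :
    Rg k x l t ^ 2 ≤ Mg k x l t := by
  have h := tilt_sq_le k SkS x l (eg_Cg (k := k) l hx ht) ht
  unfold Rg Mg Et
  rw [div_pow, ← pow_mul]
  exact div_le_div_of_nonneg_right h (by positivity)

theorem Rg_cont (hx : 0 ≤ x) : ContinuousOn (Rg k x l) (Set.Icc 0 1) := by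
  obtain ⟨D, hD⟩ := kx_QQ k SkS x Finset.univ l (fun a : Fin n × Fin n => pr a.1 a.2) hx
  have h := KX.cont (den_Nl k SkS x Finset.univ l hx) hD
  unfold Rg Et
  simp only [Cg_eq]
  exact (h.div_const _).div_const _

theorem Rg_deriv (hx : 0 ≤ x) {t : ℝ} (ht : t ∈ Set.Ioo (0 : ℝ) 1) :
    HasDerivAt (Rg k x l) (Rg1 k x l t) t := by
  obtain ⟨D, hD⟩ := kx_QQ k SkS x Finset.univ l (fun a : Fin n × Fin n => pr a.1 a.2) hx
  have h := KX.deriv (den_Nl k SkS x Finset.univ l hx) hD ht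
  have h2 := (h.div_const (Z0 n k x)).div_const ((n : ℝ) ^ 2)
  have e1 : Rg k x l = fun s => (∫ w, Nl k SkS x Finset.univ l (fun _ => 1) s w *
      QQ k SkS x Finset.univ l (fun a : Fin n × Fin n => pr a.1 a.2) s w
        ∂(gI (Pair n ⊕ Pair n))) / Z0 n k x / (n : ℝ) ^ 2 := by
    funext s
    unfold Rg Et
    simp only [Cg_eq]
  have e2 : Rg1 k x l t = (∫ w, Nl k SkS x Finset.univ l (fun _ => 1) t w *
      QR k SkS x Finset.univ l (fun a : Fin n × Fin n => pr a.1 a.2) t w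
        ∂(gI (Pair n ⊕ Pair n))) / Z0 n k x / (n : ℝ) ^ 2 := by
    unfold Rg1 Et
    simp only [Cr_eq]
  rw [e1, e2]
  exact h2

theorem Rg_mono (hx : 0 ≤ x) : MonotoneOn (Rg k x l) (Set.Icc 0 1) := by
  obtain ⟨D, hD⟩ := kx_QQ k SkS x Finset.univ l (fun a : Fin n × Fin n => pr a.1 a.2) hx
  intro a ha b hb hab
  have h := KX.ftc (den_Nl k SkS x Finset.univ l hx) hD ha.1 hab hb.2
  have h1 : 0 ≤ ∫ s in a..b, (∫ w, Nl k SkS x Finset.univ l (fun _ => 1) s w *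
      QR k SkS x Finset.univ l (fun a : Fin n × Fin n => pr a.1 a.2) s w
        ∂(gI (Pair n ⊕ Pair n))) :=
    intervalIntegral.integral_nonneg hab fun s hs => integral_nonneg fun w =>
      mul_nonneg (N1_pos k SkS x Finset.univ l s w).le
        (Finset.sum_nonneg fun _ _ => Finset.sum_nonneg fun _ _ => sq_nonneg _)
  unfold Rg Et
  simp only [Cg_eq]
  refine div_le_div_of_nonneg_right (div_le_div_of_nonneg_right ?_ (Z0p k x).le) (by positivity)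
  linarith

theorem Mg_mono (hx : 0 ≤ x) : MonotoneOn (Mg k x l) (Set.Icc 0 1) := by
  obtain ⟨D, L, hD, hL⟩ := kx_QQ2 k SkS x Finset.univ l
    (fun a : Fin n × Fin n => pr a.1 a.2) hx
  intro a ha b hb hab
  have h := KX.ftc (den_Nl k SkS x Finset.univ l hx) hD ha.1 hab hb.2
  have h1 : 0 ≤ ∫ s in a..b, (∫ w, Nl k SkS x Finset.univ l (fun _ => 1) s w * L s w
        ∂(gI (Pair n ⊕ Pair n))) :=
    intervalIntegral.integral_nonneg hab fun s hs => integral_nonneg fun w =>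
      mul_nonneg (N1_pos k SkS x Finset.univ l s w).le (hL s w)
  unfold Mg Et
  simp only [Cg_eq]
  refine div_le_div_of_nonneg_right (div_le_div_of_nonneg_right ?_ (Z0p k x).le) (by positivity)
  linarith

/-- `tr C⁴` -/
noncomputable def C4 (k x : ℝ) (l : Lvl (Pair n)) (t : ℝ) (w : Pair n ⊕ Pair n → ℝ) : ℝ :=
  ∑ i, ∑ j, (∑ p, rl k SkS x Finset.univ l (av k SkS (pr i p)) t w *
        rl k SkS x Finset.univ l (av k SkS (pr p j)) t w) ^ 2

lemma eg_C4 (hx : 0 ≤ x) {t : ℝ} (ht : t ∈ Set.Icc (0 : ℝ) 1) : EG (C4 k x l t) := by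
  have h : ∀ i j, EG (rl k SkS x Finset.univ l (av k SkS (pr i j)) t) := fun i j =>
    eg_rl Finset.univ l (ob_av k SkS x (pr i j)) hx ht
  unfold C4
  exact EG.sum _ fun i _ => EG.sum _ fun j _ => (EG.sum _ fun p _ => (h i p).mul (h p j)).pow 2

/-- **(M0), integrated.** -/
theorem rank_one (hk : k ≠ 0) (hx : 0 < x) (hx1 : x ≤ 1) {t : ℝ} (ht : t ∈ Set.Icc (0 : ℝ) 1) :
    Et k x l t (fun w => Cg k x l t w ^ 2 - C4 k x l t w) / (n : ℝ) ^ 4 ≤
      4 / (k ^ 2 * x ^ 2 * (n : ℝ) ^ 2) * Rg1 k x l t := by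
  rcases Nat.eq_zero_or_pos n with rfl | hn
  · simp
  have hn' : (0 : ℝ) < n := Nat.cast_pos.2 hn
  have hk2 : 0 < k ^ 2 * x ^ 2 := by positivity
  have pw : ∀ w, Cg k x l t w ^ 2 - C4 k x l t w ≤ 4 / (k ^ 2 * x ^ 2) * Cr k x l t w := by
    intro w
    have h1 := swap_pairs k x l t w
    have h2 := kov_pairs k x l t w hx.le hx1
    unfold Cg C4 Cr
    refine h1.trans ?_
    rw [div_mul_eq_mul_div, le_div_iff₀ hk2]
    linarith
  have h3 := Et_mono (k := k) (x := x) l ht (((eg_Cg l hx.le ht).pow 2).sub (eg_C4 l hx.le ht))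
    ((eg_Cr l hx.le ht).const_mul _) pw
  rw [Et_const_mul] at h3
  calc _ ≤ (4 / (k ^ 2 * x ^ 2) * Et k x l t (Cr k x l t)) / (n : ℝ) ^ 4 :=
        div_le_div_of_nonneg_right h3 (by positivity)
    _ = _ := by
        unfold Rg1
        field_simp

lemma sum_edges (k x : ℝ) (A0 : Finset (Pair n)) (l : Lvl (Pair n)) (t : ℝ)
    (w : Pair n ⊕ Pair n → ℝ) :
    2 * ∑ e : Pair n, rl k SkS x A0 l (av k SkS (SkS e)) t w ^ 2 =
      (∑ i, ∑ j, rl k SkS x A0 l (av k SkS (pr i j)) t w ^ 2) - n := by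
  set C : Fin n → Fin n → ℝ := fun i j => rl k SkS x A0 l (av k SkS (pr i j)) t w with hC
  have hd : ∀ p, C p p = 1 := by
    intro p
    simp only [hC]; rw [pr_self p]
    have : av k SkS (fun _ : Fin n → ℤˣ => (1 : ℝ)) = fun _ => 1 := by
      funext u; exact av_one k SkS u
    rw [this]
    exact rl_one
  have hs : ∀ p q, C p q = C q p := by
    intro p q
    simp only [hC]; rw [pr_comm p q]
  have h := sum_pairs (fun p q => C p q ^ 2 - if p = q then 1 else 0)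
    (fun p q => by simp only [hs p q, eq_comm]) (fun p => by simp [hd])
  have h2 : ∀ e : Pair n, C e.1.1 e.1.2 ^ 2 - (if e.1.1 = e.1.2 then (1 : ℝ) else 0) =
      rl k SkS x A0 l (av k SkS (SkS e)) t w ^ 2 := by
    intro e
    have : e.1.1 ≠ e.1.2 := e.2.ne
    rw [if_neg this, sub_zero]
    rfl
  simp only [h2] at h
  rw [← h]
  simp only [Finset.sum_sub_distrib, Finset.sum_ite_eq, Finset.mem_univ, if_true]
  simp [hC]

/-- the free energy -/
lemma freeEnergy_eq {n : ℕ} (β : ℝ) (g : Pair n → ℝ) :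
    freeEnergy n β g = lz (β / √n) SkS g := by
  unfold freeEnergy lz partitionFn Zp ez hamiltonian SkS sp
  congr 1
  refine Finset.sum_congr rfl fun σ _ => ?_
  congr 1
  have : ∑ p : Pair n, g p * ((σ p.1.1 : ℤ) : ℝ) * ((σ p.1.2 : ℤ) : ℝ) =
      ∑ e : Pair n, ((σ e.1.1 : ℤ) : ℝ) * ((σ e.1.2 : ℤ) : ℝ) * g e :=
    Finset.sum_congr rfl fun e _ => by ring
  rw [this]
  ring

/-- **The variance bound.** -/
theorem var_le_Rg (hn : 0 < n) {β : ℝ} (hx : 0 < x) (l : Lvl (Pair n)) :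
    Var[freeEnergy n β; disorder n] ≤
      β ^ 2 * n / 2 * ∫ t in (0 : ℝ)..1, (Rg (β / √n) x l t - 1 / n) := by
  set k := β / √n with hk
  have hn' : (0 : ℝ) < n := Nat.cast_pos.2 hn
  have hk2 : k ^ 2 = β ^ 2 / n := by rw [hk, div_pow, Real.sq_sqrt hn'.le]
  have hd : disorder n = gI (Pair n) := rfl
  have hf : freeEnergy n β = lz k (SkS (n := n)) := by
    funext g
    exact freeEnergy_eq β g
  have hv : Var[freeEnergy n β; disorder n] =
      ∫ z, (lz k SkS z - ∫ z', lz k SkS z' ∂(gI (Pair n))) ^ 2 ∂(gI (Pair n)) := by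
    rw [hd, hf, variance_eq_integral ((c11_lz k SkS).lip.lip (c11_lz k SkS).B0).eg.meas.aemeasurable]
  rw [hv]
  refine (var_le_rl k SkS l hx).trans (le_of_eq ?_)
  rw [← intervalIntegral.integral_const_mul]
  refine intervalIntegral.integral_congr fun t ht => ?_
  rw [Set.uIcc_of_le zero_le_one] at ht
  have eN : EG (Nl k SkS x Finset.univ l (fun _ => 1) t) := eg_N Finset.univ l ht
  have e1 : ∀ w, Nl k SkS x Finset.univ l (fun _ => 1) t w *
      ∑ e : Pair n, (k * rl k SkS x Finset.univ l (av k SkS (SkS e)) t w) ^ 2 =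
      k ^ 2 / 2 * (Nl k SkS x Finset.univ l (fun _ => 1) t w * Cg k x l t w) -
        k ^ 2 / 2 * n * Nl k SkS x Finset.univ l (fun _ => 1) t w := by
    intro w
    have h := sum_edges k x Finset.univ l t w
    have e2 : ∑ e : Pair n, (k * rl k SkS x Finset.univ l (av k SkS (SkS e)) t w) ^ 2 =
        k ^ 2 / 2 * (Cg k x l t w - n) := by
      unfold Cg
      rw [← h]
      simp only [mul_pow, ← Finset.mul_sum]
      ring
    rw [e2]
    ring
  simp only [e1]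
  rw [integral_sub ((eN.mul (eg_Cg l hx.le ht)).const_mul _).integrable
    (eN.const_mul _).integrable, integral_const_mul, integral_const_mul,
    int_Nl k SkS x l t ht]
  have hZ := Z0p (n := n) k x
  unfold Rg Et
  have hZd : ∫ z, Zx k (SkS (n := n)) x z ∂(gI (Pair n)) = Z0 n k x := rfl
  rw [hZd, hk2]
  field_simp

end Vale.Agent.P146.H332
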