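import Vale.Agent.P146.Bdl.B2

/-!
Heat calculus, interface for P146. `KF A f D L`: `f s w` is a smooth function of the share `s` and of
the Gaussian coordinates `w`; the active coordinates `e ∈ A` enter through `u e = √s * w e`;
`D e` is the derivative in `u e` and `L = (∂_s + (1/2) ∑_{e ∈ A} ∂²_{u e}) f`. Then
`d/ds E f = E L`, and `L (f g) = f L g + g L f + ∑ D f D g`.
-/

open MeasureTheory ProbabilityTheory Filter Topology

namespace Vale.Agent.P146.H332

open Vale.Agent.P157.Lv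

set_option linter.unusedSectionVars false

variable {J : Type} [Fintype J] [DecidableEq J]

/-- Exponential growth, uniformly in the share, and continuity in the share. -/
structure GE (f : ℝ → (J → ℝ) → ℝ) : Prop where
  meas : ∀ s ∈ Set.Icc (0 : ℝ) 1, Measurable (f s)
  bdd : ∃ C a : ℝ, 0 ≤ C ∧ 0 ≤ a ∧ ∀ s ∈ Set.Icc (0 : ℝ) 1, ∀ w, |f s w| ≤ C * Real.exp (a * ‖w‖)
  cont : ∀ w, ContinuousOn (fun s => f s w) (Set.Icc 0 1)

namespace GE

variable {f g : ℝ → (J → ℝ) → ℝ}

lemma eg (hf : GE f) {s : ℝ} (hs : s ∈ Set.Icc (0 : ℝ) 1) : EG (f s) := by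
  obtain ⟨C, a, hC, ha, h⟩ := hf.bdd
  exact ⟨hf.meas s hs, C, a, hC, ha, h s hs⟩

lemma const (c : ℝ) : GE (fun (_ : ℝ) (_ : J → ℝ) => c) :=
  ⟨fun _ _ => measurable_const, ⟨|c|, 0, abs_nonneg _, le_rfl, fun s _ y => by simp⟩,
    fun _ => continuousOn_const⟩

/-- Functions of the coordinates only. -/
lemma of_eg {Y : (J → ℝ) → ℝ} (h : EG Y) : GE (fun _ => Y) := by
  obtain ⟨C, a, hC, ha, h1⟩ := h.bdd
  exact ⟨fun _ _ => h.meas, ⟨C, a, hC, ha, fun s _ y => h1 y⟩, fun _ => continuousOn_const⟩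

lemma add (hf : GE f) (hg : GE g) : GE (fun s w => f s w + g s w) := by
  refine ⟨fun s hs => (hf.meas s hs).add (hg.meas s hs), ?_, fun w => (hf.cont w).add (hg.cont w)⟩
  obtain ⟨C, a, hC, ha, h1⟩ := hf.bdd
  obtain ⟨D, b, hD, hb, h2⟩ := hg.bdd
  refine ⟨C + D, max a b, by positivity, by positivity, fun s hs y => ?_⟩
  have e1 : Real.exp (a * ‖y‖) ≤ Real.exp (max a b * ‖y‖) :=
    Real.exp_le_exp.2 (mul_le_mul_of_nonneg_right (le_max_left _ _) (norm_nonneg _))
  have e2 : Real.exp (b * ‖y‖) ≤ Real.exp (max a b * ‖y‖) :=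
    Real.exp_le_exp.2 (mul_le_mul_of_nonneg_right (le_max_right _ _) (norm_nonneg _))
  calc |f s y + g s y| ≤ |f s y| + |g s y| := abs_add_le _ _
    _ ≤ C * Real.exp (a * ‖y‖) + D * Real.exp (b * ‖y‖) := add_le_add (h1 s hs y) (h2 s hs y)
    _ ≤ C * Real.exp (max a b * ‖y‖) + D * Real.exp (max a b * ‖y‖) := by gcongr
    _ = _ := by ring

lemma mul (hf : GE f) (hg : GE g) : GE (fun s w => f s w * g s w) := by
  refine ⟨fun s hs => (hf.meas s hs).mul (hg.meas s hs), ?_, fun w => (hf.cont w).mul (hg.cont w)⟩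
  obtain ⟨C, a, hC, ha, h1⟩ := hf.bdd
  obtain ⟨D, b, hD, hb, h2⟩ := hg.bdd
  refine ⟨C * D, a + b, by positivity, by positivity, fun s hs y => ?_⟩
  calc |f s y * g s y| = |f s y| * |g s y| := abs_mul _ _
    _ ≤ (C * Real.exp (a * ‖y‖)) * (D * Real.exp (b * ‖y‖)) := by
        gcongr
        · exact h1 s hs y
        · exact h2 s hs y
    _ = C * D * Real.exp ((a + b) * ‖y‖) := by rw [add_mul, Real.exp_add]; ring

lemma const_mul (c : ℝ) (hf : GE f) : GE (fun s w => c * f s w) := (GE.const c).mul hf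

lemma neg (hf : GE f) : GE (fun s w => -f s w) := by simpa using hf.const_mul (-1)

lemma sub (hf : GE f) (hg : GE g) : GE (fun s w => f s w - g s w) := by
  simpa [sub_eq_add_neg] using hf.add hg.neg

lemma pow (hf : GE f) (n : ℕ) : GE (fun s w => f s w ^ n) := by
  induction n with
  | zero => simpa using GE.const (J := J) 1
  | succ n ih => simpa [pow_succ] using ih.mul hf

lemma sum {K : Type*} (S : Finset K) {f : K → ℝ → (J → ℝ) → ℝ} (hf : ∀ i ∈ S, GE (f i)) :
    GE (fun s w => ∑ i ∈ S, f i s w) := by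
  classical
  induction S using Finset.induction_on with
  | empty => simpa using GE.const (J := J) 0
  | insert a S ha ih =>
    simp only [Finset.sum_insert ha]
    exact (hf a (Finset.mem_insert_self a S)).add
      (ih fun i hi => hf i (Finset.mem_insert_of_mem hi))

lemma congr (hf : GE f) (h : ∀ s w, g s w = f s w) : GE g := by
  have : g = f := by funext s w; exact h s w
  rw [this]; exact hf

lemma congrOn (hf : GE f) (h : ∀ s ∈ Set.Icc (0 : ℝ) 1, ∀ w, g s w = f s w) : GE g := by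
  refine ⟨fun s hs => ?_, ?_, fun w => (hf.cont w).congr fun s hs => h s hs w⟩
  · have : g s = f s := by funext w; exact h s hs w
    rw [this]; exact hf.meas s hs
  · obtain ⟨C, a, hC, ha, h1⟩ := hf.bdd
    exact ⟨C, a, hC, ha, fun s hs w => by rw [h s hs w]; exact h1 s hs w⟩

/-- Inverses of functions with an exponential lower bound. -/
lemma inv (hf : GE f) {c a : ℝ} (hc : 0 < c)
    (h : ∀ s ∈ Set.Icc (0 : ℝ) 1, ∀ w, c * Real.exp (-(a * ‖w‖)) ≤ f s w) :
    GE (fun s w => (f s w)⁻¹) := by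
  have hpos : ∀ s ∈ Set.Icc (0 : ℝ) 1, ∀ w, 0 < f s w := fun s hs w =>
    (mul_pos hc (Real.exp_pos _)).trans_le (h s hs w)
  refine ⟨fun s hs => (hf.meas s hs).inv, ⟨c⁻¹, max a 0, by positivity, le_max_right _ _,
    fun s hs w => ?_⟩, fun w => (hf.cont w).inv₀ fun s hs => (hpos s hs w).ne'⟩
  rw [abs_of_pos (inv_pos.2 (hpos s hs w))]
  have h1 : (f s w)⁻¹ ≤ (c * Real.exp (-(a * ‖w‖)))⁻¹ :=
    inv_anti₀ (mul_pos hc (Real.exp_pos _)) (h s hs w)
  refine h1.trans ?_
  rw [mul_inv, ← Real.exp_neg, neg_neg]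
  gcongr
  exact le_max_left _ _

end GE

/-- Smooth functions of the share and of the Gaussian coordinates. -/
structure KF (A : Finset J) (f : ℝ → (J → ℝ) → ℝ) (D : J → ℝ → (J → ℝ) → ℝ)
    (L : ℝ → (J → ℝ) → ℝ) : Prop where
  gf : GE f
  gL : GE L
  gD : ∀ e ∈ A, GE (D e)
  ex : ∃ D2 : J → ℝ → (J → ℝ) → ℝ, (∀ e ∈ A, GE (D2 e)) ∧
    (∀ s ∈ Set.Icc (0 : ℝ) 1, ∀ e ∈ A, PD e (f s) (fun w => √s * D e s w)) ∧
    (∀ s ∈ Set.Icc (0 : ℝ) 1, ∀ e ∈ A, PD e (D e s) (fun w => √s * D2 e s w)) ∧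
    ∀ s ∈ Set.Ioo (0 : ℝ) 1, ∀ w, HasDerivAt (fun s => f s w)
      (L s w + 1 / 2 * ∑ e ∈ A, (w e / √s * D e s w - D2 e s w)) s

namespace KF

variable {A : Finset J} {f g : ℝ → (J → ℝ) → ℝ} {D D' : J → ℝ → (J → ℝ) → ℝ}
  {L L' : ℝ → (J → ℝ) → ℝ}

/-- Weights: functions of the inactive coordinates. -/
lemma weight {Y : (J → ℝ) → ℝ} (hY : EG Y) (hd : ∀ e ∈ A, ∀ y t, Y (Function.update y e t) = Y y) :
    KF A (fun _ => Y) (fun _ _ _ => 0) (fun _ _ => 0) := by
  refine ⟨GE.of_eg hY, GE.const 0, fun e _ => GE.const 0, fun _ _ _ => 0, fun e _ => GE.const 0,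
    fun s _ e he => ?_, fun s _ e he => ?_, fun s _ w => ?_⟩
  · simpa using PD.of_indep (hd e he)
  · simpa using PD.const (e := e) (0 : ℝ)
  · simpa using hasDerivAt_const s (Y w)

lemma const (c : ℝ) : KF A (fun _ _ => c) (fun _ _ _ => 0) (fun _ _ => 0) :=
  weight (EG.const c) fun _ _ _ _ => rfl

lemma add (hf : KF A f D L) (hg : KF A g D' L') :
    KF A (fun s w => f s w + g s w) (fun e s w => D e s w + D' e s w)
      (fun s w => L s w + L' s w) := by
  obtain ⟨D2, h1, h2, h3, h4⟩ := hf.ex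
  obtain ⟨D2', h1', h2', h3', h4'⟩ := hg.ex
  refine ⟨hf.gf.add hg.gf, hf.gL.add hg.gL, fun e he => (hf.gD e he).add (hg.gD e he),
    fun e s w => D2 e s w + D2' e s w, fun e he => (h1 e he).add (h1' e he),
    fun s hs e he => ?_, fun s hs e he => ?_, fun s hs w => ?_⟩
  · exact ((h2 s hs e he).add (h2' s hs e he)).congr fun y => by ring
  · exact ((h3 s hs e he).add (h3' s hs e he)).congr fun y => by ring
  · refine ((h4 s hs w).add (h4' s hs w)).congr_deriv ?_
    have : ∑ e ∈ A, (w e / √s * (D e s w + D' e s w) - (D2 e s w + D2' e s w)) =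
        ∑ e ∈ A, (w e / √s * D e s w - D2 e s w) + ∑ e ∈ A, (w e / √s * D' e s w - D2' e s w) := by
      rw [← Finset.sum_add_distrib]
      exact Finset.sum_congr rfl fun e _ => by ring
    rw [this]; ring

lemma mul (hf : KF A f D L) (hg : KF A g D' L') :
    KF A (fun s w => f s w * g s w) (fun e s w => f s w * D' e s w + g s w * D e s w)
      (fun s w => f s w * L' s w + g s w * L s w + ∑ e ∈ A, D e s w * D' e s w) := by
  obtain ⟨D2, h1, h2, h3, h4⟩ := hf.ex
  obtain ⟨D2', h1', h2', h3', h4'⟩ := hg.ex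
  refine ⟨hf.gf.mul hg.gf, ((hf.gf.mul hg.gL).add (hg.gf.mul hf.gL)).add
    (GE.sum A fun e he => (hf.gD e he).mul (hg.gD e he)),
    fun e he => (hf.gf.mul (hg.gD e he)).add (hg.gf.mul (hf.gD e he)),
    fun e s w => f s w * D2' e s w + g s w * D2 e s w + 2 * (D e s w * D' e s w),
    fun e he => ((hf.gf.mul (h1' e he)).add (hg.gf.mul (h1 e he))).add
      (((hf.gD e he).mul (hg.gD e he)).const_mul 2),
    fun s hs e he => ?_, fun s hs e he => ?_, fun s hs w => ?_⟩
  · exact ((h2 s hs e he).mul (h2' s hs e he)).congr fun y => by ring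
  · exact (((h2 s hs e he).mul (h3' s hs e he)).add ((h2' s hs e he).mul (h3 s hs e he))).congr
      fun y => by ring
  · refine ((h4 s hs w).mul (h4' s hs w)).congr_deriv ?_
    have : ∑ e ∈ A, (w e / √s * (f s w * D' e s w + g s w * D e s w) -
        (f s w * D2' e s w + g s w * D2 e s w + 2 * (D e s w * D' e s w))) =
        f s w * ∑ e ∈ A, (w e / √s * D' e s w - D2' e s w) +
        g s w * ∑ e ∈ A, (w e / √s * D e s w - D2 e s w) - 2 * ∑ e ∈ A, D e s w * D' e s w := by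
      simp only [Finset.mul_sum, ← Finset.sum_add_distrib, ← Finset.sum_sub_distrib]
      exact Finset.sum_congr rfl fun e _ => by ring
    rw [this]; ring

/-- Replace the derivatives and the generator by equal functions. -/
lemma congr {f' : ℝ → (J → ℝ) → ℝ} (hf : KF A f D L) (h0 : ∀ s w, f' s w = f s w)
    (h1 : ∀ e ∈ A, ∀ s w, D' e s w = D e s w) (h2 : ∀ s w, L' s w = L s w) : KF A f' D' L' := by
  have e0 : f' = f := by funext s w; exact h0 s w
  have e2 : L' = L := by funext s w; exact h2 s w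
  have e1 : ∀ e ∈ A, D' e = D e := fun e he => by funext s w; exact h1 e he s w
  subst e0 e2
  obtain ⟨D2, a1, a2, a3, a4⟩ := hf.ex
  refine ⟨hf.gf, hf.gL, fun e he => by rw [e1 e he]; exact hf.gD e he, D2, a1,
    fun s hs e he => by rw [e1 e he]; exact a2 s hs e he,
    fun s hs e he => by rw [e1 e he]; exact a3 s hs e he, fun s hs w => ?_⟩
  refine (a4 s hs w).congr_deriv ?_
  congr 2
  exact Finset.sum_congr rfl fun e he => by rw [e1 e he]

lemma const_mul (c : ℝ) (hf : KF A f D L) :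
    KF A (fun s w => c * f s w) (fun e s w => c * D e s w) (fun s w => c * L s w) :=
  ((const c).mul hf).congr (fun _ _ => rfl) (fun e _ s w => by ring) fun s w => by simp

lemma neg (hf : KF A f D L) :
    KF A (fun s w => -f s w) (fun e s w => -D e s w) (fun s w => -L s w) :=
  (hf.const_mul (-1)).congr (fun s w => by ring) (fun e _ s w => by ring) fun s w => by ring

lemma sub (hf : KF A f D L) (hg : KF A g D' L') :
    KF A (fun s w => f s w - g s w) (fun e s w => D e s w - D' e s w)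
      (fun s w => L s w - L' s w) :=
  (hf.add hg.neg).congr (fun s w => by ring) (fun e _ s w => by ring) fun s w => by ring

lemma sum {K : Type*} (S : Finset K) {f : K → ℝ → (J → ℝ) → ℝ} {D : K → J → ℝ → (J → ℝ) → ℝ}
    {L : K → ℝ → (J → ℝ) → ℝ} (hf : ∀ i ∈ S, KF A (f i) (D i) (L i)) :
    KF A (fun s w => ∑ i ∈ S, f i s w) (fun e s w => ∑ i ∈ S, D i e s w)
      (fun s w => ∑ i ∈ S, L i s w) := by
  classical
  induction S using Finset.induction_on with
  | empty => simpa using const (A := A) 0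
  | insert a S ha ih =>
    simp only [Finset.sum_insert ha]
    exact (hf a (Finset.mem_insert_self a S)).add
      (ih fun i hi => hf i (Finset.mem_insert_of_mem hi))

lemma sq (hf : KF A f D L) : KF A (fun s w => f s w ^ 2) (fun e s w => 2 * f s w * D e s w)
    (fun s w => 2 * f s w * L s w + ∑ e ∈ A, D e s w ^ 2) :=
  (hf.mul hf).congr (fun s w => by ring) (fun e _ s w => by ring) fun s w => by
    have : ∑ e ∈ A, D e s w ^ 2 = ∑ e ∈ A, D e s w * D e s w :=
      Finset.sum_congr rfl fun e _ => by ring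
    rw [this]; ring

/-- Inverses. -/
lemma inv (hf : KF A f D L) {c a : ℝ} (hc : 0 < c)
    (h : ∀ s ∈ Set.Icc (0 : ℝ) 1, ∀ w, c * Real.exp (-(a * ‖w‖)) ≤ f s w) :
    KF A (fun s w => (f s w)⁻¹) (fun e s w => -D e s w / f s w ^ 2)
      (fun s w => -L s w / f s w ^ 2 + ∑ e ∈ A, D e s w ^ 2 / f s w ^ 3) := by
  have hpos : ∀ s ∈ Set.Icc (0 : ℝ) 1, ∀ w, 0 < f s w := fun s hs w =>
    (mul_pos hc (Real.exp_pos _)).trans_le (h s hs w)
  have hi := hf.gf.inv hc h
  obtain ⟨D2, h1, h2, h3, h4⟩ := hf.ex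
  refine ⟨hi, ?_, fun e he => ?_, fun e s w => -D2 e s w / f s w ^ 2 + 2 * D e s w ^ 2 / f s w ^ 3,
    fun e he => ?_, fun s hs e he => ?_, fun s hs e he => ?_, fun s hs w => ?_⟩
  · refine (((hf.gL.neg.mul hi).mul hi).add
      (GE.sum A fun e he => (((hf.gD e he).pow 2).mul (hi.pow 3)))).congr fun s w => ?_
    congr 1
    · rw [div_eq_mul_inv, ← inv_pow]; ring
    · exact Finset.sum_congr rfl fun e _ => by rw [div_eq_mul_inv, ← inv_pow]
  · exact (((hf.gD e he).neg.mul hi).mul hi).congr fun s w => by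
      rw [div_eq_mul_inv, ← inv_pow]; ring
  · exact ((((h1 e he).neg.mul hi).mul hi).add
      ((((hf.gD e he).pow 2).mul (hi.pow 3)).const_mul 2)).congr fun s w => by
      show -D2 e s w / f s w ^ 2 + 2 * D e s w ^ 2 / f s w ^ 3 = _
      rw [div_eq_mul_inv, ← inv_pow, div_eq_mul_inv, ← inv_pow]; ring
  · have : PD e (fun w => (f s w)⁻¹) (fun w => -(√s * D e s w) / f s w ^ 2) := fun y x =>
      (h2 s hs e he y x).fun_inv (hpos s hs _).ne'
    exact this.congr fun y => by ring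
  · have hsq : PD e (fun w => f s w ^ 2) (fun w => 2 * f s w * (√s * D e s w)) := by
      intro y x
      have h3 := (h2 s hs e he y x).fun_pow 2
      simpa [mul_comm, mul_assoc, mul_left_comm] using h3
    have hn : PD e (fun w => -D e s w) (fun w => -(√s * D2 e s w)) := fun y x =>
      (h3 s hs e he y x).neg
    refine (hn.div hsq fun y => pow_ne_zero 2 (hpos s hs y).ne').congr fun y => ?_
    have := (hpos s hs y).ne'
    field_simp
    ring
  · have hs' := Set.Ioo_subset_Icc_self hs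
    have h0 := (hpos s hs' w).ne'
    refine ((h4 s hs w).inv h0).congr_deriv ?_
    have e1 : ∑ e ∈ A, (w e / √s * (-D e s w / f s w ^ 2) -
        (-D2 e s w / f s w ^ 2 + 2 * D e s w ^ 2 / f s w ^ 3)) =
        -(∑ e ∈ A, (w e / √s * D e s w - D2 e s w)) / f s w ^ 2 -
          2 * ∑ e ∈ A, D e s w ^ 2 / f s w ^ 3 := by
      rw [← Finset.sum_neg_distrib, Finset.sum_div, Finset.mul_sum, ← Finset.sum_sub_distrib]
      exact Finset.sum_congr rfl fun e _ => by ring
    rw [e1]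
    ring

lemma ge_pd1 (hf : KF A f D L) {s : ℝ} (hs : s ∈ Set.Icc (0 : ℝ) 1) {e : J} (he : e ∈ A) :
    PD e (f s) (fun w => √s * D e s w) := by
  obtain ⟨D2, h1, h2, h3, h4⟩ := hf.ex
  exact h2 s hs e he

/-- **The heat formula.** -/
theorem deriv (hf : KF A f D L) {s : ℝ} (hs : s ∈ Set.Ioo (0 : ℝ) 1) :
    HasDerivAt (fun s => ∫ w, f s w ∂(gI J)) (∫ w, L s w ∂(gI J)) s := by
  obtain ⟨D2, h1, h2, h3, h4⟩ := hf.ex
  have hsI : s ∈ Set.Icc (0 : ℝ) 1 := Set.Ioo_subset_Icc_self hs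
  have hs0 : 0 < s := hs.1
  obtain ⟨C, a, hC, ha, hL⟩ := hf.gL.bdd
  obtain ⟨C1, a1, hC1, ha1, hD⟩ : ∃ C a : ℝ, 0 ≤ C ∧ 0 ≤ a ∧
      ∀ s ∈ Set.Icc (0 : ℝ) 1, ∀ w, ∑ e ∈ A, |D e s w| ≤ C * Real.exp (a * ‖w‖) := by
    have : ∀ e ∈ A, ∃ C a : ℝ, 0 ≤ C ∧ 0 ≤ a ∧
        ∀ s ∈ Set.Icc (0 : ℝ) 1, ∀ w, |D e s w| ≤ C * Real.exp (a * ‖w‖) :=
      fun e he => (hf.gD e he).bdd
    choose! C a hC ha h using this
    refine ⟨∑ e ∈ A, C e, ∑ e ∈ A, a e, Finset.sum_nonneg hC, Finset.sum_nonneg ha,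
      fun s hs w => ?_⟩
    rw [Finset.sum_mul]
    refine Finset.sum_le_sum fun e he => (h e he s hs w).trans ?_
    have : a e ≤ ∑ e ∈ A, a e := Finset.single_le_sum ha he
    have := hC e he
    gcongr
  obtain ⟨C2, a2, hC2, ha2, hD2⟩ : ∃ C a : ℝ, 0 ≤ C ∧ 0 ≤ a ∧
      ∀ s ∈ Set.Icc (0 : ℝ) 1, ∀ w, ∑ e ∈ A, |D2 e s w| ≤ C * Real.exp (a * ‖w‖) := by
    have : ∀ e ∈ A, ∃ C a : ℝ, 0 ≤ C ∧ 0 ≤ a ∧
        ∀ s ∈ Set.Icc (0 : ℝ) 1, ∀ w, |D2 e s w| ≤ C * Real.exp (a * ‖w‖) :=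
      fun e he => (h1 e he).bdd
    choose! C a hC ha h using this
    refine ⟨∑ e ∈ A, C e, ∑ e ∈ A, a e, Finset.sum_nonneg hC, Finset.sum_nonneg ha,
      fun s hs w => ?_⟩
    rw [Finset.sum_mul]
    refine Finset.sum_le_sum fun e he => (h e he s hs w).trans ?_
    have : a e ≤ ∑ e ∈ A, a e := Finset.single_le_sum ha he
    have := hC e he
    gcongr
  set G' : ℝ → (J → ℝ) → ℝ := fun s w => L s w +
    1 / 2 * ∑ e ∈ A, (w e / √s * D e s w - D2 e s w) with hG'
  have hegw : ∀ (s : ℝ) (e : J), EG (fun w : J → ℝ => w e / √s) := fun s e => by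
    have := (EG.coord (ι := J) e).const_mul (1 / √s)
    refine this.mono ((measurable_pi_apply e).div_const _) fun y => le_of_eq ?_
    congr 1; ring
  have hegG : ∀ s ∈ Set.Icc (0 : ℝ) 1, EG (G' s) := by
    intro s hs
    refine (hf.gL.eg hs).add ((EG.sum A fun e he => ?_).const_mul _)
    exact ((hegw s e).mul ((hf.gD e he).eg hs)).sub ((h1 e he).eg hs)
  have hnb : Set.Ioo (s / 2) ((1 + s) / 2) ∈ 𝓝 s :=
    Ioo_mem_nhds (by linarith) (by linarith [hs.2])
  have hIcc : ∀ t ∈ Set.Ioo (s / 2) ((1 + s) / 2), t ∈ Set.Icc (0 : ℝ) 1 := fun t ht =>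
    ⟨by linarith [ht.1], by linarith [ht.2, hs.2]⟩
  have key := (hasDerivAt_integral_of_dominated_loc_of_deriv_le (μ := gI J)
    (F := fun s w => f s w) (F' := G') (x₀ := s)
    (bound := fun w => C * Real.exp (a * ‖w‖) +
      ((Real.exp ‖w‖ * (1 / √(s / 2))) * (C1 * Real.exp (a1 * ‖w‖)) + C2 * Real.exp (a2 * ‖w‖)))
    (s := Set.Ioo (s / 2) ((1 + s) / 2)) hnb ?_ ?_ ?_ ?_ ?_ ?_).2
  · have e1 : ∫ w, G' s w ∂(gI J) = ∫ w, L s w ∂(gI J) := by
      have i0 := (hf.gL.eg hsI).integrable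
      have i1 : ∀ e ∈ A, Integrable (fun w => w e / √s * D e s w - D2 e s w) (gI J) :=
        fun e he => (((hegw s e).mul ((hf.gD e he).eg hsI)).sub ((h1 e he).eg hsI)).integrable
      have i2 : ∀ e ∈ A, Integrable (fun w => D2 e s w) (gI J) :=
        fun e he => ((h1 e he).eg hsI).integrable
      have i3 : ∀ e ∈ A, Integrable (fun w => w e / √s * D e s w) (gI J) :=
        fun e he => ((hegw s e).mul ((hf.gD e he).eg hsI)).integrable
      rw [hG', integral_add i0 ((integrable_finsetSum A i1).const_mul _), integral_const_mul,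
        integral_finsetSum A i1]
      have : ∑ e ∈ A, ∫ w, (w e / √s * D e s w - D2 e s w) ∂(gI J) = 0 := by
        refine Finset.sum_eq_zero fun e he => ?_
        have hst := (h3 s hsI e he).stein ((hf.gD e he).eg hsI) (((h1 e he).eg hsI).const_mul _)
        rw [integral_sub (i3 e he) (i2 e he)]
        have e2 : ∫ w, w e / √s * D e s w ∂(gI J) = 1 / √s * ∫ w, w e * D e s w ∂(gI J) := by
          rw [← integral_const_mul]
          congr 1
          funext w
          ring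
        rw [e2, hst, integral_const_mul]
        have : √s ≠ 0 := (Real.sqrt_pos.2 hs0).ne'
        field_simp
        ring
      rw [this]
      ring
    rw [← e1]
    exact key
  · filter_upwards [hnb] with t ht
    exact (hf.gf.eg (hIcc t ht)).meas.aestronglyMeasurable
  · exact (hf.gf.eg hsI).integrable
  · exact (hegG s hsI).meas.aestronglyMeasurable
  · refine Filter.Eventually.of_forall fun w t ht => ?_
    have htI := hIcc t ht
    rw [Real.norm_eq_abs]
    have hw : ‖w‖ ≤ Real.exp ‖w‖ := (Real.add_one_le_exp ‖w‖).trans' (by linarith)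
    have hsq : 1 / √t ≤ 1 / √(s / 2) := by
      have h1 : √(s / 2) ≤ √t := Real.sqrt_le_sqrt ht.1.le
      have h2 : 0 < √(s / 2) := Real.sqrt_pos.2 (by linarith)
      exact one_div_le_one_div_of_le h2 h1
    have b2 : |∑ e ∈ A, (w e / √t * D e t w - D2 e t w)| ≤
        (Real.exp ‖w‖ * (1 / √(s / 2))) * (∑ e ∈ A, |D e t w|) + ∑ e ∈ A, |D2 e t w| := by
      rw [Finset.mul_sum, ← Finset.sum_add_distrib]
      refine (Finset.abs_sum_le_sum_abs _ _).trans (Finset.sum_le_sum fun e _ => ?_)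
      refine (abs_sub _ _).trans (add_le_add_left ?_ _)
      rw [abs_mul, abs_div, abs_of_nonneg (Real.sqrt_nonneg t), div_eq_mul_one_div]
      have : |w e| ≤ ‖w‖ := by rw [← Real.norm_eq_abs]; exact norm_le_pi_norm w e
      gcongr
      exact this.trans hw
    have b3 : (Real.exp ‖w‖ * (1 / √(s / 2))) * (∑ e ∈ A, |D e t w|) + ∑ e ∈ A, |D2 e t w| ≤
        (Real.exp ‖w‖ * (1 / √(s / 2))) * (C1 * Real.exp (a1 * ‖w‖)) +
          C2 * Real.exp (a2 * ‖w‖) := by
      gcongr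
      · exact hD t htI w
      · exact hD2 t htI w
    calc |G' t w| ≤ |L t w| + |1 / 2 * ∑ e ∈ A, (w e / √t * D e t w - D2 e t w)| := abs_add_le _ _
      _ ≤ |L t w| + |∑ e ∈ A, (w e / √t * D e t w - D2 e t w)| := by
          rw [abs_mul, abs_of_pos (by norm_num : (0 : ℝ) < 1 / 2)]
          linarith [abs_nonneg (∑ e ∈ A, (w e / √t * D e t w - D2 e t w))]
      _ ≤ _ := add_le_add (hL t htI w) (b2.trans b3)
  · refine ((integrable_exp_norm a).const_mul C).add (Integrable.add ?_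
      ((integrable_exp_norm a2).const_mul C2))
    have h1 := (integrable_exp_norm (ι := J) (a1 + 1)).const_mul (C1 * (1 / √(s / 2)))
    refine h1.congr (Filter.Eventually.of_forall fun z => ?_)
    simp only
    rw [add_mul, Real.exp_add, one_mul]
    ring
  · refine Filter.Eventually.of_forall fun w t ht => ?_
    exact h4 t ⟨by linarith [ht.1], by linarith [ht.2, hs.2]⟩ w

end KF

/-- The expectation of a function of class `GE` is continuous in the share. -/
theorem GE.continuousOn {f : ℝ → (J → ℝ) → ℝ} (hf : GE f) :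
    ContinuousOn (fun s => ∫ w, f s w ∂(gI J)) (Set.Icc 0 1) := by
  obtain ⟨C, a, hC, ha, h⟩ := hf.bdd
  refine continuousOn_of_dominated (bound := fun z => C * Real.exp (a * ‖z‖)) ?_ ?_ ?_ ?_
  · intro s hs
    exact (hf.meas s hs).aestronglyMeasurable
  · intro s hs
    exact Filter.Eventually.of_forall fun z => by rw [Real.norm_eq_abs]; exact h s hs z
  · exact (integrable_exp_norm a).const_mul C
  · exact Filter.Eventually.of_forall fun z => hf.cont z

namespace KF

variable {A : Finset J} {f g : ℝ → (J → ℝ) → ℝ} {D D' : J → ℝ → (J → ℝ) → ℝ}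
  {L L' : ℝ → (J → ℝ) → ℝ}

theorem cont (hf : KF A f D L) : ContinuousOn (fun s => ∫ w, f s w ∂(gI J)) (Set.Icc 0 1) :=
  hf.gf.continuousOn

/-- The fundamental theorem of calculus. -/
theorem ftc (hf : KF A f D L) {a b : ℝ} (ha : 0 ≤ a) (hab : a ≤ b) (hb : b ≤ 1) :
    ∫ s in a..b, (∫ w, L s w ∂(gI J)) = (∫ w, f b w ∂(gI J)) - ∫ w, f a w ∂(gI J) := by
  refine intervalIntegral.integral_eq_sub_of_hasDerivAt_of_le hab
    (hf.cont.mono (Set.Icc_subset_Icc ha hb)) (fun s hs => ?_) ?_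
  · exact hf.deriv ⟨ha.trans_lt hs.1, hs.2.trans_le hb⟩
  · refine ContinuousOn.intervalIntegrable ?_
    rw [Set.uIcc_of_le hab]
    exact hf.gL.continuousOn.mono (Set.Icc_subset_Icc ha hb)

end KF

end Vale.Agent.P146.H332
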