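import Mathlib

/-!
Linear algebra for P146: Frobenius norms of symmetric matrices. The commutator bound
`|[C, H]|² ≤ 4 (|C|² |H|² - |C H|²)`, the swap of two indices of a symmetric 4-tensor, and the
monotonicity of the Frobenius norm on positive semidefinite matrices.
-/

open Matrix

namespace Vale.Agent.P146.H332

set_option linter.unusedSectionVars false

variable {q : Type} [Fintype q] [DecidableEq q]

/-- The square of the Frobenius norm. -/
def fr (M : Matrix q q ℝ) : ℝ := ∑ i, ∑ j, M i j ^ 2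

lemma fr_nonneg (M : Matrix q q ℝ) : 0 ≤ fr M := by unfold fr; positivity

lemma fr_eq_trace (M : Matrix q q ℝ) : fr M = (M * Mᵀ).trace := by
  simp only [fr, trace, diag, mul_apply, transpose_apply, sq]

lemma fr_conj {U : Matrix q q ℝ} (hU : U * Uᵀ = 1) (M : Matrix q q ℝ) :
    fr (Uᵀ * M * U) = fr M := by
  have h1 : Uᵀ * M * U * (Uᵀ * M * U)ᵀ = Uᵀ * (M * Mᵀ) * U := by
    simp only [transpose_mul, transpose_transpose]
    calc Uᵀ * M * U * (Uᵀ * (Mᵀ * U)) = Uᵀ * M * (U * Uᵀ) * Mᵀ * U := by simp only [mul_assoc]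
      _ = _ := by rw [hU, mul_one]; simp only [mul_assoc]
  rw [fr_eq_trace, fr_eq_trace, h1, trace_mul_cycle, hU, one_mul]

/-- Diagonalization of a real symmetric matrix. -/
lemma diag_sym {C : Matrix q q ℝ} (hC : Cᵀ = C) : ∃ (U : Matrix q q ℝ) (l : q → ℝ),
    U * Uᵀ = 1 ∧ Uᵀ * U = 1 ∧ C = U * diagonal l * Uᵀ := by
  have hH : C.IsHermitian := by rw [IsHermitian, conjTranspose_eq_transpose_of_trivial]; exact hC
  refine ⟨hH.eigenvectorUnitary, hH.eigenvalues, ?_, ?_, ?_⟩
  · have := Unitary.coe_mul_star_self hH.eigenvectorUnitary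
    rwa [Unitary.coe_star, star_eq_conjTranspose, conjTranspose_eq_transpose_of_trivial] at this
  · have := Unitary.coe_star_mul_self hH.eigenvectorUnitary
    rwa [star_eq_conjTranspose, conjTranspose_eq_transpose_of_trivial] at this
  · have := hH.spectral_theorem
    rw [Unitary.conjStarAlgAut_apply] at this
    conv_lhs => rw [this]
    rw [star_eq_conjTranspose, conjTranspose_eq_transpose_of_trivial]
    rfl

lemma fr_diagonal (l : q → ℝ) : fr (diagonal l) = ∑ i, l i ^ 2 := by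
  unfold fr
  refine Finset.sum_congr rfl fun i _ => ?_
  rw [Finset.sum_eq_single i]
  · rw [diagonal_apply_eq]
  · intro j _ hj
    rw [diagonal_apply_ne _ hj.symm]; simp
  · intro h; exact absurd (Finset.mem_univ i) h

/-- **The commutator bound.** -/
theorem fr_comm_le {C H : Matrix q q ℝ} (hC : Cᵀ = C) (hH : Hᵀ = H) :
    fr (C * H - H * C) ≤ 4 * (fr C * fr H - fr (C * H)) := by
  obtain ⟨U, l, h1, h2, h3⟩ := diag_sym hC
  set K : Matrix q q ℝ := Uᵀ * H * U with hK
  have hKs : Kᵀ = K := by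
    rw [hK]; simp only [transpose_mul, transpose_transpose, hH, mul_assoc]
  have e1 : Uᵀ * (C * H) * U = diagonal l * K := by
    rw [h3, hK]
    calc Uᵀ * (U * diagonal l * Uᵀ * H) * U = (Uᵀ * U) * diagonal l * (Uᵀ * H * U) := by
          simp only [mul_assoc]
      _ = _ := by rw [h2, one_mul]
  have e2 : Uᵀ * (H * C) * U = K * diagonal l := by
    rw [h3, hK]
    calc Uᵀ * (H * (U * diagonal l * Uᵀ)) * U = Uᵀ * H * U * diagonal l * (Uᵀ * U) := by
          simp only [mul_assoc]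
      _ = _ := by rw [h2, mul_one]
  have e3 : Uᵀ * (C * H - H * C) * U = diagonal l * K - K * diagonal l := by
    rw [mul_sub, sub_mul, e1, e2]
  have e4 : Uᵀ * C * U = diagonal l := by
    rw [h3]
    calc Uᵀ * (U * diagonal l * Uᵀ) * U = (Uᵀ * U) * diagonal l * (Uᵀ * U) := by
          simp only [mul_assoc]
      _ = _ := by rw [h2, one_mul, mul_one]
  rw [← fr_conj h1 (C * H - H * C), ← fr_conj h1 (C * H), ← fr_conj h1 C, ← fr_conj h1 H, e1, e3,
    e4, ← hK, fr_diagonal]
  have f1 : fr (diagonal l * K - K * diagonal l) = ∑ i, ∑ j, (l i - l j) ^ 2 * K i j ^ 2 := by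
    unfold fr
    refine Finset.sum_congr rfl fun i _ => Finset.sum_congr rfl fun j _ => ?_
    rw [Matrix.sub_apply, diagonal_mul, mul_diagonal]; ring
  have f2 : fr (diagonal l * K) = ∑ i, ∑ j, l i ^ 2 * K i j ^ 2 := by
    unfold fr
    refine Finset.sum_congr rfl fun i _ => Finset.sum_congr rfl fun j _ => ?_
    rw [diagonal_mul]; ring
  have f3 : ∑ i, ∑ j, l j ^ 2 * K i j ^ 2 = ∑ i, ∑ j, l i ^ 2 * K i j ^ 2 := by
    rw [Finset.sum_comm]
    refine Finset.sum_congr rfl fun i _ => Finset.sum_congr rfl fun j _ => ?_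
    have : K j i = K i j := by rw [← transpose_apply K, hKs]
    rw [this]
  set S : ℝ := ∑ i, l i ^ 2 with hS
  have hSf : S * fr K = ∑ i, ∑ j, S * K i j ^ 2 := by
    unfold fr; simp only [Finset.mul_sum]
  have key : ∀ i j, (l i - l j) ^ 2 * K i j ^ 2 ≤
      4 * (S * K i j ^ 2) - 2 * (l i ^ 2 * K i j ^ 2) - 2 * (l j ^ 2 * K i j ^ 2) := by
    intro i j
    have hK2 : 0 ≤ K i j ^ 2 := sq_nonneg _
    by_cases hij : i = j
    · subst hij
      have : l i ^ 2 ≤ S := Finset.single_le_sum (f := fun i => l i ^ 2)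
        (fun i _ => sq_nonneg _) (Finset.mem_univ i)
      nlinarith
    · have : l i ^ 2 + l j ^ 2 ≤ S := by
        rw [hS, ← Finset.sum_pair (f := fun i => l i ^ 2) hij]
        exact Finset.sum_le_sum_of_subset_of_nonneg (Finset.subset_univ _)
          fun i _ _ => sq_nonneg _
      nlinarith [sq_nonneg (l i + l j)]
  rw [f1, f2]
  calc ∑ i, ∑ j, (l i - l j) ^ 2 * K i j ^ 2
      ≤ ∑ i, ∑ j, (4 * (S * K i j ^ 2) - 2 * (l i ^ 2 * K i j ^ 2) - 2 * (l j ^ 2 * K i j ^ 2)) :=
        Finset.sum_le_sum fun i _ => Finset.sum_le_sum fun j _ => key i j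
    _ = 4 * (S * fr K) - 2 * ∑ i, ∑ j, l i ^ 2 * K i j ^ 2 -
        2 * ∑ i, ∑ j, l j ^ 2 * K i j ^ 2 := by
        rw [hSf]
        simp only [Finset.sum_sub_distrib, Finset.mul_sum]
    _ = _ := by rw [f3]; ring

/-- **The swap of two indices.** If `C ⊗ C` is close to a symmetric 4-tensor then `C` is almost of
rank one: `|C|⁴ - tr C⁴ ≤ 2 |S - C ⊗ C|²`. -/
theorem swap_le {C : Matrix q q ℝ} (hC : Cᵀ = C) (S : q → q → q → q → ℝ)
    (hS : ∀ i j k l, S i j k l = S i k j l) :
    fr C ^ 2 - fr (C * C) ≤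
      2 * ∑ i, ∑ j, ∑ k, ∑ l, (S i j k l - C i j * C k l) ^ 2 := by
  have hs : ∀ i j, C i j = C j i := fun i j => by rw [← transpose_apply C, hC]
  have e1 : ∑ i, ∑ j, ∑ k, ∑ l, (C i j * C k l - C i k * C j l) ^ 2 =
      2 * (fr C ^ 2 - fr (C * C)) := by
    have a1 : ∑ i, ∑ j, ∑ k, ∑ l, C i j ^ 2 * C k l ^ 2 = fr C ^ 2 := by
      rw [sq]
      unfold fr
      rw [Finset.sum_mul]
      refine Finset.sum_congr rfl fun i _ => ?_
      rw [Finset.sum_mul]
      refine Finset.sum_congr rfl fun j _ => ?_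
      simp only [Finset.mul_sum]
    have a2 : ∑ i, ∑ j, ∑ k, ∑ l, C i k ^ 2 * C j l ^ 2 = fr C ^ 2 := by
      rw [← a1]
      refine Finset.sum_congr rfl fun i _ => ?_
      rw [Finset.sum_comm]
    have a3 : ∑ i, ∑ j, ∑ k, ∑ l, C i j * C k l * (C i k * C j l) = fr (C * C) := by
      have : fr (C * C) = ∑ j, ∑ k, (∑ i, C j i * C i k) * (∑ l, C j l * C l k) := by
        unfold fr
        refine Finset.sum_congr rfl fun j _ => Finset.sum_congr rfl fun k _ => ?_
        rw [sq, mul_apply]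
      rw [this]
      have b1 : ∑ i, ∑ j, ∑ k, ∑ l, C i j * C k l * (C i k * C j l) =
          ∑ j, ∑ k, ∑ i, ∑ l, C i j * C k l * (C i k * C j l) := by
        rw [Finset.sum_comm]
        refine Finset.sum_congr rfl fun j _ => ?_
        rw [Finset.sum_comm]
      rw [b1]
      refine Finset.sum_congr rfl fun j _ => Finset.sum_congr rfl fun k _ => ?_
      rw [Finset.sum_mul_sum]
      refine Finset.sum_congr rfl fun i _ => Finset.sum_congr rfl fun l _ => ?_
      rw [hs i j, hs k l]; ring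
    have a4 : ∀ i j k l, (C i j * C k l - C i k * C j l) ^ 2 =
        C i j ^ 2 * C k l ^ 2 + C i k ^ 2 * C j l ^ 2 - 2 * (C i j * C k l * (C i k * C j l)) := by
      intros; ring
    have a5 : ∑ i, ∑ j, ∑ k, ∑ l, (C i j * C k l - C i k * C j l) ^ 2 =
        ∑ i, ∑ j, ∑ k, ∑ l, C i j ^ 2 * C k l ^ 2 + ∑ i, ∑ j, ∑ k, ∑ l, C i k ^ 2 * C j l ^ 2 -
          2 * ∑ i, ∑ j, ∑ k, ∑ l, C i j * C k l * (C i k * C j l) := by
      have m1 : 2 * ∑ i, ∑ j, ∑ k, ∑ l, C i j * C k l * (C i k * C j l) =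
          ∑ i, ∑ j, ∑ k, ∑ l, 2 * (C i j * C k l * (C i k * C j l)) := by
        simp only [Finset.mul_sum]
      rw [m1]
      simp only [a4, Finset.sum_sub_distrib, Finset.sum_add_distrib]
    rw [a5, a1, a2, a3]; ring
  have e2 : ∑ i, ∑ j, ∑ k, ∑ l, (C i j * C k l - C i k * C j l) ^ 2 ≤
      4 * ∑ i, ∑ j, ∑ k, ∑ l, (S i j k l - C i j * C k l) ^ 2 := by
    have b1 : ∀ i j k l, (C i j * C k l - C i k * C j l) ^ 2 ≤
        2 * (S i j k l - C i j * C k l) ^ 2 + 2 * (S i k j l - C i k * C j l) ^ 2 := by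
      intro i j k l
      have h1 : C i j * C k l - C i k * C j l =
          (S i k j l - C i k * C j l) - (S i j k l - C i j * C k l) := by rw [hS i j k l]; ring
      rw [h1]
      nlinarith [sq_nonneg ((S i j k l - C i j * C k l) + (S i k j l - C i k * C j l))]
    have b2 : ∑ i, ∑ j, ∑ k, ∑ l, (S i k j l - C i k * C j l) ^ 2 =
        ∑ i, ∑ j, ∑ k, ∑ l, (S i j k l - C i j * C k l) ^ 2 := by
      refine Finset.sum_congr rfl fun i _ => ?_
      rw [Finset.sum_comm]
    calc _ ≤ ∑ i, ∑ j, ∑ k, ∑ l, (2 * (S i j k l - C i j * C k l) ^ 2 +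
          2 * (S i k j l - C i k * C j l) ^ 2) :=
          Finset.sum_le_sum fun i _ => Finset.sum_le_sum fun j _ => Finset.sum_le_sum fun k _ =>
            Finset.sum_le_sum fun l _ => b1 i j k l
      _ = _ := by
          simp only [Finset.sum_add_distrib, ← Finset.mul_sum]
          rw [b2]; ring
  linarith

/-- Positive semidefiniteness as a quadratic form. -/
def Psd (M : Matrix q q ℝ) : Prop := Mᵀ = M ∧ ∀ c : q → ℝ, 0 ≤ ∑ i, ∑ j, c i * c j * M i j

/-- The trace of a product of two positive semidefinite matrices is nonnegative. -/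
theorem Psd.sum_mul_nonneg {X Y : Matrix q q ℝ} (hX : Psd X) (hY : Psd Y) :
    0 ≤ ∑ i, ∑ j, X i j * Y i j := by
  obtain ⟨U, l, h1, h2, h3⟩ := diag_sym hX.1
  have hX' : ∀ i j, X i j = ∑ a, l a * U i a * U j a := by
    intro i j
    rw [h3, mul_apply]
    refine Finset.sum_congr rfl fun a _ => ?_
    rw [mul_diagonal, transpose_apply]; ring
  have hl : ∀ a, 0 ≤ l a := by
    intro a
    have h4 : Uᵀ * X * U = diagonal l := by
      rw [h3]
      calc Uᵀ * (U * diagonal l * Uᵀ) * U = (Uᵀ * U) * diagonal l * (Uᵀ * U) := by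
            simp only [Matrix.mul_assoc]
        _ = _ := by rw [h2, Matrix.one_mul, Matrix.mul_one]
    have h5 : l a = ∑ i, ∑ j, U i a * U j a * X i j := by
      have : (Uᵀ * X * U) a a = l a := by rw [h4, diagonal_apply_eq]
      rw [← this, mul_apply]
      simp only [mul_apply, Finset.sum_mul, transpose_apply]
      rw [Finset.sum_comm]
      exact Finset.sum_congr rfl fun i _ => Finset.sum_congr rfl fun j _ => by ring
    rw [h5]
    exact hX.2 fun i => U i a
  have : ∑ i, ∑ j, X i j * Y i j = ∑ a, l a * ∑ i, ∑ j, U i a * U j a * Y i j := by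
    simp only [hX', Finset.sum_mul, Finset.mul_sum]
    rw [Finset.sum_comm]
    have : ∀ j, ∑ i, ∑ a, l a * U i a * U j a * Y i j = ∑ a, ∑ i, l a * U i a * U j a * Y i j :=
      fun j => Finset.sum_comm
    simp only [this]
    rw [Finset.sum_comm]
    refine Finset.sum_congr rfl fun a _ => ?_
    rw [Finset.sum_comm]
    exact Finset.sum_congr rfl fun i _ => Finset.sum_congr rfl fun j _ => by ring
  rw [this]
  exact Finset.sum_nonneg fun a _ => mul_nonneg (hl a) (hY.2 fun i => U i a)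

lemma Psd.add {X Y : Matrix q q ℝ} (hX : Psd X) (hY : Psd Y) : Psd (X + Y) := by
  refine ⟨by rw [transpose_add, hX.1, hY.1], fun c => ?_⟩
  have : ∑ i, ∑ j, c i * c j * (X + Y) i j =
      ∑ i, ∑ j, c i * c j * X i j + ∑ i, ∑ j, c i * c j * Y i j := by
    simp only [Matrix.add_apply, mul_add, Finset.sum_add_distrib]
  rw [this]
  exact add_nonneg (hX.2 c) (hY.2 c)

lemma Psd.smul {X : Matrix q q ℝ} (hX : Psd X) {t : ℝ} (ht : 0 ≤ t) : Psd (t • X) := by
  refine ⟨by rw [transpose_smul, hX.1], fun c => ?_⟩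
  have : ∑ i, ∑ j, c i * c j * (t • X) i j = t * ∑ i, ∑ j, c i * c j * X i j := by
    simp only [Matrix.smul_apply, smul_eq_mul, Finset.mul_sum]
    exact Finset.sum_congr rfl fun i _ => Finset.sum_congr rfl fun j _ => by ring
  rw [this]
  exact mul_nonneg ht (hX.2 c)

/-- The Frobenius norm is monotone on positive semidefinite matrices. -/
theorem Psd.fr_le_add {X Y : Matrix q q ℝ} (hX : Psd X) (hY : Psd Y) : fr X ≤ fr (X + Y) := by
  have h1 := hX.sum_mul_nonneg hY
  have : fr (X + Y) = fr X + 2 * ∑ i, ∑ j, X i j * Y i j + fr Y := by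
    unfold fr
    simp only [Finset.mul_sum, ← Finset.sum_add_distrib, Matrix.add_apply]
    exact Finset.sum_congr rfl fun i _ => Finset.sum_congr rfl fun j _ => by ring
  linarith [fr_nonneg Y]

/-- The response `M - (1 - x) N - x m mᵀ` dominates `x (M - m mᵀ)`: if `M - N` (thermal part) and
`M - m mᵀ` (total covariance) are positive semidefinite and `0 ≤ x ≤ 1` then
`x² |M - m mᵀ|² ≤ |M - (1 - x) N - x m mᵀ|²`. -/
theorem kov_le {M N : Matrix q q ℝ} {m : q → ℝ} (h1 : Psd (M - N))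
    (h2 : Psd (M - vecMulVec m m)) {x : ℝ} (hx0 : 0 ≤ x) (hx1 : x ≤ 1) :
    x ^ 2 * fr (M - vecMulVec m m) ≤ fr (M - (1 - x) • N - x • vecMulVec m m) := by
  have e1 : M - (1 - x) • N - x • vecMulVec m m = x • (M - vecMulVec m m) + (1 - x) • (M - N) := by
    ext i j
    simp only [Matrix.sub_apply, Matrix.smul_apply, Matrix.add_apply, smul_eq_mul]
    ring
  have e2 : x ^ 2 * fr (M - vecMulVec m m) = fr (x • (M - vecMulVec m m)) := by
    unfold fr
    simp only [Matrix.smul_apply, smul_eq_mul, Finset.mul_sum]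
    exact Finset.sum_congr rfl fun i _ => Finset.sum_congr rfl fun j _ => by ring
  rw [e1, e2]
  exact (h2.smul hx0).fr_le_add (h1.smul (by linarith))

end Vale.Agent.P146.H332
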