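import Vale.Agent.P146.H826.LawP
import Vale.Agent.P146.H332.CFlip

/-!
Plan R1, block C: total derivatives of averages over sets of couplings, and of functions of one
row; averages of gradient fields (general part, no model).
-/

open MeasureTheory ProbabilityTheory

namespace Vale.Agent.P146.R1C

open Vale.Agent.P157.Lv Vale.Agent.P146.H425 Vale.Agent.P146.H325 Vale.Agent.P146.H332
  Vale.Agent.P146.H712 Vale.Agent.P146.R1

set_option linter.unusedSectionVars false

section gen

variable {κ : Type} [Fintype κ] [DecidableEq κ] {G : (κ → ℝ) → ℝ} {G' : κ → (κ → ℝ) → ℝ}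

/-- restriction of the differential to the coordinates outside `R` -/
noncomputable def mk (R : Finset κ) : (κ → ℝ) →L[ℝ] (κ → ℝ) :=
  ContinuousLinearMap.pi fun e => if e ∈ R then 0 else ContinuousLinearMap.proj e

lemma mk_apply (R : Finset κ) (w : κ → ℝ) (e : κ) : mk R w e = if e ∈ R then 0 else w e := by
  unfold mk
  by_cases h : e ∈ R <;> simp [h]

lemma fd_sw (R : Finset κ) (z u : κ → ℝ) : HasFDerivAt (fun z : κ → ℝ => sw R z u) (mk R) z := by
  rw [hasFDerivAt_pi']
  intro e
  by_cases h : e ∈ R
  · have e1 : (fun z : κ → ℝ => sw R z u e) = fun _ => u e := by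
      funext z; simp [sw, h]
    have e2 : (ContinuousLinearMap.proj e : (κ → ℝ) →L[ℝ] ℝ).comp (mk R) = 0 := by
      ext w; simp [mk_apply, h]
    rw [e1, e2]
    exact hasFDerivAt_const _ _
  · have e1 : (fun z : κ → ℝ => sw R z u e) = fun z => z e := by
      funext z; simp [sw, h]
    have e2 : (ContinuousLinearMap.proj e : (κ → ℝ) →L[ℝ] ℝ).comp (mk R) =
        ContinuousLinearMap.proj e := by
      ext w; simp [mk_apply, h]
    rw [e1, e2]
    exact (ContinuousLinearMap.proj e : (κ → ℝ) →L[ℝ] ℝ).hasFDerivAt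

/-- **The total derivative of an average over a set of coordinates.** -/
theorem fd_AvP (hG : EG G) (hG' : ∀ f, EG (G' f))
    (hd : ∀ y, HasFDerivAt G (H785.lf fun f => G' f y) y) (s : ℝ) (R : Finset κ) (z : κ → ℝ) :
    HasFDerivAt (AvP s R G) (H785.lf fun e => if e ∈ R then 0 else AvP s R (G' e) z) z := by
  choose C a hC ha hb using fun f => (hG' f).bdd
  set C0 : ℝ := ∑ f, C f with hC0
  set a0 : ℝ := ∑ f, a f with ha0
  have hC0n : 0 ≤ C0 := Finset.sum_nonneg fun f _ => hC f
  have ha0n : 0 ≤ a0 := Finset.sum_nonneg fun f _ => ha f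
  have hb0 : ∀ f u, |G' f u| ≤ C0 * Real.exp (a0 * ‖u‖) := by
    intro f u
    refine (hb f u).trans ?_
    have h1 : C f ≤ C0 := Finset.single_le_sum (fun f _ => hC f) (Finset.mem_univ f)
    have h2 : a f ≤ a0 := Finset.single_le_sum (fun f _ => ha f) (Finset.mem_univ f)
    gcongr
  set bd : (κ → ℝ) → ℝ := fun g =>
    Fintype.card κ * (C0 * Real.exp (a0 * (‖z‖ + 1))) * Real.exp (a0 * √s * ‖g‖) with hbd
  have hint : Integrable bd (gI κ) := (integrable_exp_norm _).const_mul _
  have hm : ∀ u : κ → ℝ, Measurable fun g : κ → ℝ => sw R u (√s • g) := fun u =>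
    (meas_sw R u).comp (by fun_prop)
  have key := hasFDerivAt_integral_of_dominated_of_fderiv_le (𝕜 := ℝ) (μ := gI κ)
    (F := fun z g => G (sw R z (√s • g)))
    (F' := fun z g => H785.lf fun e => if e ∈ R then 0 else G' e (sw R z (√s • g))) (x₀ := z)
    (bound := bd) (Metric.ball_mem_nhds z one_pos)
    (Filter.Eventually.of_forall fun u => (hG.meas.comp (hm u)).aestronglyMeasurable)
    (eg_AvP_in hG s R z).integrable
    (by
      unfold H785.lf
      refine Finset.aestronglyMeasurable_fun_sum _ fun f _ => ?_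
      by_cases h : f ∈ R
      · simp only [if_pos h]
        exact aestronglyMeasurable_const.smul_const _
      · simp only [if_neg h]
        exact (((hG' f).meas.comp (hm z)).aestronglyMeasurable).smul_const _)
    (Filter.Eventually.of_forall fun g u hu => by
      refine (H785.norm_lf_le (C := C0 * Real.exp (a0 * (‖z‖ + 1)) * Real.exp (a0 * √s * ‖g‖))
        (by positivity) fun f => ?_).trans (le_of_eq (by rw [hbd]; ring))
      by_cases h : f ∈ R
      · simp only [if_pos h, abs_zero]
        positivity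
      simp only [if_neg h]
      refine (hb0 f _).trans ?_
      rw [mul_assoc, ← Real.exp_add]
      refine mul_le_mul_of_nonneg_left (Real.exp_le_exp.2 ?_) hC0n
      have h1 : ‖sw R u (√s • g)‖ ≤ ‖z‖ + 1 + √s * ‖g‖ := by
        refine (norm_sw_le _ _ _).trans ?_
        have h5 := norm_smul_le' (Real.sqrt_nonneg s) g
        have h2 : ‖u‖ ≤ ‖z‖ + 1 := by
          have h3 := mem_ball_iff_norm.1 hu
          have h4 := norm_add_le (u - z) z
          rw [sub_add_cancel] at h4
          linarith
        linarith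
      have := mul_le_mul_of_nonneg_left h1 ha0n
      linarith)
    hint
    (Filter.Eventually.of_forall fun g u _ => by
      have h2 := (hd (sw R u (√s • g))).comp u (fd_sw R u (√s • g))
      refine h2.congr_fderiv ?_
      ext w
      rw [ContinuousLinearMap.comp_apply, H785.lf_apply, H785.lf_apply]
      refine Finset.sum_congr rfl fun e _ => ?_
      rw [mk_apply]
      by_cases h : e ∈ R <;> simp [h])
  refine key.congr_fderiv ?_
  have hi : ∀ f, Integrable (fun g => (if f ∈ R then 0 else G' f (sw R z (√s • g)))) (gI κ) := by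
    intro f
    by_cases h : f ∈ R
    · simp only [if_pos h]
      exact integrable_zero _ _ _
    · simp only [if_neg h]
      exact (eg_AvP_in (hG' f) s R z).integrable
  unfold H785.lf
  rw [integral_finsetSum _ fun f _ => (hi f).smul_const _]
  refine Finset.sum_congr rfl fun f _ => ?_
  rw [integral_smul_const]
  by_cases h : f ∈ R
  · simp [h]
  · simp only [if_neg h]
    rfl

lemma cont_AvP (hG : EG G) (hG' : ∀ f, EG (G' f))
    (hd : ∀ y, HasFDerivAt G (H785.lf fun f => G' f y) y) (s : ℝ) (R : Finset κ) :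
    Continuous (AvP s R G) :=
  continuous_iff_continuousAt.2 fun z => (fd_AvP hG hG' hd s R z).continuousAt

/-- continuity of averages of continuous functions of exponential growth -/
lemma cont_AvP' (hG : EG G) (hc : Continuous G) (s : ℝ) (R : Finset κ) :
    Continuous (AvP s R G) := by
  obtain ⟨C, a, hC, ha, hb⟩ := hG.bdd
  refine continuous_iff_continuousAt.2 fun z => ?_
  refine continuousAt_of_dominated (μ := gI κ)
    (F := fun z g => G (sw R z (√s • g)))
    (bound := fun g => C * Real.exp (a * (‖z‖ + 1)) * Real.exp (a * √s * ‖g‖))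
    (Filter.Eventually.of_forall fun u =>
      (hG.meas.comp ((meas_sw R u).comp (by fun_prop))).aestronglyMeasurable) ?_
    ((integrable_exp_norm _).const_mul _) ?_
  · filter_upwards [Metric.ball_mem_nhds z one_pos] with u hu
    refine Filter.Eventually.of_forall fun g => ?_
    rw [Real.norm_eq_abs]
    refine (hb _).trans ?_
    rw [mul_assoc, ← Real.exp_add]
    refine mul_le_mul_of_nonneg_left (Real.exp_le_exp.2 ?_) hC
    have h1 : ‖sw R u (√s • g)‖ ≤ ‖z‖ + 1 + √s * ‖g‖ := by
      refine (norm_sw_le _ _ _).trans ?_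
      have h5 := norm_smul_le' (Real.sqrt_nonneg s) g
      have h2 : ‖u‖ ≤ ‖z‖ + 1 := by
        have h3 := mem_ball_iff_norm.1 hu
        have h4 := norm_add_le (u - z) z
        rw [sub_add_cancel] at h4
        linarith
      linarith
    have := mul_le_mul_of_nonneg_left h1 ha
    linarith
  · refine Filter.Eventually.of_forall fun g => ?_
    exact hc.continuousAt.comp (fd_sw R z (√s • g)).continuousAt

end gen

/-! ### functions of one row -/

variable {n : ℕ}

lemma fd_put (b : Fin n) (z : Pair n → ℝ) (y : Fin n → ℝ) :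
    HasFDerivAt (fun y : Fin n → ℝ => put b y z)
      (ContinuousLinearMap.pi fun e : Pair n => if e ∈ row b then
        (ContinuousLinearMap.proj (oth b e) : (Fin n → ℝ) →L[ℝ] ℝ) else 0) y := by
  rw [hasFDerivAt_pi']
  intro e
  by_cases h : e ∈ row b
  · have e1 : (fun y : Fin n → ℝ => put b y z e) = fun y => y (oth b e) := by
      funext y; simp [put, h]
    have e2 : (ContinuousLinearMap.proj e : (Pair n → ℝ) →L[ℝ] ℝ).comp
        (ContinuousLinearMap.pi fun e : Pair n => if e ∈ row b then
        (ContinuousLinearMap.proj (oth b e) : (Fin n → ℝ) →L[ℝ] ℝ) else 0) =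
        ContinuousLinearMap.proj (oth b e) := by
      ext w; simp [h]
    rw [e1, e2]
    exact (ContinuousLinearMap.proj (oth b e) : (Fin n → ℝ) →L[ℝ] ℝ).hasFDerivAt
  · have e1 : (fun y : Fin n → ℝ => put b y z e) = fun _ => z e := by
      funext y; simp [put, h]
    have e2 : (ContinuousLinearMap.proj e : (Pair n → ℝ) →L[ℝ] ℝ).comp
        (ContinuousLinearMap.pi fun e : Pair n => if e ∈ row b then
        (ContinuousLinearMap.proj (oth b e) : (Fin n → ℝ) →L[ℝ] ℝ) else 0) = 0 := by
      ext w; simp [h]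
    rw [e1, e2]
    exact hasFDerivAt_const _ _

/-- **The total derivative along a row.** -/
theorem fd_row {G : (Pair n → ℝ) → ℝ} {G' : Pair n → (Pair n → ℝ) → ℝ}
    (hd : ∀ y, HasFDerivAt G (H785.lf fun f => G' f y) y) {b : Fin n}
    {K : Fin n → (Pair n → ℝ) → ℝ} (hKb : ∀ z, K b z = 0)
    (hK : ∀ e ∈ row b, ∀ z, G' e z = K (oth b e) z) (z : Pair n → ℝ) (y : Fin n → ℝ) :
    HasFDerivAt (fun y : Fin n → ℝ => G (put b y z)) (H785.lf fun j => K j (put b y z)) y := by
  have h1 := (hd (put b y z)).comp y (fd_put b z y)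
  refine h1.congr_fderiv ?_
  ext w
  rw [ContinuousLinearMap.comp_apply, H785.lf_apply, H785.lf_apply,
    ← sum_row_all b (G := fun j => K j (put b y z) * w j) (by simp [hKb])]
  have e1 : ∀ e, G' e (put b y z) * (ContinuousLinearMap.pi fun e : Pair n => if e ∈ row b then
        (ContinuousLinearMap.proj (oth b e) : (Fin n → ℝ) →L[ℝ] ℝ) else 0) w e =
      if e ∈ row b then K (oth b e) (put b y z) * w (oth b e) else 0 := by
    intro e
    by_cases h : e ∈ row b
    · simp [h, hK e h]
    · simp [h]
  rw [Finset.sum_congr rfl fun e _ => e1 e, Finset.sum_ite_mem, Finset.univ_inter]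

lemma put_neg (b : Fin n) (y : Fin n → ℝ) (z : Pair n → ℝ) : put b (-y) z = fl b (put b y z) := by
  funext e
  by_cases h : e ∈ row b
  · rw [fl_row h]
    simp [put, h]
  · rw [fl_not h]
    simp [put, h]

lemma cont_put (b : Fin n) (z : Pair n → ℝ) : Continuous fun y : Fin n → ℝ => put b y z :=
  continuous_iff_continuousAt.2 fun y => (fd_put b z y).continuousAt

/-! ### averages of odd gradient fields -/

section fld

variable {ι : Type} [Fintype ι] [DecidableEq ι]

/-- odd gradient fields with symmetric continuous Jacobians -/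
structure OGF (a : ι → (ι → ℝ) → ℝ) (H : ι → ι → (ι → ℝ) → ℝ) : Prop where
  fd : ∀ i y, HasFDerivAt (a i) (H785.lf fun j => H i j y) y
  eg : ∀ i, EG (a i)
  egH : ∀ i j, EG (H i j)
  cH : ∀ i j, Continuous (H i j)
  sym : ∀ i j y, H i j y = H j i y
  odd : ∀ i y, a i (-y) = -a i y

/-- the average of a field over a Gaussian increment, at the scale `c` -/
noncomputable def av2 (c c' : ℝ) (G : (ι → ℝ) → ℝ) (y : ι → ℝ) : ℝ :=
  ∫ y', G (c • y + c' • y') ∂(gI ι)

lemma eg_av2 {G : (ι → ℝ) → ℝ} (hG : EG G) (c c' : ℝ) : EG (av2 c c' G) := by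
  have h1 : EG fun w : ι ⊕ ι → ℝ =>
      G (c • (fun e => w (Sum.inl e)) + c' • fun e => w (Sum.inr e)) := by
    refine eg_comp hG (A := fun w : ι ⊕ ι → ℝ =>
      c • (fun e => w (Sum.inl e)) + c' • fun e => w (Sum.inr e)) (by fun_prop)
      (c := |c| + |c'|) (by positivity) fun w => ?_
    refine (norm_add_le _ _).trans ?_
    rw [norm_smul, norm_smul, Real.norm_eq_abs, Real.norm_eq_abs]
    have h3 : ‖(fun e => w (Sum.inl e) : ι → ℝ)‖ ≤ ‖w‖ :=
      (pi_norm_le_iff_of_nonneg (norm_nonneg _)).2 fun _ => norm_le_pi_norm w _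
    have h4 : ‖(fun e => w (Sum.inr e) : ι → ℝ)‖ ≤ ‖w‖ :=
      (pi_norm_le_iff_of_nonneg (norm_nonneg _)).2 fun _ => norm_le_pi_norm w _
    have h5 := mul_le_mul_of_nonneg_left h3 (abs_nonneg c)
    have h6 := mul_le_mul_of_nonneg_left h4 (abs_nonneg c')
    linarith
  exact eg_int h1

lemma av2_zero (c : ℝ) (G : (ι → ℝ) → ℝ) (y : ι → ℝ) : av2 c 0 G y = G (c • y) := by
  unfold av2
  simp

lemma int_neg' {G : (ι → ℝ) → ℝ} (hG : Measurable G) :
    ∫ y, G (-y) ∂(gI ι) = ∫ y, G y ∂(gI ι) := by
  have h := int_flip (ε := fun _ : ι => -1) (fun _ => by norm_num) hG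
  refine Eq.trans ?_ h
  refine integral_congr_ae (Filter.Eventually.of_forall fun y => ?_)
  simp only
  congr 1
  funext e
  simp

lemma cont_av2 {G : (ι → ℝ) → ℝ} (hG : EG G) (hc : Continuous G) (c c' : ℝ) :
    Continuous (av2 c c' G) := by
  obtain ⟨C, a, hC, ha, hb⟩ := hG.bdd
  refine continuous_iff_continuousAt.2 fun z => ?_
  refine continuousAt_of_dominated (μ := gI ι)
    (F := fun z g => G (c • z + c' • g))
    (bound := fun g => C * Real.exp (a * (|c| * (‖z‖ + 1))) * Real.exp (a * |c'| * ‖g‖))
    (Filter.Eventually.of_forall fun u =>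
      (hG.meas.comp (by fun_prop)).aestronglyMeasurable) ?_
    ((integrable_exp_norm _).const_mul _) ?_
  · filter_upwards [Metric.ball_mem_nhds z one_pos] with u hu
    refine Filter.Eventually.of_forall fun g => ?_
    rw [Real.norm_eq_abs]
    refine (hb _).trans ?_
    rw [mul_assoc, ← Real.exp_add]
    refine mul_le_mul_of_nonneg_left (Real.exp_le_exp.2 ?_) hC
    have h1 : ‖c • u + c' • g‖ ≤ |c| * (‖z‖ + 1) + |c'| * ‖g‖ := by
      refine (norm_add_le _ _).trans ?_
      rw [norm_smul, norm_smul, Real.norm_eq_abs, Real.norm_eq_abs]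
      have h2 : ‖u‖ ≤ ‖z‖ + 1 := by
        have h3 := mem_ball_iff_norm.1 hu
        have h4 := norm_add_le (u - z) z
        rw [sub_add_cancel] at h4
        linarith
      have := mul_le_mul_of_nonneg_left h2 (abs_nonneg c)
      linarith
    have := mul_le_mul_of_nonneg_left h1 ha
    linarith
  · exact Filter.Eventually.of_forall fun g => (hc.comp (by fun_prop)).continuousAt

/-- **Averages of odd gradient fields are odd gradient fields.** -/
theorem OGF.avg {a : ι → (ι → ℝ) → ℝ} {H : ι → ι → (ι → ℝ) → ℝ} (h : OGF a H) (c c' : ℝ) :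
    OGF (fun i => av2 c c' (a i)) (fun i j y => c * av2 c c' (H i j) y) where
  fd i y := by
    have h1 := H785.fd_gauss (h.eg i) (fun j => h.egH i j) (fun y => h.fd i y) c' (c • y)
    have h2 : HasFDerivAt (fun y : ι → ℝ => c • y) (c • ContinuousLinearMap.id ℝ (ι → ℝ)) y :=
      (ContinuousLinearMap.id ℝ (ι → ℝ)).hasFDerivAt.const_smul c
    refine (h1.comp y h2).congr_fderiv ?_
    ext w
    rw [ContinuousLinearMap.comp_apply, H785.lf_apply, H785.lf_apply]
    simp only [_root_.smul_apply, ContinuousLinearMap.id_apply, Pi.smul_apply, smul_eq_mul]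
    refine Finset.sum_congr rfl fun j _ => ?_
    unfold av2
    ring
  eg i := eg_av2 (h.eg i) c c'
  egH i j := (eg_av2 (h.egH i j) c c').const_mul c
  cH i j := (cont_av2 (h.egH i j) (h.cH i j) c c').const_mul c
  sym i j y := by
    have : H i j = H j i := funext fun y => h.sym i j y
    simp only [this]
  odd i y := by
    unfold av2
    rw [← integral_neg, ← int_neg' (G := fun y' => a i (c • -y + c' • y'))
      ((h.eg i).meas.comp (by fun_prop))]
    refine integral_congr_ae (Filter.Eventually.of_forall fun y' => ?_)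
    simp only
    rw [← h.odd]
    congr 1
    simp only [smul_neg, neg_add]

end fld

end Vale.Agent.P146.R1C
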